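import Crest.Agent.R085.AreaA0

/-! Row 85. Geometry in a tree of nice cubes. -/

set_option autoImplicit false

open MeasureTheory Set Filter Topology Metric
open scoped ENNReal NNReal

noncomputable section

namespace Crest.Agent.R085

variable {n d : ℕ} {C₂ η r₀ : ℝ} {N M : ℕ} {μ : Measure (X d)}

/-- The shadows of the stopping cubes cover the shadow of the interior of the root.
Minimise `‖u - pr ι₀ (p - q)‖ + rr l` over the finite set of the cubes `(l, p)` of the tree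
(`(l, a l P.2)`, `P ∈ S`, `j ≤ l < P.1`; it contains the root `(j, q)` since `x` is covered); the
minimum `e` is at most `4 rr j`.  Go up to the largest generation `l' ∈ [j, l]` with `e ≤ 4 rr l'`
(`rr l' ≤ 8 e`).  With `n1`, `surj_of_colip` and `n2` at this ancestor find `y` in the support with
`‖u - pr ι₀ (y - q)‖ ≤ η rr l' ≤ 8 η e`.  By `Nice.colip_self` at the root `dist x y < 40 η rr j`,
so `y ∈ cub j q`; let `P ∈ S` contain `y`; minimality for the parent of `P` gives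
`e ≤ 8 η e + 96 rr P.1`. -/
theorem stop_cover (h : 0 < r₀) (hη0 : 0 < η) (hη : η ≤ 1 / 1000) (c : Cubes μ.support r₀ N)
    (hM : M ≤ N) {j : ℕ} {q : X d} {S : Finset (ℕ × X d)} (hS : c.Part M j q S)
    {ι : ℕ → X d → X n →ₗᵢ[ℝ] X d} {θ : ℕ → X d → ℝ}
    (hT : ∀ P ∈ S, ∀ l, j ≤ l → l < P.1 →
      Nice C₂ μ (c.a l P.2) (rr r₀ l) η (ι l (c.a l P.2)) (θ l (c.a l P.2)) ∧
        CoL (ι j q) (ι l (c.a l P.2)))
    {x : X d} (hx : x ∈ c.cub j q) (hx' : x ∉ c.bd j (40 * η * rr r₀ j)) {u : X n}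
    (hu : ‖u - pr (ι j q) (x - q)‖ < η * rr r₀ j) :
    ∃ P ∈ S, ∃ y ∈ c.cub P.1 P.2, ‖u - pr (ι j q) (y - q)‖ < 1600 * η * rr r₀ P.1 := by
  classical
  set ι₀ := ι j q with hι₀
  have hxE : x ∈ μ.support := hx.1
  obtain ⟨P₀, hP₀, -⟩ := hS.cover x hx
  have hjM : j < M := lt_of_lt_of_le (hS.lev P₀ hP₀).1 (hS.lev P₀ hP₀).2
  have hjN : j ≤ N := by omega
  have hrj := rr_pos h j
  have hroot : Nice C₂ μ q (rr r₀ j) η ι₀ (θ j q) := by
    have := (hT P₀ hP₀ j le_rfl (hS.lev P₀ hP₀).1).1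
    rwa [(hS.ctr P₀ hP₀).2] at this
  have hxq : dist x q < 2 * rr r₀ j := c.cub_subset hjN q hx
  let 𝒯 : Finset (ℕ × (ℕ × X d)) :=
    (Finset.range M ×ˢ S).filter fun Q => j ≤ Q.1 ∧ Q.1 < Q.2.1
  have h𝒯 : ∀ l P, (l, P) ∈ 𝒯 ↔ P ∈ S ∧ j ≤ l ∧ l < P.1 := by
    intro l P
    simp only [𝒯, Finset.mem_filter, Finset.mem_product, Finset.mem_range]
    exact ⟨fun h => ⟨h.1.2, h.2⟩,
      fun h => ⟨⟨lt_of_lt_of_le h.2.2 (hS.lev P h.1).2, h.1⟩, h.2⟩⟩
  let val : ℕ × (ℕ × X d) → ℝ := fun Q => ‖u - pr ι₀ (c.a Q.1 Q.2.2 - q)‖ + rr r₀ Q.1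
  have hmem0 : (j, P₀) ∈ 𝒯 := (h𝒯 _ _).2 ⟨hP₀, le_rfl, (hS.lev P₀ hP₀).1⟩
  obtain ⟨⟨l, P⟩, hQ, hmin⟩ := 𝒯.exists_min_image val ⟨_, hmem0⟩
  obtain ⟨hP, hjl, hlP⟩ := (h𝒯 _ _).1 hQ
  have hPE : P.2 ∈ μ.support := (hS.ctr P hP).1.1
  have hlN : l ≤ N := by have := (hS.lev P hP).2; omega
  set e : ℝ := val (l, P) with he
  have he1 : e = ‖u - pr ι₀ (c.a l P.2 - q)‖ + rr r₀ l := rfl
  have hrl := rr_pos h l
  have he0 : rr r₀ l ≤ e := by rw [he1]; linarith [norm_nonneg (u - pr ι₀ (c.a l P.2 - q))]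
  have tri : ∀ y y' : X d, ‖u - pr ι₀ (y - q)‖ ≤ ‖u - pr ι₀ (y' - q)‖ + dist y y' := by
    intro y y'
    have h1 : u - pr ι₀ (y - q) = (u - pr ι₀ (y' - q)) + pr ι₀ (y' - y) := by
      simp only [map_sub]; abel
    rw [h1, dist_comm, dist_eq_norm]
    exact (norm_add_le _ _).trans (by gcongr; exact norm_pr_le _ _)
  have he4 : e ≤ 4 * rr r₀ j := by
    have h1 : e ≤ val (j, P₀) := hmin _ hmem0
    have h2 : val (j, P₀) = ‖u - pr ι₀ (q - q)‖ + rr r₀ j := by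
      simp only [val, (hS.ctr P₀ hP₀).2]
    have h3 := tri q x
    rw [dist_comm] at h3
    nlinarith
  obtain ⟨l', hl', hmax⟩ := ((Finset.Icc j l).filter fun i => e ≤ 4 * rr r₀ i).exists_max_image id
    ⟨j, by simp [hjl, he4]⟩
  simp only [Finset.mem_filter, Finset.mem_Icc, id] at hl' hmax
  obtain ⟨⟨hjl', hl'l⟩, hel'⟩ := hl'
  have hrl' := rr_pos h l'
  have hl'j : rr r₀ l' ≤ rr r₀ j := rr_anti h hjl'
  have h8 : rr r₀ l' ≤ 8 * e := by
    rcases hl'l.eq_or_lt with h1 | h1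
    · rw [h1]; linarith
    · have h2 : ¬e ≤ 4 * rr r₀ (l' + 1) := fun h2 => by
        have := hmax (l' + 1) ⟨⟨by omega, h1⟩, h2⟩
        omega
      rw [rr_succ] at h2
      linarith
  obtain ⟨hN', hC'⟩ := hT P hP l' hjl' (by omega)
  set p' := c.a l' P.2 with hp'
  have hp'E : p' ∈ μ.support := c.mem l' (by omega) _ hPE
  have hpp' : dist (c.a l P.2) p' < 2 * rr r₀ l' := by
    have := c.near l' (by omega) _ (c.mem l hlN _ hPE)
    rwa [c.a_a h hl'l hlN hPE] at this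
  have hp'q : dist p' q < 2 * rr r₀ j := by
    have := c.near j hjN _ hp'E
    rwa [hp', c.a_a h hjl' (by omega) hPE, (hS.ctr P hP).2] at this
  have hu6 : ‖u - pr ι₀ (p' - q)‖ ≤ 6 * rr r₀ l' := by
    have := tri p' (c.a l P.2)
    rw [dist_comm] at this
    linarith
  obtain ⟨v, hv, hv'⟩ := surj_of_colip ((pr ι₀).comp (ι l' p').toContinuousLinearMap)
    (c := 1 / 2) (by norm_num) (fun w => by
      have := hC' w
      simp only [ContinuousLinearMap.comp_apply, LinearIsometry.coe_toContinuousLinearMap]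
      linarith) (u - pr ι₀ (p' - q))
  simp only [ContinuousLinearMap.comp_apply, LinearIsometry.coe_toContinuousLinearMap] at hv
  have hv12 : ‖v‖ ≤ 12 * rr r₀ l' := by linarith
  obtain ⟨y, hyE, hy⟩ := hN'.n2 v (by linarith)
  have huy : ‖u - pr ι₀ (y - q)‖ ≤ η * rr r₀ l' := by
    have h1 : u - pr ι₀ (y - q) = -pr ι₀ (y - p' - ι l' p' v) := by
      simp only [map_sub] at hv ⊢
      rw [hv]; abel
    rw [h1, norm_neg]
    exact (norm_pr_le _ _).trans hy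
  have hηl : η * rr r₀ l' ≤ η * rr r₀ j := by gcongr
  have hηj : η * rr r₀ j ≤ 1 / 1000 * rr r₀ j := by gcongr
  have hyq : dist y q < 20 * rr r₀ j := by
    have h1 : dist y p' ≤ η * rr r₀ l' + 12 * rr r₀ l' := by
      have h2 : y - p' = (y - p' - ι l' p' v) + ι l' p' v := by abel
      rw [dist_eq_norm, h2]
      refine (norm_add_le _ _).trans ?_
      rw [LinearIsometry.norm_map]
      linarith
    have := dist_triangle y p' q
    linarith
  have hxy : dist x y < 40 * η * rr r₀ j := by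
    have h1 := hroot.colip_self hxE hyE (by linarith) hyq
    have h2 : pr ι₀ (x - y) = (u - pr ι₀ (y - q)) - (u - pr ι₀ (x - q)) := by
      simp only [map_sub]; abel
    have h3 := norm_sub_le (u - pr ι₀ (y - q)) (u - pr ι₀ (x - q))
    rw [← h2] at h3
    rw [dist_eq_norm]
    have : 0 < η * rr r₀ j := by positivity
    linarith
  have hyc : y ∈ c.cub j q := by
    refine ⟨hyE, ?_⟩
    by_contra hne
    exact hx' ⟨hxE, y, hyE, by rw [hx.2]; exact hne, hxy⟩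
  obtain ⟨P', hP', hyP'⟩ := hS.cover y hyc
  refine ⟨P', hP', y, ⟨hyE, hyP'⟩, ?_⟩
  obtain ⟨hj', hM'⟩ := hS.lev P' hP'
  obtain ⟨i, hi⟩ : ∃ i, P'.1 = i + 1 := ⟨P'.1 - 1, by omega⟩
  have h1 : e ≤ val (i, P') := hmin _ ((h𝒯 _ _).2 ⟨hP', by omega, by omega⟩)
  have h2 : val (i, P') = ‖u - pr ι₀ (c.a i y - q)‖ + rr r₀ i := by
    simp only [val]
    rw [← hyP', c.a_a h (by omega) (by omega) hyE]
  have h3 := tri (c.a i y) y
  have h4 := c.near i (by omega) y hyE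
  rw [dist_comm] at h3
  have h5 : rr r₀ P'.1 = rr r₀ i / 32 := by rw [hi, rr_succ]
  have h6 : η * rr r₀ l' ≤ η * (8 * e) := by gcongr
  have h7 : η * (8 * e) ≤ 1 / 1000 * (8 * e) := by
    have : 0 ≤ 8 * e := by linarith
    gcongr
  have h9 : e ≤ 100 * rr r₀ P'.1 := by
    have := rr_pos h i
    linarith
  have h10 : η * (8 * e) ≤ η * (8 * (100 * rr r₀ P'.1)) := by gcongr
  have : 0 < η * rr r₀ P'.1 := mul_pos hη0 (rr_pos h _)
  linarith

end Crest.Agent.R085
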