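import Crest.Agent.R085.Iso0

/-! Row 85. Linear isometries, projections, elementary properties of flatness. -/

set_option autoImplicit false

open MeasureTheory Set Filter Topology Metric
open scoped ENNReal NNReal

noncomputable section

namespace Crest.Agent.R085

variable {m d : ℕ}

/-- Hadamard (complete the unit vector to an orthonormal basis,
`Orientation.abs_volumeForm_apply_le`). -/
theorem abs_det_le (T : X m →L[ℝ] X m) (hT : ∀ u, ‖T u‖ ≤ ‖u‖) {v : X m} (hv : ‖v‖ = 1) :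
    |LinearMap.det (T : X m →ₗ[ℝ] X m)| ≤ ‖T v‖ := by
  classical
  have hm : 0 < m := by
    rcases Nat.eq_zero_or_pos m with rfl | h
    · rw [Subsingleton.elim v 0, norm_zero] at hv
      exact absurd hv zero_ne_one
    · exact h
  have hon : Orthonormal ℝ (({(⟨0, hm⟩ : Fin m)} : Set (Fin m)).domRestrict fun _ => v) :=
    ⟨fun _ => hv, fun i j hij => absurd (Subsingleton.elim i j) hij⟩
  obtain ⟨e, he⟩ := hon.exists_orthonormalBasis_extension_of_card_eq (by simp)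
  have : Fact (Module.finrank ℝ (X m) = m) := ⟨by simp⟩
  have h1 := e.toBasis.orientation.abs_volumeForm_apply_le ((T : X m →ₗ[ℝ] X m) ∘ e.toBasis)
  rw [Orientation.volumeForm_robust' _ e, Module.Basis.det_comp, Module.Basis.det_self, mul_one,
    ← Finset.mul_prod_erase _ _ (Finset.mem_univ ⟨0, hm⟩)] at h1
  have h2 : ∏ i ∈ Finset.univ.erase (⟨0, hm⟩ : Fin m), ‖((T : X m →ₗ[ℝ] X m) ∘ e.toBasis) i‖ ≤ 1 :=
    Finset.prod_le_one (fun _ _ => norm_nonneg _) fun i _ =>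
      (hT (e i)).trans (e.orthonormal.1 i).le
  refine h1.trans ((mul_le_of_le_one_right (norm_nonneg _) h2).trans (le_of_eq ?_))
  rw [← he ⟨0, hm⟩ rfl]
  rfl

theorem vol_image_le (T : X m →L[ℝ] X m) (hT : ∀ u, ‖T u‖ ≤ ‖u‖) {v : X m}
    (hv : ‖T v‖ < ‖v‖ / 2) (b : X m) {Z : Set (X m)} (hZ : Bornology.IsBounded Z) :
    volume.real ((fun u => b + T u) '' Z) ≤ volume.real Z / 2 := by
  have h0 : 0 < ‖v‖ := by linarith [norm_nonneg (T v)]
  have h1 := abs_det_le T hT (v := ‖v‖⁻¹ • v) (by rw [norm_smul, norm_inv, norm_norm]; field_simp)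
  have h2 : |LinearMap.det (T : X m →ₗ[ℝ] X m)| ≤ 1 / 2 := by
    refine h1.trans ?_
    rw [map_smul, norm_smul, norm_inv, norm_norm, inv_mul_le_iff₀ h0]
    linarith
  have e : (fun u => b + T u) '' Z = (fun w => b + w) '' (T '' Z) := by rw [image_image]
  rw [e, image_add_left, Measure.real, measure_preimage_add,
    Measure.addHaar_image_continuousLinearMap, ENNReal.toReal_mul,
    ENNReal.toReal_ofReal (abs_nonneg _)]
  have h3 := mul_le_mul_of_nonneg_right h2 (measureReal_nonneg (μ := volume) (s := Z))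
  rw [Measure.real] at h3 ⊢
  linarith

theorem surj_of_colip (T : X m →L[ℝ] X m) {c : ℝ} (hc : 0 < c) (hT : ∀ u, c * ‖u‖ ≤ ‖T u‖)
    (p : X m) : ∃ u, T u = p ∧ ‖u‖ ≤ ‖p‖ / c := by
  have hi : Function.Injective (T : X m →ₗ[ℝ] X m) := by
    refine (injective_iff_map_eq_zero _).2 fun u hu => ?_
    have h1 := hT u
    rw [show T u = 0 from hu, norm_zero] at h1
    exact norm_le_zero_iff.1 (nonpos_of_mul_nonpos_right h1 hc)
  obtain ⟨u, hu⟩ := LinearMap.injective_iff_surjective.1 hi p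
  refine ⟨u, hu, ?_⟩
  rw [le_div_iff₀' hc, ← show T u = p from hu]
  exact hT u

variable {μ : Measure (X d)} {x x' : X d} {r r' ε ε' : ℝ} {ι : X m →ₗᵢ[ℝ] X d}

theorem Fl.mono (h : Fl μ x r ε ι) (hr : 0 < r) (hε : ε ≤ ε') : Fl μ x r ε' ι := by
  intro y hy
  obtain ⟨u, hu⟩ := h y hy
  exact ⟨u, hu.trans (mul_le_mul_of_nonneg_right (mul_le_mul_of_nonneg_right hε hr.le) (wt_pos _).le)⟩

theorem Fl.pr (h : Fl μ x r ε ι) {y : X d} (hy : y ∈ μ.support) :
    ‖y - x - ι (pr ι (y - x))‖ ≤ ε * r * wt (‖y - x‖ / r) := by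
  obtain ⟨u, hu⟩ := h y hy
  exact (norm_sub_pr_le ι (y - x) u).trans hu

theorem Fl.scale (h : Fl μ x r ε ι) (hε : 0 ≤ ε) (hr' : 0 < r') (hr : r' ≤ r) :
    Fl μ x r' (ε * (r / r')) ι := by
  intro y hy
  obtain ⟨u, hu⟩ := h y hy
  refine ⟨u, hu.trans ?_⟩
  have e : ε * (r / r') * r' = ε * r := by field_simp
  rw [e]
  exact mul_le_mul_of_nonneg_left (wt_mono (div_le_div_of_nonneg_left (norm_nonneg _) hr' hr))
    (mul_nonneg hε (hr'.le.trans hr))

theorem Fl.center (h : Fl μ x r ε ι) (hε : 0 ≤ ε) (hr : 0 < r) (hx' : x' ∈ μ.support)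
    (hd : dist x' x ≤ 4 * r) : Fl μ x' r (20 * ε) ι := by
  intro y hy
  obtain ⟨u, hu⟩ := h y hy
  obtain ⟨u', hu'⟩ := h x' hx'
  rw [dist_eq_norm] at hd
  refine ⟨u - u', ?_⟩
  have e : y - x' - ι (u - u') = (y - x - ι u) - (x' - x - ι u') := by
    rw [map_sub]
    abel
  have h1 : wt (‖x' - x‖ / r) ≤ 8 := by
    refine (wt_mono ((div_le_iff₀ hr).2 hd)).trans (le_of_eq ?_)
    rw [wt_of_ge (by norm_num), show (4 : ℝ) = 2 ^ 2 by norm_num, Real.sqrt_sq (by norm_num)]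
    norm_num
  have h2 : wt (‖y - x‖ / r) ≤ 12 * wt (‖y - x'‖ / r) := by
    have h3 : ‖y - x‖ / r ≤ ‖y - x'‖ / r + 4 := by
      rw [div_add' _ _ _ hr.ne']
      exact div_le_div_of_nonneg_right
        (by linarith [norm_sub_le_norm_sub_add_norm_sub y x' x]) hr.le
    refine (wt_mono h3).trans ((wt_add_le (by norm_num)).trans
      (mul_le_mul_of_nonneg_right ?_ (wt_pos _).le))
    have h4 : √(1 + 4) ≤ 2.4 := Real.sqrt_le_iff.2 ⟨by norm_num, by norm_num⟩
    exact (mul_le_mul_of_nonneg_left h4 (by norm_num)).trans (by norm_num)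
  have h3 := one_le_wt (‖y - x'‖ / r)
  have h4 := mul_nonneg hε hr.le
  rw [e]
  refine (norm_sub_le _ _).trans ((add_le_add hu hu').trans ?_)
  have h5 : wt (‖y - x‖ / r) + wt (‖x' - x‖ / r) ≤ 20 * wt (‖y - x'‖ / r) := by linarith
  have h6 := mul_le_mul_of_nonneg_left h5 h4
  linarith

theorem flat_top (μ : Measure (X d)) (x : X d) (hr : 0 < r) (hε : 0 ≤ ε) : Flat d μ x r ε := by
  refine ⟨LinearIsometry.id, fun y _ => ⟨y - x, ?_⟩⟩
  have := wt_pos (‖y - x‖ / r)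
  simp only [LinearIsometry.id_apply, sub_self, norm_zero]
  positivity

theorem Fl.range (h : ∀ ε : ℝ, 0 < ε → Fl μ 0 1 ε ι) {y : X d} (hy : y ∈ μ.support) :
    ∃ u, ι u = y := by
  refine ⟨R085.pr ι y, (sub_eq_zero.1 (norm_le_zero_iff.1 (le_of_forall_pos_le_add fun ε hε => ?_))).symm⟩
  have h0 := wt_pos ‖y‖
  have h1 := (h (ε / wt ‖y‖) (by positivity)).pr hy
  rw [sub_zero, div_one, mul_one, div_mul_cancel₀ _ h0.ne'] at h1
  rwa [zero_add]

end Crest.Agent.R085
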