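import Crest.Agent.R085.Cube
import Crest.Agent.R085.Iso

/-! Row 85. Geometry in a tree of nice cubes. -/

set_option autoImplicit false

open MeasureTheory Set Filter Topology Metric
open scoped ENNReal NNReal

noncomputable section

namespace Crest.Agent.R085

variable {n d : ℕ} {C₂ η r₀ : ℝ} {N M : ℕ} {μ : Measure (X d)}

theorem AreaA0_dec {x : X d} {r θ : ℝ} {ι : X n →ₗᵢ[ℝ] X d} (h : Nice C₂ μ x r η ι θ)
    {y y' : X d} (hy : y ∈ μ.support) (hy' : y' ∈ μ.support)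
    (hd : dist y x < 20 * r) (hd' : dist y' x < 20 * r) :
    ∃ (v : X n) (e : X d), y - y' = ι v + e ∧ ‖e‖ ≤ 2 * (η * r) := by
  obtain ⟨u, hu⟩ := h.n1 y hy hd
  obtain ⟨u', hu'⟩ := h.n1 y' hy' hd'
  refine ⟨u - u', (y - x - ι u) - (y' - x - ι u'), by rw [map_sub]; abel, ?_⟩
  linarith [norm_sub_le (y - x - ι u) (y' - x - ι u')]

theorem AreaA0_pr (ι₀ : X n →ₗᵢ[ℝ] X d) (w e : X d) : ‖pr ι₀ w‖ ≤ ‖pr ι₀ (w + e)‖ + ‖e‖ := by
  have h1 : pr ι₀ w = pr ι₀ (w + e) - pr ι₀ e := by rw [map_add]; abel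
  have h2 := norm_sub_le (pr ι₀ (w + e)) (pr ι₀ e)
  rw [← h1] at h2
  linarith [norm_pr_le ι₀ e]


/-- Both points are `η r`-close to the plane. -/
theorem Nice.colip {x : X d} {r θ : ℝ} {ι ι₀ : X n →ₗᵢ[ℝ] X d} (h : Nice C₂ μ x r η ι θ)
    (hc : CoL ι₀ ι) {y y' : X d} (hy : y ∈ μ.support) (hy' : y' ∈ μ.support)
    (hd : dist y x < 20 * r) (hd' : dist y' x < 20 * r) :
    ‖y - y'‖ / 2 - 3 * (η * r) ≤ ‖pr ι₀ (y - y')‖ := by
  obtain ⟨v, e, h1, h2⟩ := AreaA0_dec h hy hy' hd hd'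
  have h3 := norm_add_le (ι v) e
  rw [ι.norm_map] at h3
  rw [h1]
  linarith [AreaA0_pr ι₀ (ι v) e, hc v]

theorem Nice.colip_self {x : X d} {r θ : ℝ} {ι : X n →ₗᵢ[ℝ] X d} (h : Nice C₂ μ x r η ι θ)
    {y y' : X d} (hy : y ∈ μ.support) (hy' : y' ∈ μ.support)
    (hd : dist y x < 20 * r) (hd' : dist y' x < 20 * r) :
    ‖y - y'‖ ≤ ‖pr ι (y - y')‖ + 4 * (η * r) := by
  obtain ⟨v, e, h1, h2⟩ := AreaA0_dec h hy hy' hd hd'
  have h3 := norm_add_le (ι v) e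
  have h4 := AreaA0_pr ι (ι v) e
  rw [ι.norm_map] at h3
  rw [pr_iso] at h4
  rw [h1]
  linarith

/-- The planes of a nice cube and of its nice parent are close: for a unit vector `v` the point
`x + r ι v` is `η r`-close to the support (`n2`), which is `32 η r`-close to the plane of the
parent. -/
theorem Nice.child {x x' : X d} {r θ θ' : ℝ} {ι ι' ι₀ : X n →ₗᵢ[ℝ] X d} (hr : 0 < r) (hη0 : 0 ≤ η)
    (hη : η ≤ 1 / 1000) (h : Nice C₂ μ x r η ι θ) (h' : Nice C₂ μ x' (32 * r) η ι' θ')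
    (hx : x ∈ μ.support) (hd : dist x x' < 64 * r) (hc : CoL ι₀ ι') (u : X n) :
    1 / 4 * ‖u‖ ≤ ‖pr ι₀ (ι u)‖ := by
  rcases eq_or_ne u 0 with rfl | hu
  · simp
  have hu0 : 0 < ‖u‖ := norm_pos_iff.2 hu
  have hv : ‖(r / ‖u‖) • u‖ = r := by
    rw [norm_smul, Real.norm_of_nonneg (by positivity)]
    field_simp
  obtain ⟨y, hy, h1⟩ := h.n2 ((r / ‖u‖) • u) (by rw [hv]; linarith)
  have hηr : η * r ≤ 1 / 1000 * r := by gcongr
  have hηr0 : 0 ≤ η * r := by positivity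
  have e : y - x = ι ((r / ‖u‖) • u) + (y - x - ι ((r / ‖u‖) • u)) := by abel
  have h2 : ‖y - x‖ ≤ r + η * r := by
    rw [e]
    refine (norm_add_le _ _).trans ?_
    rw [ι.norm_map, hv]
    linarith
  have h3 : r - η * r ≤ ‖y - x‖ := by
    have := norm_sub_le (y - x) (y - x - ι ((r / ‖u‖) • u))
    rw [sub_sub_cancel, ι.norm_map, hv] at this
    linarith
  have h4 := h'.colip hc hy hx (by
    have := dist_triangle y x x'
    rw [dist_eq_norm y x] at this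
    linarith) (by linarith)
  have h5 := AreaA0_pr ι₀ (y - x) (-(y - x - ι ((r / ‖u‖) • u)))
  rw [norm_neg, neg_sub, add_sub_cancel, map_smul, map_smul, norm_smul,
    Real.norm_of_nonneg (by positivity)] at h5
  rw [map_smul] at h1
  have h6 : 1 / 4 * r ≤ r / ‖u‖ * ‖pr ι₀ (ι u)‖ := by nlinarith
  rw [div_mul_eq_mul_div r, le_div_iff₀ hu0] at h6
  nlinarith

/-- Separation of the projected centres of the stopping cubes.  Let `P.1 ≤ P'.1`,
`t = ‖P.2 - P'.2‖ ≥ rr P.1 / 4` (`sep`, `disj`), `t < 4 rr j`; use `Nice.colip` at the ancestor of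
`P` of the largest generation `l ∈ [j, P.1)` with `t ≤ 4 rr l`; then `rr l ≤ 128 t`. -/
theorem stop_sep (h : 0 < r₀) (hη0 : 0 ≤ η) (hη : η ≤ 1 / 2000) (c : Cubes μ.support r₀ N)
    (hM : M ≤ N) {j : ℕ} {q : X d} {S : Finset (ℕ × X d)} (hS : c.Part M j q S)
    {ι : ℕ → X d → X n →ₗᵢ[ℝ] X d} {θ : ℕ → X d → ℝ} {ι₀ : X n →ₗᵢ[ℝ] X d}
    (hT : ∀ P ∈ S, ∀ l, j ≤ l → l < P.1 →
      Nice C₂ μ (c.a l P.2) (rr r₀ l) η (ι l (c.a l P.2)) (θ l (c.a l P.2)) ∧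
        CoL ι₀ (ι l (c.a l P.2))) :
    ∀ P ∈ S, ∀ P' ∈ S, P ≠ P' →
      (‖P.2 - P'.2‖ + rr r₀ P.1 + rr r₀ P'.1) / 36 ≤ ‖pr ι₀ (P.2 - P'.2)‖ := by
  have key : ∀ P ∈ S, ∀ P' ∈ S, P ≠ P' → P.1 ≤ P'.1 →
      (‖P.2 - P'.2‖ + rr r₀ P.1 + rr r₀ P'.1) / 36 ≤ ‖pr ι₀ (P.2 - P'.2)‖ := by
    intro P hP P' hP' hne hle
    obtain ⟨l1, l2⟩ := hS.lev P hP
    obtain ⟨c1, c2⟩ := hS.ctr P hP
    obtain ⟨c1', c2'⟩ := hS.ctr P' hP'
    have ht : rr r₀ P.1 / 4 ≤ ‖P.2 - P'.2‖ := by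
      have := c.sep (l2.trans hM) c1 c1'.1 fun e => hne (hS.disj _ c1'.1 P hP P' hP' e c1'.2)
      rwa [dist_comm, dist_eq_norm] at this
    have ht' : ‖P.2 - P'.2‖ ≤ 4 * rr r₀ j := by
      have a1 := c.near j (by omega) _ c1.1
      have a2 := c.near j (by omega) _ c1'.1
      rw [c2] at a1
      rw [c2'] at a2
      have := dist_triangle_right P.2 P'.2 q
      rw [dist_eq_norm] at this
      linarith
    obtain ⟨l, ⟨hl1, hl2, hl3⟩, hl4⟩ := Set.exists_max_image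
      {l | j ≤ l ∧ l < P.1 ∧ ‖P.2 - P'.2‖ ≤ 4 * rr r₀ l} id
      ((Set.finite_lt_nat P.1).subset fun l hl => hl.2.1) ⟨j, le_rfl, l1, ht'⟩
    have hl5 : rr r₀ l ≤ 128 * ‖P.2 - P'.2‖ := by
      have e := rr_succ r₀ l
      rcases eq_or_lt_of_le (Nat.succ_le_of_lt hl2) with h1 | h1
      · rw [← h1] at ht
        linarith
      · by_contra h2
        have := hl4 (l + 1) ⟨by omega, h1, by linarith [norm_nonneg (P.2 - P'.2)]⟩
        simp at this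
    obtain ⟨hN, hC⟩ := hT P hP l hl1 hl2
    have hr := rr_pos h l
    have a1 := c.near l (by omega) _ c1.1
    have h3 := hN.colip hC c1.1 c1'.1 (by linarith) (by
      have := dist_triangle_left P'.2 (c.a l P.2) P.2
      rw [dist_eq_norm P.2 P'.2] at this
      linarith)
    have h4 : η * rr r₀ l ≤ 1 / 2000 * (128 * ‖P.2 - P'.2‖) := by gcongr
    have h5 := rr_anti h hle
    linarith [norm_nonneg (P.2 - P'.2)]
  intro P hP P' hP' hne
  rcases le_total P.1 P'.1 with hle | hle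
  · exact key P hP P' hP' hne hle
  · have := key P' hP' P hP hne.symm hle
    rw [norm_sub_rev, ← norm_neg (pr ι₀ _), ← map_neg, neg_sub] at this
    linarith

end Crest.Agent.R085
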