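import Crest.Agent.R085.AreaB0

/-! Row 85. The area inequality. -/

set_option autoImplicit false

open MeasureTheory Set Filter Topology Metric
open scoped ENNReal NNReal

noncomputable section

namespace Crest.Agent.R085

variable {n d : ℕ} {C C₂ D η r₀ : ℝ} {N M : ℕ} {μ : Measure (X d)}

open Classical in
/-- Root: `m1` for `Z = cub j q \ bd j (τ rr j)`, `stop_cover`, subadditivity.  Stopping cubes of
generation `< M` which are nice are not `CoL`: `Nice.child`, `shadow_angle`, and the part of the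
support in the thickening of the cube but not in the cube lies in `bd ∩ ball`.  The other ones:
`shadow_le`, `le_cub`. -/
theorem area (n : ℕ) {C : ℝ} (hC : 1 ≤ C) : ∃ C₃ : ℝ, 0 < C₃ ∧
    ∀ (d : ℕ) (μ : Measure (X d)) (C₂ D η τ ζ r₀ : ℝ) (N M j : ℕ) (c : Cubes μ.support r₀ N)
      (q : X d) (S : Finset (ℕ × X d)) (nice : ℕ → X d → Prop)
      (ι : ℕ → X d → X n →ₗᵢ[ℝ] X d) (θ : ℕ → X d → ℝ), Up n C μ → Lo n C D μ → 1 ≤ C₂ → 0 < r₀ →
      r₀ ≤ D → 0 < η → η ≤ 1 / 7000 → 7000 * η ≤ τ → 0 ≤ ζ → 10 * 4 ^ n * C * (ζ + η) ≤ 1 →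
      M ≤ N → j < M → c.Ctr j q → nice j q →
      (∀ i ≤ M, ∀ x, μ.real (c.bd i (τ * rr r₀ i) ∩ ball x (3 * rr r₀ i)) ≤ ζ * rr r₀ i ^ n) →
      (∀ l p, nice l p → Nice C₂ μ p (rr r₀ l) η (ι l p) (θ l p)) → c.Part M j q S →
      (∀ P ∈ S, ∀ l, j ≤ l → l < P.1 → nice l (c.a l P.2) ∧ CoL (ι j q) (ι l (c.a l P.2))) →
      (∀ P ∈ S, P.1 < M → ¬(nice P.1 P.2 ∧ CoL (ι j q) (ι P.1 P.2))) →
      9 / 10 * (μ.real (c.cub j q) / θ j q) ≤
        ∑ P ∈ S, if P.1 < M ∧ nice P.1 P.2 then 11 / 20 * (μ.real (c.cub P.1 P.2) / θ P.1 P.2)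
          else C₃ * μ.real (c.cub P.1 P.2) := by
  obtain ⟨c₀, hc₀, hsh⟩ := shadow_le n
  have hC0 : 0 < C := by linarith
  refine ⟨c₀ * (4 ^ n * C), by positivity, ?_⟩
  intro d μ C₂ D η τ ζ r₀ N M j c q S nice ι θ hu hl hC₂ h0 hD hη0 hη hτ hζ hs hM hj hq hn hbd
    hnice hS hT hT'
  have := hu.locFin
  have hθ : ∀ l p, nice l p → 0 < θ l p := fun l p h =>
    lt_of_lt_of_le (by positivity) (hnice l p h).lo
  have herr : ∀ i ≤ M, ∀ p, c.Ctr i p → (ζ + η) * rr r₀ i ^ n ≤ μ.real (c.cub i p) / 10 := by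
    intro i hi p hp
    have h1 := le_cub hu hl h0 hD c (hi.trans hM) hp
    have h2 : 0 < rr r₀ i ^ n := pow_pos (rr_pos h0 i) n
    rw [div_le_iff₀ (by positivity)] at h1
    have h3 : (4 ^ n * C) * ((ζ + η) * rr r₀ i ^ n) ≤ (4 ^ n * C) * (μ.real (c.cub i p) / 10) := by
      nlinarith
    exact le_of_mul_le_mul_left h3 (by positivity)
  set ι₀ := ι j q with hι₀
  have hr := rr_pos h0 j
  have hjN : j ≤ N := by omega
  set Z : Set (X d) := c.cub j q \ c.bd j (τ * rr r₀ j) with hZ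
  have hZb : Z ⊆ ball q (20 * rr r₀ j) := fun y hy =>
    ball_subset_ball (by linarith) (c.cub_subset hjN q hy.1)
  have h1 := (hnice j q hn).m1 Z hZb
  have h2 : μ.real (c.cub j q) ≤ μ.real Z + ζ * rr r₀ j ^ n := by
    refine le_trans ?_ (add_le_add le_rfl (hbd j hj.le q))
    refine le_trans (measureReal_mono ?_ ?_) (measureReal_union_le _ _)
    · intro y hy
      by_cases hb : y ∈ c.bd j (τ * rr r₀ j)
      · exact Or.inr ⟨hb, ball_subset_ball (by linarith) (c.cub_subset hjN q hy)⟩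
      · exact Or.inl ⟨hy, hb⟩
    · exact hu.ne_top ((isBounded_ball.subset hZb).union (isBounded_ball.subset inter_subset_right))
  have hshP : ∀ P ∈ S, Bornology.IsBounded
      (shadow ι₀ q (c.cub P.1 P.2) (1600 * η * rr r₀ P.1)) ∧
      volume.real (shadow ι₀ q (c.cub P.1 P.2) (1600 * η * rr r₀ P.1)) ≤ c₀ * rr r₀ P.1 ^ n := by
    intro P hP
    have hrP := rr_pos h0 P.1
    exact hsh d ι₀ q P.2 _ _ _ hrP (by nlinarith) (c.cub_subset ((hS.lev P hP).2.trans hM) _)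
  have h3 : volume.real {u : X n | q + ι₀ u ∈ thickening (η * rr r₀ j) Z} ≤
      ∑ P ∈ S, volume.real (shadow ι₀ q (c.cub P.1 P.2) (1600 * η * rr r₀ P.1)) := by
    refine le_trans (measureReal_mono ?_ ?_) (measureReal_biUnion_finset_le S _)
    · intro u hu'
      obtain ⟨x, hx, hd⟩ := mem_thickening_iff.1 hu'
      have h4 : ‖u - pr ι₀ (x - q)‖ < η * rr r₀ j := by
        have h5 : u - pr ι₀ (x - q) = pr ι₀ (q + ι₀ u - x) := by
          simp only [map_sub, map_add, pr_iso]; abel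
        rw [h5]
        rw [dist_eq_norm] at hd
        exact (norm_pr_le _ _).trans_lt hd
      have h5 : x ∉ c.bd j (40 * η * rr r₀ j) := fun hb => hx.2 (by
        obtain ⟨hxE, y, hy, hne, hd⟩ := hb
        exact ⟨hxE, y, hy, hne, hd.trans_le (by nlinarith)⟩)
      obtain ⟨P, hP, y, hy, hlt⟩ := stop_cover (C₂ := C₂) (ι := ι) (θ := θ) h0 hη0
        (hη.trans (by norm_num)) c hM hS
        (fun P hP l h1 h2 => ⟨hnice _ _ (hT P hP l h1 h2).1, (hT P hP l h1 h2).2⟩) hx.1 h5 h4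
      exact mem_biUnion hP ⟨y, hy, hlt⟩
    · refine (Bornology.IsBounded.measure_lt_top ?_).ne
      exact (Bornology.isBounded_biUnion_finset S).2 fun P hP => (hshP P hP).1
  have h4 : 9 / 10 * (μ.real (c.cub j q) / θ j q) ≤
      volume.real {u : X n | q + ι₀ u ∈ thickening (η * rr r₀ j) Z} := by
    rw [← mul_div_assoc, div_le_iff₀ (hθ j q hn)]
    have := herr j hj.le q hq
    linarith
  refine h4.trans (h3.trans (Finset.sum_le_sum fun P hP => ?_))
  obtain ⟨hj', hM'⟩ := hS.lev P hP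
  have hPc := (hS.ctr P hP).1
  have hrP := rr_pos h0 P.1
  have hPN : P.1 ≤ N := hM'.trans hM
  split_ifs with hP'
  · obtain ⟨i, hi⟩ : ∃ i, P.1 = i + 1 := ⟨P.1 - 1, by omega⟩
    have hri : rr r₀ i = 32 * rr r₀ P.1 := by rw [hi, rr_succ]; ring
    obtain ⟨hn', hc'⟩ := hT P hP i (by omega) (by omega)
    have hpar := hnice _ _ hn'
    rw [hri] at hpar
    have hd := c.near i (by omega) _ hPc.1
    have hch := (hnice _ _ hP'.2).child hrP hη0.le (hη.trans (by norm_num)) hpar hPc.1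
      (by linarith) hc'
    have hang := shadow_angle (q := q) hη0 hη hrP (hnice _ _ hP'.2) (hθ _ _ hP'.2).le
      (fun h => hT' P hP hP'.1 ⟨hP'.2, h⟩) hch (Q := c.cub P.1 P.2) (fun y hy => hy.1)
      (c.cub_subset hPN _) (hu.ne_top isBounded_ball)
    have h5 : μ.real (thickening (7000 * η * rr r₀ P.1) (c.cub P.1 P.2)) ≤
        μ.real (c.cub P.1 P.2) + ζ * rr r₀ P.1 ^ n := by
      rw [← real_inter_support]
      refine le_trans ?_ (add_le_add le_rfl (hbd P.1 hM' P.2))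
      refine le_trans (measureReal_mono ?_ ?_) (measureReal_union_le _ _)
      · rintro y ⟨hy, hyE⟩
        obtain ⟨x, hx, hd⟩ := mem_thickening_iff.1 hy
        by_cases hb : c.a P.1 y = P.2
        · exact Or.inl ⟨hyE, hb⟩
        · refine Or.inr ⟨⟨hyE, x, hx.1, by rw [hx.2]; exact Ne.symm hb,
            hd.trans_le (by nlinarith)⟩, ?_⟩
          have h6 : dist x P.2 < 2 * rr r₀ P.1 := c.cub_subset hPN _ hx
          have h7 := dist_triangle y x P.2
          rw [mem_ball]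
          nlinarith
      · exact hu.ne_top ((c.bounded_cub hPN _).union (isBounded_ball.subset inter_subset_right))
    rw [← mul_div_assoc, le_div_iff₀ (hθ _ _ hP'.2)]
    have := herr P.1 hM' P.2 hPc
    linarith
  · refine (hshP P hP).2.trans ?_
    have h5 := le_cub hu hl h0 hD c hPN hPc
    rw [div_le_iff₀ (by positivity)] at h5
    calc c₀ * rr r₀ P.1 ^ n ≤ c₀ * (μ.real (c.cub P.1 P.2) * (4 ^ n * C)) := by gcongr
      _ = _ := by ring

end Crest.Agent.R085
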