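import Crest.Agent.R085.AreaA

/-! Row 85. The area inequality. -/

set_option autoImplicit false

open MeasureTheory Set Filter Topology Metric
open scoped ENNReal NNReal

noncomputable section

namespace Crest.Agent.R085

variable {n d : ℕ} {C C₂ D η r₀ : ℝ} {N M : ℕ} {μ : Measure (X d)}

/-- The shadow of a cube. -/
def shadow (ι₀ : X n →ₗᵢ[ℝ] X d) (q : X d) (Q : Set (X d)) (w : ℝ) : Set (X n) :=
  {u | ∃ y ∈ Q, ‖u - pr ι₀ (y - q)‖ < w}

theorem shadow_le (n : ℕ) : ∃ c : ℝ, 0 < c ∧ ∀ (d : ℕ) (ι₀ : X n →ₗᵢ[ℝ] X d) (q p : X d)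
    (Q : Set (X d)) (r w : ℝ), 0 < r → w ≤ r → Q ⊆ ball p (2 * r) →
    Bornology.IsBounded (shadow ι₀ q Q w) ∧ volume.real (shadow ι₀ q Q w) ≤ c * r ^ n := by
  refine ⟨3 ^ n * volume.real (ball (0 : X n) 1), mul_pos (by positivity) (ENNReal.toReal_pos
    (measure_ball_pos _ _ one_pos).ne' measure_ball_lt_top.ne), fun d ι₀ q p Q r w hr hw hQ => ?_⟩
  have hsub : shadow ι₀ q Q w ⊆ ball (pr ι₀ (p - q)) (3 * r) := by
    rintro u ⟨y, hy, hu⟩
    have h1 : u - pr ι₀ (p - q) = (u - pr ι₀ (y - q)) + pr ι₀ (y - p) := by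
      simp only [map_sub]; abel
    have h2 := (norm_pr_le ι₀ (y - p)).trans_lt (mem_ball_iff_norm.1 (hQ hy))
    rw [mem_ball_iff_norm, h1]
    linarith [norm_add_le (u - pr ι₀ (y - q)) (pr ι₀ (y - p))]
  refine ⟨isBounded_ball.subset hsub, (measureReal_mono (hsub.trans ball_subset_closedBall)
    measure_closedBall_lt_top.ne).trans_eq ?_⟩
  rw [Measure.addHaar_real_closedBall _ _ (by positivity), finrank_euclideanSpace_fin, mul_pow]
  ring

/-- The shadow is contained in the image of `{u | p + ι u ∈ thickening (6500 η r) Q}` under the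
affine map `u ↦ pr ι₀ (p - q) + pr ι₀ (ι u)` (`n1`, `surj_of_colip`); `vol_image_le`; `m2`. -/
theorem shadow_angle (hη0 : 0 < η) (hη : η ≤ 1 / 7000) {p q : X d} {r θ : ℝ} (hr : 0 < r)
    {ι ι₀ : X n →ₗᵢ[ℝ] X d} (h : Nice C₂ μ p r η ι θ) (hθ : 0 ≤ θ) (hc : ¬CoL ι₀ ι)
    (hc' : ∀ u, 1 / 4 * ‖u‖ ≤ ‖pr ι₀ (ι u)‖) {Q : Set (X d)} (hQ : Q ⊆ μ.support)
    (hQ' : Q ⊆ ball p (2 * r)) (hfin : μ (ball p (3 * r)) ≠ ∞) :
    θ * volume.real (shadow ι₀ q Q (1600 * η * r)) ≤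
      (μ.real (thickening (7000 * η * r) Q) + η * r ^ n) / 2 := by
  have he : 0 < η * r := mul_pos hη0 hr
  have he' : η * r ≤ 1 / 7000 * r := by gcongr
  set T : X n →L[ℝ] X n := (pr ι₀).comp ι.toContinuousLinearMap with hT
  have hTu : ∀ u, T u = pr ι₀ (ι u) := fun u => rfl
  have hT1 : ∀ u, ‖T u‖ ≤ ‖u‖ := fun u => (norm_pr_le ι₀ (ι u)).trans_eq (ι.norm_map u)
  have hth : ∀ w, w ≤ r → thickening w Q ⊆ ball p (3 * r) := fun w hw z hz => by
    obtain ⟨y, hy, hzy⟩ := mem_thickening_iff.1 hz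
    have := mem_ball.1 (hQ' hy)
    rw [mem_ball]
    linarith [dist_triangle z y p]
  set Z : Set (X n) := {u | p + ι u ∈ thickening (6500 * (η * r)) Q} with hZ
  have hZb : Z ⊆ ball 0 (3 * r) := fun u hu => by
    simpa using hth _ (by linarith) hu
  obtain ⟨v, hv⟩ := not_forall.1 hc
  have h1 := vol_image_le T hT1 (not_le.1 hv) (pr ι₀ (p - q)) (isBounded_ball.subset hZb)
  have h2 : shadow ι₀ q Q (1600 * η * r) ⊆ (fun u => pr ι₀ (p - q) + T u) '' Z := by
    rintro u ⟨y, hy, hu⟩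
    obtain ⟨u₁, hu₁⟩ := h.n1 y (hQ hy) (by linarith [mem_ball.1 (hQ' hy)])
    obtain ⟨w, hw, hw'⟩ := surj_of_colip T (c := 1 / 4) (by norm_num) hc'
      ((u - pr ι₀ (y - q)) + pr ι₀ (y - p - ι u₁))
    have h3 := norm_add_le (u - pr ι₀ (y - q)) (pr ι₀ (y - p - ι u₁))
    have h4 := norm_pr_le ι₀ (y - p - ι u₁)
    refine ⟨u₁ + w, mem_thickening_iff.2 ⟨y, hy, ?_⟩, ?_⟩
    · have h5 : p + ι (u₁ + w) - y = ι w - (y - p - ι u₁) := by
        rw [map_add]; abel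
      have h6 := norm_sub_le (ι w) (y - p - ι u₁)
      rw [ι.norm_map] at h6
      rw [dist_eq_norm, h5]
      linarith
    · simp only [map_add, hw, hTu u₁, map_sub]
      abel
  have h3 : (fun u => pr ι₀ (p - q) + T u) '' Z ⊆ ball (pr ι₀ (p - q)) (3 * r) := by
    rintro _ ⟨u, hu, rfl⟩
    rw [mem_ball_iff_norm, add_sub_cancel_left]
    exact (hT1 u).trans_lt (mem_ball_zero_iff.1 (hZb hu))
  have h4 := (measureReal_mono h2
    (ne_top_of_le_ne_top measure_ball_lt_top.ne (measure_mono h3))).trans h1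
  have h5 := h.m2 (thickening (6500 * (η * r)) Q)
    ((hth _ (by linarith)).trans (ball_subset_ball (by linarith)))
  have h6 : μ.real (thickening (η * r) (thickening (6500 * (η * r)) Q)) ≤
      μ.real (thickening (7000 * η * r) Q) :=
    measureReal_mono ((thickening_thickening_subset _ _ _).trans (thickening_mono (by linarith) _))
      (ne_top_of_le_ne_top hfin (measure_mono (hth _ (by linarith))))
  have h7 := mul_le_mul_of_nonneg_left h4 hθ
  rw [← hZ] at h5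
  linarith

end Crest.Agent.R085
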