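import Crest.Agent.R085.Cube

/-! Row 85. Small boundaries. -/

set_option autoImplicit false

open MeasureTheory Set Filter Topology Metric
open scoped ENNReal NNReal

noncomputable section

namespace Crest.Agent.R085

private def Bdry_Av {d : ℕ} {E : Set (X d)} {r₀ : ℝ} {N : ℕ} (c : Cubes E r₀ N) (i k : ℕ) :
    Set (X d) :=
  {x | ∀ l, i ≤ l → l < i + k → c.a (l + 1) x ≠ c.a (l + 1) (c.a l x)}

private theorem Bdry_rr_pos {r₀ : ℝ} (h : 0 < r₀) (j : ℕ) : 0 < rr r₀ j := by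
  unfold rr; positivity

private theorem Bdry_rr_add (r₀ : ℝ) (j k : ℕ) : rr r₀ (j + k) = rr r₀ j * (1 / 32) ^ k := by
  unfold rr; rw [pow_add]; ring

private theorem Bdry_rr_anti {r₀ : ℝ} (h : 0 < r₀) {j k : ℕ} (hjk : j ≤ k) : rr r₀ k ≤ rr r₀ j := by
  unfold rr
  exact mul_le_mul_of_nonneg_left (pow_le_pow_of_le_one (by norm_num) (by norm_num) hjk) h.le

private theorem Bdry_sub {d : ℕ} {E : Set (X d)} {r₀ : ℝ} {N : ℕ} (c : Cubes E r₀ N) (h : 0 < r₀)
    {i k : ℕ} (hik : i + k ≤ N) : c.bd i (rr r₀ (i + k) / 8) ⊆ Bdry_Av c i k := by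
  rintro x ⟨hx, y, hy, hne, hd⟩ l hil hlk heq
  have hlN : l ≤ N := by omega
  have hl1 : l + 1 ≤ N := by omega
  have hq : c.a l x ∈ E := c.mem l hlN x hx
  have h1 := c.near (l + 1) hl1 x hx
  have h2 := c.near (l + 1) hl1 _ hq
  rw [← heq] at h2
  have h3 : rr r₀ (l + 1) = rr r₀ l * (1 / 32) := by rw [Bdry_rr_add, pow_one]
  have h4 : rr r₀ (i + k) ≤ rr r₀ l := Bdry_rr_anti h hlk.le
  have h5 : dist y (c.a l x) < rr r₀ l / 4 := by
    have t1 := dist_triangle y x (c.a l x)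
    have t2 := dist_triangle x (c.a (l + 1) x) (c.a l x)
    rw [dist_comm (c.a (l + 1) x)] at t2
    rw [dist_comm y x] at t1
    linarith
  have h6 := c.inner l hlN x hx y hy h5
  exact hne (c.nest i l hil hlN y hy x hx h6)

private theorem Bdry_prop {n d : ℕ} {C D r₀ : ℝ} {N : ℕ} {μ : Measure (X d)} (hC : 1 ≤ C)
    (hu : Up n C μ) (hl : Lo n C D μ) (h : 0 < r₀) (hD : r₀ ≤ D) (c : Cubes μ.support r₀ N) (k : ℕ) :
    ∀ i, i + k ≤ N → ∀ q, c.Ctr i q →
      μ.real (c.cub i q ∩ Bdry_Av c i k) ≤ (1 - 1 / (256 ^ n * C ^ 2)) ^ k * μ.real (c.cub i q) := by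
  have hC0 : 0 < C := by linarith
  have hθ : 0 ≤ 1 - 1 / (256 ^ n * C ^ 2) := by
    have : (1 : ℝ) ≤ 256 ^ n * C ^ 2 :=
      one_le_mul_of_one_le_of_one_le (one_le_pow₀ (by norm_num)) (one_le_pow₀ hC)
    have : 1 / (256 ^ n * C ^ 2) ≤ 1 := by rw [div_le_one (by positivity)]; exact this
    linarith
  haveI := hu.locFin
  have hE : MeasurableSet μ.support := μ.isClosed_support.measurableSet
  induction k with
  | zero =>
    intro i hi q hq
    rw [pow_zero, one_mul]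
    exact measureReal_mono inter_subset_left (hu.ne_top (c.bounded_cub (by omega) q))
  | succ k ih =>
    intro i hi q hq
    have hi1 : i + 1 ≤ N := by omega
    have hi0 : i ≤ N := by omega
    classical
    set p₀ := c.a (i + 1) q with hp₀
    have hfin := c.finite_sub h (Nat.le_succ i) hi1 q
    set s : Finset (X d) := hfin.toFinset.filter (fun p => p ≠ p₀) with hs
    have hs' : ∀ p, p ∈ s ↔ p ∈ c.sub i q (i + 1) ∧ p ≠ p₀ := by
      intro p; simp [hs]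
    have hcov : c.cub i q ∩ Bdry_Av c i (k + 1) ⊆
        ⋃ p ∈ s, (c.cub (i + 1) p ∩ Bdry_Av c (i + 1) k) := by
      rintro x ⟨⟨hx, hxq⟩, hA⟩
      simp only [mem_iUnion]
      refine ⟨c.a (i + 1) x, ?_, ⟨hx, rfl⟩, ?_⟩
      · rw [hs']
        refine ⟨⟨c.ctr_a h hi1 hx, ?_⟩, ?_⟩
        · rw [c.a_a h (Nat.le_succ i) hi1 hx, hxq]
        · have := hA i le_rfl (by omega)
          rwa [hxq] at this
      · intro l hl1 hl2
        exact hA l (by omega) (by omega)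
    have hb : ∀ p, μ (c.cub (i + 1) p ∩ Bdry_Av c (i + 1) k) ≠ ∞ := fun p =>
      hu.ne_top ((c.bounded_cub hi1 p).subset inter_subset_left)
    have h1 : μ.real (c.cub i q ∩ Bdry_Av c i (k + 1)) ≤
        ∑ p ∈ s, μ.real (c.cub (i + 1) p ∩ Bdry_Av c (i + 1) k) := by
      refine (measureReal_mono hcov ?_).trans (measureReal_biUnion_finset_le _ _)
      exact ((measure_biUnion_finset_le _ _).trans_lt
        (ENNReal.sum_lt_top.2 fun p _ => (hb p).lt_top)).ne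
    have h2 : ∑ p ∈ s, μ.real (c.cub (i + 1) p ∩ Bdry_Av c (i + 1) k) ≤
        (1 - 1 / (256 ^ n * C ^ 2)) ^ k * ∑ p ∈ s, μ.real (c.cub (i + 1) p ∩ univ) := by
      rw [Finset.mul_sum]
      refine Finset.sum_le_sum fun p hp => ?_
      rw [inter_univ]
      exact ih (i + 1) (by omega) p ((hs' p).1 hp).1.1
    rw [c.sum_sub h hE (Nat.le_succ i) hi1 q MeasurableSet.univ (fun p => p ≠ p₀) s hs',
      inter_univ] at h2
    have hp₀c : c.Ctr (i + 1) p₀ := c.ctr_a h hi1 hq.1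
    have hp₀q : c.a i p₀ = q := by rw [hp₀, c.a_a h (Nat.le_succ i) hi1 hq.1, hq.2]
    have hsub : c.cub (i + 1) p₀ ⊆ c.cub i q := c.cub_sub h (Nat.le_succ i) hi1 hp₀c hp₀q
    have hset : {x | x ∈ c.cub i q ∧ c.a (i + 1) x ≠ p₀} = c.cub i q \ c.cub (i + 1) p₀ := by
      ext x
      simp only [Cubes.cub, mem_setOf_eq, mem_diff]
      tauto
    have h3 : μ.real (c.cub i q \ c.cub (i + 1) p₀) =
        μ.real (c.cub i q) - μ.real (c.cub (i + 1) p₀) :=
      measureReal_diff hsub (c.measurableSet_cub hE _ _) (hu.ne_top (c.bounded_cub hi0 q))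
    have h4 := le_cub hu hl h hD c hi1 hp₀c
    have h5 := cub_le hu hC0.le h c hi0 q
    have h6 : rr r₀ (i + 1) ^ n / (4 ^ n * C) = 1 / (256 ^ n * C ^ 2) * (C * 2 ^ n * rr r₀ i ^ n) := by
      rw [Bdry_rr_add, pow_one, mul_pow, show (256 : ℝ) = 4 * 32 * 2 by norm_num, mul_pow, mul_pow,
        one_div, inv_pow]
      field_simp
    have h7 : μ.real (c.cub i q) - μ.real (c.cub (i + 1) p₀) ≤
        (1 - 1 / (256 ^ n * C ^ 2)) * μ.real (c.cub i q) := by
      have : 1 / (256 ^ n * C ^ 2) * μ.real (c.cub i q) ≤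
          1 / (256 ^ n * C ^ 2) * (C * 2 ^ n * rr r₀ i ^ n) :=
        mul_le_mul_of_nonneg_left h5 (by positivity)
      linarith
    rw [hset, h3] at h2
    calc _ ≤ _ := h1
      _ ≤ _ := h2
      _ ≤ (1 - 1 / (256 ^ n * C ^ 2)) ^ k * ((1 - 1 / (256 ^ n * C ^ 2)) * μ.real (c.cub i q)) :=
        mul_le_mul_of_nonneg_left h7 (pow_nonneg hθ k)
      _ = _ := by ring

/-- A point `x` of `bd i (rr (i + k) / 8)` is not in `ball (a l x) (rr l / 8)` for `i ≤ l ≤ i + k`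
(`inner`, `nest`), so it is not in the central child `cub (l + 1) (a (l + 1) (a l x))` of its cube
of generation `l < i + k` (this child lies in `ball (a l x) (4 rr (l + 1))`).  The central child has a
fixed proportion `c'` of the measure of its parent (`le_cub`, `cub_le`), so by induction on `k`
(`sum_sub`) the set of points of a cube of generation `i` which avoid the central children of the
generations `i, …, i + k - 1` has at most the proportion `(1 - c')^k`; the cubes of generation `i`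
which meet `ball x (3 rr i)` lie in `ball x (7 rr i)`. -/
theorem small_bd (n : ℕ) {C : ℝ} (hC : 1 ≤ C) {ζ : ℝ} (hζ : 0 < ζ) : ∃ (k : ℕ) (τ : ℝ), 0 < τ ∧
    ∀ (d : ℕ) (μ : Measure (X d)) (D r₀ : ℝ) (N : ℕ) (c : Cubes μ.support r₀ N) (i : ℕ) (x : X d),
      Up n C μ → Lo n C D μ → 0 < r₀ → r₀ ≤ D → i + k ≤ N →
      μ.real (c.bd i (τ * rr r₀ i) ∩ ball x (3 * rr r₀ i)) ≤ ζ * rr r₀ i ^ n := by
  have hC0 : 0 < C := by linarith
  have hθ : 0 ≤ 1 - 1 / (256 ^ n * C ^ 2) := by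
    have : (1 : ℝ) ≤ 256 ^ n * C ^ 2 :=
      one_le_mul_of_one_le_of_one_le (one_le_pow₀ (by norm_num)) (one_le_pow₀ hC)
    have : 1 / (256 ^ n * C ^ 2) ≤ 1 := by rw [div_le_one (by positivity)]; exact this
    linarith
  have hθ1 : 1 - 1 / (256 ^ n * C ^ 2) < (1 : ℝ) := by
    have : (0 : ℝ) < 1 / (256 ^ n * C ^ 2) := by positivity
    linarith
  set K : ℝ := C ^ 2 * (8 * 5 + 2) ^ n * (C * 2 ^ n) with hK
  have hK0 : 0 < K := by positivity
  obtain ⟨k, hk⟩ := exists_pow_lt_of_lt_one (div_pos hζ hK0) hθ1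
  refine ⟨k, (1 / 32) ^ k / 8, by positivity, ?_⟩
  intro d μ D r₀ N c i x hu hl h hD hik
  have hi : i ≤ N := by omega
  have hr := Bdry_rr_pos h i
  have hτ : (1 / 32) ^ k / 8 * rr r₀ i = rr r₀ (i + k) / 8 := by rw [Bdry_rr_add]; ring
  rw [hτ]
  classical
  have hfin := c.finite_ctr h hi x (5 * rr r₀ i)
  set s : Finset (X d) := hfin.toFinset with hs
  have hs' : ∀ p ∈ s, c.Ctr i p ∧ dist p x < 5 * rr r₀ i := by
    intro p hp; simpa [hs] using hp
  have hcov : c.bd i (rr r₀ (i + k) / 8) ∩ ball x (3 * rr r₀ i) ⊆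
      ⋃ p ∈ s, (c.cub i p ∩ Bdry_Av c i k) := by
    rintro y ⟨hy, hyx⟩
    simp only [mem_iUnion]
    refine ⟨c.a i y, ?_, ⟨hy.1, rfl⟩, Bdry_sub c h hik hy⟩
    rw [hs, Set.Finite.mem_toFinset]
    refine ⟨c.ctr_a h hi hy.1, ?_⟩
    have t1 := c.near i hi y hy.1
    have t2 := dist_triangle (c.a i y) y x
    rw [dist_comm (c.a i y) y] at t2
    rw [mem_ball] at hyx
    linarith
  have hb : ∀ p, μ (c.cub i p ∩ Bdry_Av c i k) ≠ ∞ := fun p =>
    hu.ne_top ((c.bounded_cub hi p).subset inter_subset_left)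
  have h1 : μ.real (c.bd i (rr r₀ (i + k) / 8) ∩ ball x (3 * rr r₀ i)) ≤
      ∑ p ∈ s, μ.real (c.cub i p ∩ Bdry_Av c i k) := by
    refine (measureReal_mono hcov ?_).trans (measureReal_biUnion_finset_le _ _)
    exact ((measure_biUnion_finset_le _ _).trans_lt
      (ENNReal.sum_lt_top.2 fun p _ => (hb p).lt_top)).ne
  have h2 : ∑ p ∈ s, μ.real (c.cub i p ∩ Bdry_Av c i k) ≤
      s.card • ((1 - 1 / (256 ^ n * C ^ 2)) ^ k * (C * 2 ^ n * rr r₀ i ^ n)) := by
    refine Finset.sum_le_card_nsmul _ _ _ fun p hp => ?_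
    refine (Bdry_prop hC hu hl h hD c k i hik p (hs' p hp).1).trans ?_
    exact mul_le_mul_of_nonneg_left (cub_le hu hC0.le h c hi p) (pow_nonneg hθ k)
  have h3 := card_ctr hu hl hC h hD c hi (x := x) (A := 5) (by norm_num) s
    (fun p hp => ⟨(hs' p hp).1, (hs' p hp).2.le⟩)
  rw [nsmul_eq_mul] at h2
  have h4 : (1 - 1 / (256 ^ n * C ^ 2)) ^ k * K ≤ ζ := ((lt_div_iff₀ hK0).1 hk).le
  calc _ ≤ _ := h1
    _ ≤ _ := h2
    _ ≤ C ^ 2 * (8 * 5 + 2) ^ n * ((1 - 1 / (256 ^ n * C ^ 2)) ^ k * (C * 2 ^ n * rr r₀ i ^ n)) :=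
      mul_le_mul_of_nonneg_right h3 (mul_nonneg (pow_nonneg hθ k) (by positivity))
    _ = (1 - 1 / (256 ^ n * C ^ 2)) ^ k * K * rr r₀ i ^ n := by rw [hK]; ring
    _ ≤ _ := mul_le_mul_of_nonneg_right h4 (by positivity)

end Crest.Agent.R085
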