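import Crest.Agent.R085.CarA0

/-! Row 85. The `L²` bound and a Bessel inequality. -/

set_option autoImplicit false

open MeasureTheory Set Filter Topology Metric
open scoped ENNReal NNReal

noncomputable section

namespace Crest.Agent.R085

variable {n d : ℕ}

/-- With `v Q` of norm `≤ 1` representing `± ℓ Q` and `F = ∑ φ Q • v Q`, the sum is
`∫ ⟪F, g⟫ ≤ ‖F‖₂ ‖g‖₂`. -/
theorem bessel {C : ℝ} {μ : Measure (X d)} (hu : Up n C μ) {κ : Type} (s : Finset κ)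
    {φ : κ → X d → ℝ} {ℓ : κ → X d →L[ℝ] ℝ} {g : X d → X d} {x₀ : X d} {S : ℝ}
    (hφ : ∀ Q ∈ s, Continuous (φ Q) ∧ Off (φ Q) x₀ S ∧ ‖ℓ Q‖ ≤ 1) (hg : Continuous g) :
    (∑ Q ∈ s, |∫ x, φ Q x * ℓ Q (g x) ∂μ|) ^ 2 ≤
      (∑ P ∈ s, ∑ Q ∈ s, |∫ x, φ P x * φ Q x ∂μ|) * ∫ x in ball x₀ S, ‖g x‖ ^ 2 ∂μ := by
  classical
  have := hu.locFin
  set w : κ → X d := fun Q => (InnerProductSpace.toDual ℝ (X d)).symm (ℓ Q) with hw
  have hw1 : ∀ Q y, inner ℝ (w Q) y = ℓ Q y := fun Q y => InnerProductSpace.toDual_symm_apply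
  have hw2 : ∀ Q, ‖w Q‖ = ‖ℓ Q‖ := fun Q => LinearIsometryEquiv.norm_map _ _
  set σ : κ → ℝ := fun Q => if 0 ≤ ∫ x, φ Q x * ℓ Q (g x) ∂μ then 1 else -1 with hσ
  have hσ1 : ∀ Q, |σ Q| = 1 := fun Q => by simp only [hσ]; split_ifs <;> simp
  have hσ2 : ∀ Q, σ Q * ∫ x, φ Q x * ℓ Q (g x) ∂μ = |∫ x, φ Q x * ℓ Q (g x) ∂μ| := fun Q => by
    simp only [hσ]
    split_ifs with h
    · rw [one_mul, abs_of_nonneg h]
    · rw [abs_of_neg (not_le.1 h)]; ring
  set v : κ → X d := fun Q => σ Q • w Q with hv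
  have hv1 : ∀ Q ∈ s, ‖v Q‖ ≤ 1 := fun Q hQ => by
    simp only [hv]
    rw [norm_smul, Real.norm_eq_abs, hσ1, one_mul, hw2]
    exact (hφ Q hQ).2.2
  set F : X d → X d := fun x => ∑ Q ∈ s, φ Q x • v Q with hF
  have hi1 : ∀ Q ∈ s, Integrable (fun x => φ Q x * ℓ Q (g x)) μ := fun Q hQ =>
    hu.integrable ((hφ Q hQ).1.mul ((ℓ Q).continuous.comp hg))
      (hφ Q hQ).2.1.hasCompactSupport.mul_right
  have hi2 : ∀ P ∈ s, ∀ Q ∈ s, Integrable (fun x => φ P x * φ Q x) μ := fun P hP Q hQ =>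
    hu.integrable ((hφ P hP).1.mul (hφ Q hQ).1) (hφ P hP).2.1.hasCompactSupport.mul_right
  have e1 : ∀ x, inner ℝ (F x) (g x) = ∑ Q ∈ s, σ Q * (φ Q x * ℓ Q (g x)) := fun x => by
    simp only [hF, hv, sum_inner, real_inner_smul_left, hw1]
    exact Finset.sum_congr rfl fun Q _ => by ring
  have e2 : ∀ x, ‖F x‖ ^ 2 = ∑ P ∈ s, ∑ Q ∈ s, inner ℝ (v P) (v Q) * (φ P x * φ Q x) := fun x => by
    rw [← real_inner_self_eq_norm_sq]
    simp only [hF, sum_inner, inner_sum, real_inner_smul_left, real_inner_smul_right]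
    rw [Finset.sum_comm]
    exact Finset.sum_congr rfl fun P _ => Finset.sum_congr rfl fun Q _ => by ring
  have hI1 : Integrable (fun x => inner ℝ (F x) (g x)) μ := by
    simp only [e1]
    exact integrable_finsetSum _ fun Q hQ => (hi1 Q hQ).const_mul _
  have hI2 : Integrable (fun x => ‖F x‖ ^ 2) μ := by
    simp only [e2]
    exact integrable_finsetSum _ fun P hP =>
      integrable_finsetSum _ fun Q hQ => (hi2 P hP Q hQ).const_mul _
  have hI3 : IntegrableOn (fun x => ‖g x‖ ^ 2) (ball x₀ S) μ :=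
    ((hg.norm.pow 2).continuousOn.integrableOn_compact (isCompact_closedBall x₀ S)).mono_set
      ball_subset_closedBall
  have hT : ∑ Q ∈ s, |∫ x, φ Q x * ℓ Q (g x) ∂μ| = ∫ x, inner ℝ (F x) (g x) ∂μ := by
    simp only [e1]
    rw [integral_finsetSum _ fun Q hQ => (hi1 Q hQ).const_mul _]
    exact Finset.sum_congr rfl fun Q _ => by rw [integral_const_mul, hσ2]
  have hA : ∫ x, ‖F x‖ ^ 2 ∂μ ≤ ∑ P ∈ s, ∑ Q ∈ s, |∫ x, φ P x * φ Q x ∂μ| := by
    simp only [e2]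
    rw [integral_finsetSum _ fun P hP =>
      integrable_finsetSum _ fun Q hQ => (hi2 P hP Q hQ).const_mul _]
    refine Finset.sum_le_sum fun P hP => ?_
    rw [integral_finsetSum _ fun Q hQ => (hi2 P hP Q hQ).const_mul _]
    refine Finset.sum_le_sum fun Q hQ => ?_
    rw [integral_const_mul]
    refine (le_abs_self _).trans ?_
    rw [abs_mul]
    refine mul_le_of_le_one_left (abs_nonneg _) ((abs_real_inner_le_norm _ _).trans ?_)
    exact mul_le_one₀ (hv1 P hP) (norm_nonneg _) (hv1 Q hQ)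
  have hF0 : ∀ x, x ∉ ball x₀ S → F x = 0 := fun x hx =>
    Finset.sum_eq_zero fun Q hQ => by
      rw [(hφ Q hQ).2.1 x (by simpa using hx), zero_smul]
  have hq : ∀ t : ℝ, 0 ≤ (∫ x in ball x₀ S, ‖g x‖ ^ 2 ∂μ) * (t * t)
      + (-2 * ∫ x, inner ℝ (F x) (g x) ∂μ) * t + ∫ x, ‖F x‖ ^ 2 ∂μ := by
    intro t
    have h1 : ∫ x, inner ℝ (F x) (g x) ∂μ = ∫ x in ball x₀ S, inner ℝ (F x) (g x) ∂μ :=
      (setIntegral_eq_integral_of_forall_compl_eq_zero fun x hx => by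
        rw [hF0 x hx, inner_zero_left]).symm
    have h2 : ∫ x, ‖F x‖ ^ 2 ∂μ = ∫ x in ball x₀ S, ‖F x‖ ^ 2 ∂μ :=
      (setIntegral_eq_integral_of_forall_compl_eq_zero fun x hx => by
        rw [hF0 x hx]; simp).symm
    have j1 : Integrable (fun x => ‖g x‖ ^ 2 * (t * t)) (μ.restrict (ball x₀ S)) :=
      Integrable.mul_const hI3 _
    have j2 : Integrable (fun x => -2 * inner ℝ (F x) (g x) * t) (μ.restrict (ball x₀ S)) :=
      (hI1.integrableOn.const_mul _).mul_const _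
    have j12 : Integrable (fun x => ‖g x‖ ^ 2 * (t * t) + -2 * inner ℝ (F x) (g x) * t)
      (μ.restrict (ball x₀ S)) := j1.add j2
    rw [h1, h2, ← integral_mul_const, ← integral_const_mul, ← integral_mul_const,
      ← integral_add j1 j2, ← integral_add j12 hI2.integrableOn]
    refine integral_nonneg fun x => ?_
    have h3 := norm_sub_sq_real (F x) (t • g x)
    rw [real_inner_smul_right, norm_smul, mul_pow, Real.norm_eq_abs, sq_abs] at h3
    have h4 := sq_nonneg ‖F x - t • g x‖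
    change (0 : ℝ) ≤ _
    nlinarith
  have hd := discrim_le_zero hq
  rw [discrim] at hd
  have hB : 0 ≤ ∫ x in ball x₀ S, ‖g x‖ ^ 2 ∂μ := integral_nonneg fun x => sq_nonneg _
  rw [hT]
  nlinarith [mul_le_mul_of_nonneg_right hA hB]

end Crest.Agent.R085
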