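import Crest.Agent.R085.Near

/-! Row 85. The `L²` bound and a Bessel inequality. -/

set_option autoImplicit false

open MeasureTheory Set Filter Topology Metric
open scoped ENNReal NNReal

noncomputable section

namespace Crest.Agent.R085

variable {n d : ℕ}

/-- The vector valued truncated Riesz transform. -/
def RV (n : ℕ) (μ : Measure (X d)) (t s : ℝ) (x : X d) : X d := ∫ y, kk n t s (x - y) • (x - y) ∂μ

theorem CarA0_int {C : ℝ} {μ : Measure (X d)} (hu : Up n C μ) {t s : ℝ} (ht : 0 < t) (hs : 0 < s)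
    (x : X d) : Integrable (fun y => kk n t s (x - y) • (x - y)) μ := by
  haveI := hu.locFin
  have h1 : Continuous fun y : X d => x - y := continuous_const.sub continuous_id
  refine (((continuous_kk ht hs).comp h1).smul h1).integrable_of_hasCompactSupport ?_
  exact ((hasCompactSupport_kk ht hs).comp_homeomorph (Homeomorph.subLeft x)).smul_right

theorem LL_eq_RV {C : ℝ} {μ : Measure (X d)} (hu : Up n C μ) {t s : ℝ} (ht : 0 < t) (hs : 0 < s)
    (ℓ : X d →L[ℝ] ℝ) (x : X d) : LL n μ t s ℓ x = ℓ (RV n μ t s x) := by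
  rw [RV, ← ℓ.integral_comp_comm (CarA0_int hu ht hs x), LL]
  refine integral_congr_ae (Eventually.of_forall fun y => ?_)
  simp only [map_smul, map_sub, smul_eq_mul, mul_comm]

theorem continuous_RV {C : ℝ} {μ : Measure (X d)} (hu : Up n C μ) {t s : ℝ} (ht : 0 < t)
    (hs : 0 < s) : Continuous (RV n μ t s) := by
  have e : RV n μ t s = fun x => WithLp.toLp 2 fun i =>
      LL n μ t s (EuclideanSpace.proj i : X d →L[ℝ] ℝ) x := by
    funext x
    ext i
    exact (LL_eq_RV hu ht hs (EuclideanSpace.proj i : X d →L[ℝ] ℝ) x).symm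
  rw [e]
  exact (PiLp.continuous_toLp 2 _).comp (continuous_pi fun i =>
    continuous_LL hu ht hs (EuclideanSpace.proj i : X d →L[ℝ] ℝ).continuous)

/-- pointwise comparison of the kernels -/
theorem CarA0_pt {x₀ x : X d} {t S : ℝ} (ht : 0 < t) (htS : t ≤ S) (hx : x ∈ ball x₀ S) (y : X d) :
    ‖kk n t S (x - y) • (x - y) - {y | t < dist x y}.indicator (fun y =>
      ((ball x₀ (3 * S)).indicator (fun _ => (1 : ℝ)) y * (‖x - y‖ ^ (n + 1))⁻¹) • (x - y)) y‖ ≤
      (ball x (2 * t)).indicator (fun _ => (t ^ n)⁻¹) y +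
        (ball x (4 * S)).indicator (fun _ => (S ^ n)⁻¹) y := by
  have hS : 0 < S := ht.trans_le htS
  have n1 : 0 ≤ (ball x (2 * t)).indicator (fun _ => (t ^ n)⁻¹) y :=
    indicator_nonneg (fun _ _ => by positivity) _
  have n2 : 0 ≤ (ball x (4 * S)).indicator (fun _ => (S ^ n)⁻¹) y :=
    indicator_nonneg (fun _ _ => by positivity) _
  have e1 : dist x y = ‖x - y‖ := dist_eq_norm x y
  have e2 : dist y x = ‖x - y‖ := by rw [dist_comm, e1]
  have hx' : dist x x₀ < S := hx
  by_cases h1 : t < dist x y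
  swap
  · rw [indicator_of_notMem (show y ∉ {y | t < dist x y} from h1),
      kk_zero_of_le ht htS (by rw [← e1]; exact not_lt.1 h1), zero_smul, sub_zero, norm_zero]
    exact add_nonneg n1 n2
  rw [indicator_of_mem (show y ∈ {y | t < dist x y} from h1), ← sub_smul, norm_smul,
    Real.norm_eq_abs]
  rw [e1] at h1
  have hρ : 0 < ‖x - y‖ := ht.trans h1
  have hb : |kk n t S (x - y) - (ball x₀ (3 * S)).indicator (fun _ => (1 : ℝ)) y *
      (‖x - y‖ ^ (n + 1))⁻¹| * ‖x - y‖ ≤ (‖x - y‖ ^ n)⁻¹ := by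
    have a1 := kk_nonneg (n := n) ht htS (x - y)
    have a2 := (le_abs_self _).trans (abs_kk_le (n := n) t S (x - y))
    have a3 : 0 ≤ (‖x - y‖ ^ (n + 1))⁻¹ := by positivity
    have a4 : |kk n t S (x - y) - (ball x₀ (3 * S)).indicator (fun _ => (1 : ℝ)) y *
        (‖x - y‖ ^ (n + 1))⁻¹| ≤ (‖x - y‖ ^ (n + 1))⁻¹ := by
      by_cases hy : y ∈ ball x₀ (3 * S)
      · rw [indicator_of_mem hy, abs_le]
        constructor <;> linarith
      · rw [indicator_of_notMem hy, abs_le]
        constructor <;> linarith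
    refine (mul_le_mul_of_nonneg_right a4 hρ.le).trans_eq ?_
    field_simp
    ring
  by_cases h2 : ‖x - y‖ < 2 * t
  · rw [indicator_of_mem (show y ∈ ball x (2 * t) by rw [mem_ball, e2]; exact h2)]
    have : (‖x - y‖ ^ n)⁻¹ ≤ (t ^ n)⁻¹ := inv_anti₀ (by positivity) (by gcongr)
    linarith
  by_cases h3 : ‖x - y‖ ≤ S
  · have hy : y ∈ ball x₀ (3 * S) := by
      have := dist_triangle y x x₀
      rw [mem_ball]
      linarith
    rw [indicator_of_mem hy, kk_eq ht (not_lt.1 h2) h3, one_mul, sub_self, abs_zero, zero_mul]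
    exact add_nonneg n1 n2
  by_cases h4 : ‖x - y‖ < 4 * S
  · rw [indicator_of_mem (show y ∈ ball x (4 * S) by rw [mem_ball, e2]; exact h4)]
    have : (‖x - y‖ ^ n)⁻¹ ≤ (S ^ n)⁻¹ :=
      inv_anti₀ (by positivity) (pow_le_pow_left₀ hS.le (not_le.1 h3).le n)
    linarith
  · have hy : y ∉ ball x₀ (3 * S) := by
      have := dist_triangle x x₀ y
      rw [mem_ball, dist_comm y x₀]
      linarith
    rw [indicator_of_notMem hy, kk_zero_of_ge ht htS (by linarith), zero_mul, sub_self, abs_zero,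
      zero_mul]
    exact add_nonneg n1 n2

theorem CarA0_diff {C : ℝ} (hC : 0 ≤ C) {μ : Measure (X d)} (hu : Up n C μ) {x₀ x : X d} {t S : ℝ}
    (ht : 0 < t) (htS : t ≤ S) (hx : x ∈ ball x₀ S) :
    ‖RV n μ t S x - Crest.AnalysisR.rieszTruncation n μ t
      ((ball x₀ (3 * S)).indicator fun _ => (1 : ℝ)) x‖ ≤ C * (2 ^ n + 4 ^ n) := by
  have hS : 0 < S := ht.trans_le htS
  have mA : MeasurableSet {y : X d | t < dist x y} :=
    (isOpen_lt continuous_const (continuous_const.dist continuous_id)).measurableSet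
  have i1 : Integrable ((ball x (2 * t)).indicator fun _ => (t ^ n)⁻¹) μ :=
    (integrableOn_const (hu.ne_top isBounded_ball)).integrable_indicator measurableSet_ball
  have i2 : Integrable ((ball x (4 * S)).indicator fun _ => (S ^ n)⁻¹) μ :=
    (integrableOn_const (hu.ne_top isBounded_ball)).integrable_indicator measurableSet_ball
  have ig := CarA0_int hu ht hS x
  have mh : Measurable ({y | t < dist x y}.indicator fun y =>
      ((ball x₀ (3 * S)).indicator (fun _ => (1 : ℝ)) y * (‖x - y‖ ^ (n + 1))⁻¹) • (x - y)) := by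
    have m1 : Measurable ((ball x₀ (3 * S)).indicator fun _ => (1 : ℝ)) :=
      measurable_const.indicator measurableSet_ball
    have m2 : Measurable fun y : X d => (‖x - y‖ ^ (n + 1))⁻¹ := by fun_prop
    have m3 : Measurable fun y : X d => x - y := by fun_prop
    exact ((m1.mul m2).smul m3).indicator mA
  have id := (i1.add i2).mono' (ig.aestronglyMeasurable.sub mh.aestronglyMeasurable)
    (Eventually.of_forall (CarA0_pt ht htS hx))
  have ih := ig.sub id
  rw [sub_sub_cancel] at ih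
  rw [RV, Crest.AnalysisR.rieszTruncation, ← integral_indicator mA, ← integral_sub ig ih]
  refine (norm_integral_le_of_norm_le (i1.add i2)
    (Eventually.of_forall (CarA0_pt ht htS hx))).trans ?_
  rw [integral_add' i1 i2, integral_indicator_const _ measurableSet_ball,
    integral_indicator_const _ measurableSet_ball, smul_eq_mul, smul_eq_mul]
  have b1 := hu.real_le hC (x := x) (r := 2 * t) (by positivity) subset_rfl
  have b2 := hu.real_le hC (x := x) (r := 4 * S) (by positivity) subset_rfl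
  calc μ.real (ball x (2 * t)) * (t ^ n)⁻¹ + μ.real (ball x (4 * S)) * (S ^ n)⁻¹
      ≤ C * (2 * t) ^ n * (t ^ n)⁻¹ + C * (4 * S) ^ n * (S ^ n)⁻¹ := by gcongr
    _ = C * (2 ^ n + 4 ^ n) := by
      rw [mul_pow, mul_pow]
      field_simp

theorem CarA0_l2 {C CR : ℝ} {μ : Measure (X d)} (hu : Up n C μ)
    (hR : Crest.AnalysisR.HasRieszBound n CR μ) (x₀ : X d) {t r : ℝ} (ht : 0 < t) (hr : 0 < r) :
    ∫⁻ x, ENNReal.ofReal (‖Crest.AnalysisR.rieszTruncation n μ t
      ((ball x₀ r).indicator fun _ => (1 : ℝ)) x‖ ^ 2) ∂μ ≤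
      ENNReal.ofReal (CR ^ 2 * (C * r ^ n)) := by
  have h1 := hR _ (memLp_indicator_const 2 (measurableSet_ball (x := x₀) (ε := r)) (1 : ℝ)
    (Or.inr (hu.ne_top isBounded_ball))) t ht
  have h2 := ENNReal.rpow_le_rpow h1 (z := ((2 : ℝ≥0) : ℝ)) (by norm_num)
  rw [ENNReal.mul_rpow_of_nonneg _ _ (by norm_num)] at h2
  have e : ∀ {E : Type} [NormedAddCommGroup E] (f : X d → E),
      eLpNorm f 2 μ ^ ((2 : ℝ≥0) : ℝ) = ∫⁻ x, ‖f x‖ₑ ^ ((2 : ℝ≥0) : ℝ) ∂μ := fun f =>
    eLpNorm_nnreal_pow_eq_lintegral (p := 2) two_ne_zero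
  rw [e, e] at h2
  have e2 : ((2 : ℝ≥0) : ℝ) = ((2 : ℕ) : ℝ) := by norm_num
  simp only [e2, ENNReal.rpow_natCast] at h2
  have e3 : ∫⁻ x, ‖(ball x₀ r).indicator (fun _ => (1 : ℝ)) x‖ₑ ^ 2 ∂μ = μ (ball x₀ r) := by
    rw [← lintegral_indicator_one measurableSet_ball]
    refine lintegral_congr fun x => ?_
    by_cases hx : x ∈ ball x₀ r <;> simp [hx]
  rw [e3] at h2
  simp only [ENNReal.ofReal_pow (norm_nonneg _), ofReal_norm_eq_enorm]
  refine h2.trans ?_
  rw [ENNReal.ofReal_mul (sq_nonneg _), ← sq_abs, ENNReal.ofReal_pow (abs_nonneg _)]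
  exact mul_le_mul' (pow_le_pow_left' (ENNReal.ofReal_le_ofReal (le_abs_self _)) 2) (hu x₀ r hr)

/-- On `ball x₀ S`, `RV t S` differs from the hard truncation at `t` of the Riesz transform of the
indicator function of `ball x₀ (3 S)` by a bounded term (the kernels differ only for
`t < ‖z‖ < 2 t` and `S < ‖z‖`). -/
theorem RV_l2 (n : ℕ) {C : ℝ} (hC : 1 ≤ C) (CR : ℝ) : ∃ c : ℝ, 0 < c ∧
    ∀ (d : ℕ) (μ : Measure (X d)) (x₀ : X d) (t S : ℝ), Up n C μ →
      Crest.AnalysisR.HasRieszBound n CR μ → 0 < t → t ≤ S →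
      ∫ x in ball x₀ S, ‖RV n μ t S x‖ ^ 2 ∂μ ≤ c * S ^ n := by
  have hC0 : 0 ≤ C := by linarith
  set K : ℝ := C * (2 ^ n + 4 ^ n) with hK
  have hK0 : 0 < K := by positivity
  refine ⟨2 * (CR ^ 2 * (C * 3 ^ n)) + 2 * K ^ 2 * C, by positivity,
    fun d μ x₀ t S hu hR ht htS => ?_⟩
  have hS : 0 < S := ht.trans_le htS
  set T := Crest.AnalysisR.rieszTruncation n μ t ((ball x₀ (3 * S)).indicator fun _ => (1 : ℝ))
    with hT
  have h1 := CarA0_l2 hu hR x₀ ht (r := 3 * S) (by positivity)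
  rw [← hT] at h1
  refine ((Real.le_norm_self _).trans (norm_integral_le_lintegral_norm _)).trans
    (ENNReal.toReal_le_of_le_ofReal (by positivity) ?_)
  calc ∫⁻ x in ball x₀ S, ENNReal.ofReal ‖‖RV n μ t S x‖ ^ 2‖ ∂μ
      ≤ ∫⁻ x in ball x₀ S,
          ENNReal.ofReal 2 * ENNReal.ofReal (‖T x‖ ^ 2) + ENNReal.ofReal (2 * K ^ 2) ∂μ := by
        refine setLIntegral_mono' measurableSet_ball fun x hx => ?_
        have h2 : ‖RV n μ t S x - T x‖ ≤ K := CarA0_diff hC0 hu ht htS hx
        have h3 : ‖RV n μ t S x‖ ≤ ‖T x‖ + K := by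
          have := norm_sub_norm_le (RV n μ t S x) (T x)
          linarith
        rw [← ENNReal.ofReal_mul (by norm_num),
          ← ENNReal.ofReal_add (by positivity) (by positivity), Real.norm_of_nonneg (sq_nonneg _)]
        refine ENNReal.ofReal_le_ofReal ((pow_le_pow_left₀ (norm_nonneg _) h3 2).trans ?_)
        nlinarith [sq_nonneg (‖T x‖ - K)]
    _ = ENNReal.ofReal 2 * ∫⁻ x in ball x₀ S, ENNReal.ofReal (‖T x‖ ^ 2) ∂μ +
        ENNReal.ofReal (2 * K ^ 2) * μ (ball x₀ S) := by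
        rw [lintegral_add_right _ measurable_const, lintegral_const_mul' _ _ (by simp),
          setLIntegral_const]
    _ ≤ ENNReal.ofReal 2 * ENNReal.ofReal (CR ^ 2 * (C * (3 * S) ^ n)) +
        ENNReal.ofReal (2 * K ^ 2) * ENNReal.ofReal (C * S ^ n) := by
        gcongr
        · exact (setLIntegral_le_lintegral _ _).trans h1
        · exact hu x₀ S hS
    _ = ENNReal.ofReal ((2 * (CR ^ 2 * (C * 3 ^ n)) + 2 * K ^ 2 * C) * S ^ n) := by
        rw [← ENNReal.ofReal_mul (by norm_num),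
          ← ENNReal.ofReal_mul (by positivity),
          ← ENNReal.ofReal_add (by positivity) (by positivity), mul_pow]
        congr 1
        ring

end Crest.Agent.R085
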