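import Crest.Agent.R085.CarB0

/-! Row 85. The cubes which are not good form a Carleson family. -/

set_option autoImplicit false

open MeasureTheory Set Filter Topology Metric
open scoped ENNReal NNReal

noncomputable section

namespace Crest.Agent.R085

variable {n d : ℕ}

theorem CarB_good0 (μ : Measure (X 0)) (x : X 0) {r : ℝ} (hr : 0 < r) (A : ℝ) {δ : ℝ}
    (hδ : 0 < δ) : Good n μ x r A δ := by
  intro ℓ _ ψ _ _ _
  refine Eventually.of_forall fun P => ?_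
  have : ∀ y, LL n μ P.1 P.2 ℓ y = 0 := fun y =>
    (integral_congr_ae (ae_of_all _ fun z => by
      simp only [Subsingleton.elim z y, sub_self, zero_mul])).trans (integral_zero _ _)
  simp only [EE, this, mul_zero, integral_zero, abs_zero]
  positivity

theorem CarB_geom (M : ℕ) : ∑ j ∈ Finset.range M, (1 / 32 : ℝ) ^ (M - j) ≤ 1 := by
  induction M with
  | zero => simp
  | succ M ih =>
    have : ∑ j ∈ Finset.range M, (1 / 32 : ℝ) ^ (M + 1 - j) =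
        (∑ j ∈ Finset.range M, (1 / 32 : ℝ) ^ (M - j)) * (1 / 32) := by
      rw [Finset.sum_mul]
      refine Finset.sum_congr rfl fun j hj => ?_
      rw [← pow_succ, Nat.succ_sub (Finset.mem_range.1 hj).le]
    rw [Finset.sum_range_succ, this, Nat.add_sub_cancel_left, pow_one]
    linarith

theorem CarB_sum {T : ℕ → ℕ → ℝ} {w : ℕ → ℝ} (M : ℕ) (hT : ∀ j i, T j i = T i j)
    (hw : ∀ i, 0 ≤ w i) (h : ∀ i < M, ∀ j ≤ i, T j i ≤ w i * (1 / 32) ^ (i - j)) :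
    ∑ j ∈ Finset.range M, ∑ i ∈ Finset.range M, T j i ≤ 4 * ∑ i ∈ Finset.range M, w i := by
  induction M with
  | zero => simp
  | succ M ih =>
    have h1 := ih fun i hi => h i (Nat.lt_succ_of_lt hi)
    have h2 : ∑ j ∈ Finset.range M, T j M ≤ w M := by
      refine (Finset.sum_le_sum fun j hj =>
        h M M.lt_succ_self j (Finset.mem_range.1 hj).le).trans ?_
      rw [← Finset.mul_sum]
      exact mul_le_of_le_one_right (hw M) (CarB_geom M)
    have h3 := h M M.lt_succ_self M le_rfl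
    rw [Nat.sub_self, pow_zero, mul_one] at h3
    simp only [Finset.sum_range_succ, Finset.sum_add_distrib, hT M]
    linarith [hw M]

/-- Let `s` be the finite set of the bad cubes `(j, p)`, `j ≤ N`, `p ∈ sub 0 q j`, with
`ℓ`, `ψ` from `not_good_ev`, and `W = ∑ rr j ^ n`.  Take `S = S₀ r₀` with `S₀ = S₀ (A, δ)` so large
that `err_clm` (with `t' = t`) gives `δ / 4 * r ^ (n + 1) ≤ |EE t S ℓ ψ|` for all bad cubes and one
small `t`.  `bessel` with `φ = ψ / r`, `g = RV t S`; `RV_l2`; the double sum is at most `c W`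
(`orth_le` for the smaller cube; the supports meet only if the centres are `2 A rr j` close,
`card_ctr`; geometric series).  Hence `W ≤ c r₀ ^ n`; `sum_sub`, `cub_le`.
(For `d = 0` all `ℓ` vanish and everything is good.) -/
theorem carlA (n : ℕ) {C : ℝ} (hC : 1 ≤ C) (CR : ℝ) {A δ : ℝ} (hA : 1 ≤ A) (hδ : 0 < δ) :
    ∃ c : ℝ, 0 < c ∧ ∀ (d : ℕ) (μ : Measure (X d)) (D r₀ : ℝ) (N' N : ℕ)
      (cb : Cubes μ.support r₀ N') (q : X d), Up n C μ → Lo n C D μ →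
      Crest.AnalysisR.HasRieszBound n CR μ → 0 < r₀ → r₀ ≤ D → N ≤ N' →
      ∑ j ∈ Finset.range (N + 1),
        μ.real {x | x ∈ cb.cub 0 q ∧ ¬Good n μ (cb.a j x) (rr r₀ j) A δ} ≤ c * r₀ ^ n := by
  obtain ⟨c₁, hc₁, H₁⟩ := err_clm n hC
  obtain ⟨c₂, hc₂, H₂⟩ := RV_l2 n hC CR
  have hA0 : 0 < A := by linarith
  have hC0 : 0 < C := by linarith
  obtain ⟨τ, hτ, hτ1, hτ2⟩ : ∃ τ : ℝ, 0 < τ ∧ τ ≤ 1 ∧ c₁ * A ^ (n + 1) * τ ≤ δ / 8 :=
    ⟨min 1 (δ / 8 / (c₁ * A ^ (n + 1))), lt_min one_pos (by positivity), min_le_left _ _, by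
      rw [mul_comm]; exact (le_div_iff₀ (by positivity)).1 (min_le_right _ _)⟩
  obtain ⟨S₀, hS₀⟩ : ∃ S₀ : ℝ, S₀ = 10 * A / τ ^ 2 := ⟨_, rfl⟩
  have hS₀1 : 10 * A ≤ S₀ := by
    rw [hS₀]
    exact le_div_self (by positivity) (by positivity) (pow_le_one₀ hτ.le hτ1)
  have hS₀0 : 0 < S₀ := by linarith
  obtain ⟨K, hK⟩ : ∃ K : ℝ, K = C ^ 2 * (8 * (2 * A) + 2) ^ n * (C * A ^ (n + 2)) := ⟨_, rfl⟩
  have hK0 : 0 < K := by rw [hK]; positivity
  refine ⟨C * 2 ^ n * (64 * K * c₂ * S₀ ^ n / δ ^ 2), by positivity,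
    fun d μ D r₀ N' N cb q hu hl hR h0 hD hN => ?_⟩
  rcases Nat.eq_zero_or_pos d with rfl | hd
  · rw [Finset.sum_eq_zero fun j _ => ?_]
    · positivity
    · simp [CarB_good0 μ _ (rr_pos h0 j) A hδ]
  have := hu.locFin
  have hr := rr_pos h0
  have hr0 : ∀ j, rr r₀ j ≤ r₀ := fun j => (rr_anti h0 j.zero_le).trans_eq (rr_zero r₀)
  have hex : ∀ j, ∃ s : Finset (X d), j ≤ N →
      ∀ p, p ∈ s ↔ p ∈ cb.sub 0 q j ∧ ¬Good n μ p (rr r₀ j) A δ := by
    classical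
    intro j
    by_cases hj : j ≤ N
    · exact ⟨(cb.finite_sub h0 j.zero_le (hj.trans hN) q).toFinset.filter
        fun p => ¬Good n μ p (rr r₀ j) A δ, fun _ p => by simp⟩
    · exact ⟨∅, fun h => absurd h hj⟩
  choose s hs using hex
  have hex2 : ∀ (j : ℕ) (p : X d), ∃ (ℓ : X d →L[ℝ] ℝ) (ψ : X d → ℝ),
      ¬Good n μ p (rr r₀ j) A δ → ‖ℓ‖ ≤ 1 ∧ LipschitzWith 1 ψ ∧ Off ψ p (A * rr r₀ j) ∧
        ∫ y, ψ y ∂μ = 0 ∧
        ∀ᶠ P : ℝ × ℝ in FF, δ / 2 * rr r₀ j ^ (n + 1) ≤ |EE n μ P.1 P.2 ℓ ψ| := by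
    intro j p
    by_cases hg : Good n μ p (rr r₀ j) A δ
    · exact ⟨0, 0, fun h => absurd hg h⟩
    · obtain ⟨ℓ, ψ, h⟩ := not_good_ev hC hu (hr j) hA0 hδ hg
      exact ⟨ℓ, ψ, fun _ => h⟩
  choose ℓ ψ hψ using hex2
  replace hψ := fun j (hj : j ≤ N) p (hp : p ∈ s j) => hψ j p ((hs j hj p).1 hp).2
  have ht : 0 < τ * rr r₀ N := mul_pos hτ (hr N)
  have hS : 0 < S₀ * r₀ := mul_pos hS₀0 h0
  have htS : τ * rr r₀ N ≤ S₀ * r₀ := mul_le_mul (by linarith) (hr0 N) (hr N).le hS₀0.le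
  -- lower bound
  have hlow : ∀ j ≤ N, ∀ p ∈ s j, δ / 4 * rr r₀ j ^ n ≤
      |∫ x, (rr r₀ j)⁻¹ * ψ j p x * ℓ j p (RV n μ (τ * rr r₀ N) (S₀ * r₀) x) ∂μ| := by
    intro j hj p hp
    obtain ⟨h1, h2, h3, h4, h5⟩ := hψ j hj p hp
    obtain ⟨P, hP, hP1, hP2, hP3⟩ := (h5.and (FF_ev ht (S₀ * r₀))).exists
    have hrj := hr j
    have htr : τ * rr r₀ N ≤ τ * rr r₀ j := mul_le_mul_of_nonneg_left (rr_anti h0 hj) hτ.le
    have h6 := H₁ d μ (ℓ j p) (ψ j p) p (A * rr r₀ j) P.1 (τ * rr r₀ N) (S₀ * r₀) P.2 1 hu h2 h3 h4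
      (by positivity) hP1 hP2 (htr.trans (mul_le_mul_of_nonneg_right (by linarith) hrj.le))
      (by nlinarith [hr0 j]) hP3
    have h7 : √(A * rr r₀ j / (S₀ * r₀)) ≤ τ := by
      refine Real.sqrt_le_iff.2 ⟨hτ.le, ?_⟩
      rw [div_le_iff₀ hS, hS₀]
      have : τ ^ 2 * (10 * A / τ ^ 2 * r₀) = 10 * A * r₀ := by field_simp
      nlinarith [hr0 j]
    have h8 : c₁ * ‖ℓ j p‖ * (1 : ℝ≥0) * (A * rr r₀ j) ^ n *
        (τ * rr r₀ N + A * rr r₀ j * √(A * rr r₀ j / (S₀ * r₀))) ≤ δ / 4 * rr r₀ j ^ (n + 1) := by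
      have h11 : τ * rr r₀ N ≤ A * rr r₀ j * τ := by nlinarith [mul_pos hτ hrj]
      calc _ ≤ c₁ * 1 * (1 : ℝ≥0) * (A * rr r₀ j) ^ n * (A * rr r₀ j * τ + A * rr r₀ j * τ) := by
            gcongr
        _ = 2 * (c₁ * A ^ (n + 1) * τ) * rr r₀ j ^ (n + 1) := by
            rw [NNReal.coe_one]; ring
        _ ≤ 2 * (δ / 8) * rr r₀ j ^ (n + 1) := by gcongr
        _ = _ := by ring
    have h9 : ∫ x, (rr r₀ j)⁻¹ * ψ j p x * ℓ j p (RV n μ (τ * rr r₀ N) (S₀ * r₀) x) ∂μ =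
        (rr r₀ j)⁻¹ * EE n μ (τ * rr r₀ N) (S₀ * r₀) (ℓ j p) (ψ j p) := by
      rw [EE, ← integral_const_mul]
      simp only [LL_eq_RV hu ht hS, mul_assoc]
    rw [h9, abs_mul, abs_of_pos (inv_pos.2 hrj), le_inv_mul_iff₀ hrj]
    have h10 := abs_sub_abs_le_abs_sub (EE n μ P.1 P.2 (ℓ j p) (ψ j p))
      (EE n μ (τ * rr r₀ N) (S₀ * r₀) (ℓ j p) (ψ j p))
    have e : rr r₀ j * (δ / 4 * rr r₀ j ^ n) = δ / 4 * rr r₀ j ^ (n + 1) := by ring
    linarith
  -- almost orthogonality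
  have horth : ∀ i ≤ N, ∀ j ≤ i, ∀ p' ∈ s i,
      ∑ p ∈ s j, |∫ x, (rr r₀ j)⁻¹ * ψ j p x * ((rr r₀ i)⁻¹ * ψ i p' x) ∂μ| ≤
        K * rr r₀ i ^ n * (1 / 32) ^ (i - j) := by
    classical
    intro i hi j hj p' hp'
    obtain ⟨-, g2, g3, g4, -⟩ := hψ i hi p' hp'
    have hrj := hr j
    have hri := hr i
    rw [← Finset.sum_filter_of_ne (p := fun p => dist p p' ≤ 2 * A * rr r₀ j) fun p hp hne => ?_]
    · refine (Finset.sum_le_card_nsmul _ _ (C * A ^ (n + 2) * rr r₀ i ^ n * (1 / 32) ^ (i - j))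
        fun p hp => ?_).trans ?_
      · have h1 := orth_le hC hu hd (mul_pos hA0 hri) g2 g3 g4
          (hψ j (hj.trans hi) p (Finset.mem_filter.1 hp).1).2.1
        have e1 : ∫ x, (rr r₀ j)⁻¹ * ψ j p x * ((rr r₀ i)⁻¹ * ψ i p' x) ∂μ =
            (rr r₀ j * rr r₀ i)⁻¹ * ∫ x, ψ i p' x * ψ j p x ∂μ := by
          rw [← integral_const_mul]
          congr 1
          funext x
          rw [mul_inv]
          ring
        have e2 : rr r₀ i = rr r₀ j * (1 / 32) ^ (i - j) := by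
          rw [← rr_add, Nat.add_sub_cancel' hj]
        rw [e1, abs_mul, abs_of_pos (by positivity), inv_mul_le_iff₀ (by positivity)]
        refine h1.trans (le_of_eq ?_)
        calc C * (A * rr r₀ i) ^ (n + 2) = C * A ^ (n + 2) * rr r₀ i ^ n * rr r₀ i * rr r₀ i := by
              ring
          _ = C * A ^ (n + 2) * rr r₀ i ^ n * rr r₀ i * (rr r₀ j * (1 / 32) ^ (i - j)) := by
              rw [← e2]
          _ = _ := by ring
      · have h1 := card_ctr hu hl hC h0 hD cb ((hj.trans hi).trans hN) (x := p') (A := 2 * A)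
          (by positivity) ((s j).filter fun p => dist p p' ≤ 2 * A * rr r₀ j) fun p hp =>
            ⟨((hs j (hj.trans hi) p).1 (Finset.mem_filter.1 hp).1).1.1, (Finset.mem_filter.1 hp).2⟩
        rw [nsmul_eq_mul, hK]
        refine (mul_le_mul_of_nonneg_right h1 (by positivity)).trans (le_of_eq ?_)
        ring
    · by_contra hc
      refine hne ?_
      rw [abs_eq_zero]
      refine (integral_congr_ae (ae_of_all _ fun x => ?_)).trans (integral_zero _ _)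
      by_cases hx : A * rr r₀ j ≤ dist x p
      · simp only [(hψ j (hj.trans hi) p hp).2.2.1 x hx, mul_zero, zero_mul]
      · have h1 := dist_triangle_left p p' x
        have h2 := mul_le_mul_of_nonneg_left (rr_anti h0 hj) hA0.le
        simp only [g3 x (by linarith), mul_zero]
  obtain ⟨W, hW⟩ : ∃ W, W = ∑ j ∈ Finset.range (N + 1), ((s j).card : ℝ) * rr r₀ j ^ n := ⟨_, rfl⟩
  have hW0 : 0 ≤ W := by
    rw [hW]
    exact Finset.sum_nonneg fun j _ => mul_nonneg (Nat.cast_nonneg _) (pow_pos (hr j) n).le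
  have hB := bessel hu ((Finset.range (N + 1)).sigma s)
    (φ := fun Q x => (rr r₀ Q.1)⁻¹ * ψ Q.1 Q.2 x) (ℓ := fun Q => ℓ Q.1 Q.2)
    (g := RV n μ (τ * rr r₀ N) (S₀ * r₀)) (x₀ := q) (S := S₀ * r₀) (by
      rintro ⟨j, p⟩ hQ
      obtain ⟨hj, hp⟩ := Finset.mem_sigma.1 hQ
      have hj' : j ≤ N := Nat.lt_succ_iff.1 (Finset.mem_range.1 hj)
      obtain ⟨h1, h2, h3, -⟩ := hψ j hj' p hp
      obtain ⟨⟨h4, h5⟩, -⟩ := (hs j hj' p).1 hp
      have h6 := cb.near 0 N'.zero_le p h4.1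
      rw [h5, rr_zero] at h6
      refine ⟨continuous_const.mul h2.continuous, fun y hy => ?_, h1⟩
      simp only [h3.mono (x' := q) (R' := S₀ * r₀) (by nlinarith [hr0 j]) y hy, mul_zero])
    (continuous_RV hu ht hS)
  simp only [Finset.sum_sigma] at hB
  have b1 : δ / 4 * W ≤ ∑ j ∈ Finset.range (N + 1), ∑ p ∈ s j,
      |∫ x, (rr r₀ j)⁻¹ * ψ j p x * ℓ j p (RV n μ (τ * rr r₀ N) (S₀ * r₀) x) ∂μ| := by
    rw [hW, Finset.mul_sum]
    refine Finset.sum_le_sum fun j hj => le_trans (le_of_eq ?_)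
      (Finset.card_nsmul_le_sum _ _ _ (hlow j (Nat.lt_succ_iff.1 (Finset.mem_range.1 hj))))
    rw [nsmul_eq_mul]
    ring
  have b2 : ∑ j ∈ Finset.range (N + 1), ∑ p ∈ s j, ∑ i ∈ Finset.range (N + 1), ∑ p' ∈ s i,
      |∫ x, (rr r₀ j)⁻¹ * ψ j p x * ((rr r₀ i)⁻¹ * ψ i p' x) ∂μ| ≤ 4 * K * W := by
    simp only [Finset.sum_comm (s := s _) (t := Finset.range (N + 1))]
    refine (CarB_sum (w := fun i => K * (((s i).card : ℝ) * rr r₀ i ^ n)) (N + 1)
      (fun j i => ?_) (fun i => ?_) fun i hi j hj => ?_).trans (le_of_eq ?_)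
    · rw [Finset.sum_comm]
      simp only [mul_comm ((rr r₀ j)⁻¹ * ψ j _ _)]
    · exact mul_nonneg hK0.le (mul_nonneg (Nat.cast_nonneg _) (pow_pos (hr i) n).le)
    · rw [Finset.sum_comm]
      refine (Finset.sum_le_card_nsmul _ _ _ (horth i (Nat.lt_succ_iff.1 hi) j hj)).trans
        (le_of_eq ?_)
      rw [nsmul_eq_mul]
      ring
    · rw [← Finset.mul_sum, ← hW, mul_assoc]
  have b3 := H₂ d μ q _ _ hu hR ht htS
  have b4 : (δ / 4 * W) ^ 2 ≤ 4 * K * W * (c₂ * (S₀ * r₀) ^ n) :=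
    (pow_le_pow_left₀ (by positivity) b1 2).trans (hB.trans (mul_le_mul b2 b3
      (integral_nonneg fun x => sq_nonneg _) (by positivity)))
  have b5 : W ≤ 64 * K * c₂ * S₀ ^ n / δ ^ 2 * r₀ ^ n := by
    rcases hW0.eq_or_lt with h | h
    · rw [← h]; positivity
    · rw [div_mul_eq_mul_div, le_div_iff₀ (by positivity)]
      refine le_of_mul_le_mul_left ?_ h
      rw [mul_pow S₀] at b4
      nlinarith
  calc _ = ∑ j ∈ Finset.range (N + 1), ∑ p ∈ s j, μ.real (cb.cub j p) := by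
        refine Finset.sum_congr rfl fun j hj => ?_
        have hj' : j ≤ N := Nat.lt_succ_iff.1 (Finset.mem_range.1 hj)
        have := cb.sum_sub h0 μ.isClosed_support.measurableSet j.zero_le (hj'.trans hN) q (μ := μ)
          MeasurableSet.univ (fun p => ¬Good n μ p (rr r₀ j) A δ) (s j) (hs j hj')
        simpa only [inter_univ] using this.symm
    _ ≤ C * 2 ^ n * W := by
        rw [hW, Finset.mul_sum]
        refine Finset.sum_le_sum fun j hj => (Finset.sum_le_card_nsmul _ _ _ fun p _ =>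
          cub_le hu hC0.le h0 cb ((Nat.lt_succ_iff.1 (Finset.mem_range.1 hj)).trans hN) p).trans
            (le_of_eq ?_)
        rw [nsmul_eq_mul]
        ring
    _ ≤ C * 2 ^ n * (64 * K * c₂ * S₀ ^ n / δ ^ 2 * r₀ ^ n) := by gcongr
    _ = _ := by ring

end Crest.Agent.R085
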