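import Crest.Agent.R085.Cube1

/-! Row 85. Cubes: construction and elementary properties. -/

set_option autoImplicit false

open MeasureTheory Set Filter Topology Metric
open scoped ENNReal NNReal

noncomputable section

namespace Crest.Agent.R085

variable {n d : ℕ}

namespace Cubes

variable {E : Set (X d)} {r₀ : ℝ} {N : ℕ} (c : Cubes E r₀ N)

theorem Cube_stop (h : 0 < r₀) {M j : ℕ} (hj : j < M) (hM : M ≤ N) {q : X d}
    (T : ℕ → X d → Prop) (hT : T j q) : ∃ S : Finset (ℕ × X d), c.Part M j q S ∧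
      (∀ P ∈ S, ∀ l, j ≤ l → l < P.1 → T l (c.a l P.2)) ∧ ∀ P ∈ S, P.1 < M → ¬T P.1 P.2 := by
  classical
  have hfin : {P : ℕ × X d | (j < P.1 ∧ P.1 ≤ M) ∧ P.2 ∈ c.sub j q P.1 ∧
      (∀ l, j ≤ l → l < P.1 → T l (c.a l P.2)) ∧ (P.1 < M → ¬T P.1 P.2)}.Finite := by
    refine ((finite_Ioc j M).biUnion (t := fun i => {i} ×ˢ c.sub j q i) fun i hi =>
      (finite_singleton i).prod (c.finite_sub h hi.1.le (hi.2.trans hM) q)).subset ?_
    rintro ⟨i, p⟩ hP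
    exact mem_biUnion (show i ∈ Ioc j M from hP.1) ⟨rfl, hP.2.1⟩
  refine ⟨hfin.toFinset, ⟨fun P hP => (hfin.mem_toFinset.1 hP).1,
    fun P hP => (hfin.mem_toFinset.1 hP).2.1, fun x hx => ?_, ?_⟩,
    fun P hP => (hfin.mem_toFinset.1 hP).2.2.1, fun P hP => (hfin.mem_toFinset.1 hP).2.2.2⟩
  · have hex : ∃ i, j < i ∧ (i < M → ¬T i (c.a i x)) := ⟨M, hj, fun h => absurd h (lt_irrefl _)⟩
    have h1 := Nat.find_spec hex
    have h2 : Nat.find hex ≤ M := Nat.find_min' hex ⟨hj, fun h => absurd h (lt_irrefl _)⟩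
    have h3 := h2.trans hM
    refine ⟨(Nat.find hex, c.a (Nat.find hex) x), hfin.mem_toFinset.2 ⟨⟨h1.1, h2⟩,
      ⟨c.ctr_a h h3 hx.1, (c.a_a h h1.1.le h3 hx.1).trans hx.2⟩, fun l hl hl' => ?_, h1.2⟩, rfl⟩
    rw [c.a_a h (le_of_lt hl') h3 hx.1]
    rcases hl.eq_or_lt with rfl | hl
    · rw [hx.2]; exact hT
    · by_contra hc
      exact Nat.find_min hex hl' ⟨hl, fun _ => hc⟩
  · have key : ∀ x ∈ E, ∀ P ∈ hfin.toFinset, ∀ P' ∈ hfin.toFinset, c.a P.1 x = P.2 →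
        c.a P'.1 x = P'.2 → ¬ P.1 < P'.1 := by
      intro x hx P hP P' hP' e e' hlt
      obtain ⟨a1, -, -, a4⟩ := hfin.mem_toFinset.1 hP
      obtain ⟨b1, -, b3, -⟩ := hfin.mem_toFinset.1 hP'
      have := b3 P.1 a1.1.le hlt
      rw [← e', c.a_a h hlt.le (b1.2.trans hM) hx, e] at this
      exact a4 (lt_of_lt_of_le hlt b1.2) this
    intro x hx P hP P' hP' e e'
    have h1 : P.1 = P'.1 :=
      le_antisymm (not_lt.1 (key x hx P' hP' P hP e' e)) (not_lt.1 (key x hx P hP P' hP' e e'))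
    exact Prod.ext h1 (by rw [← e, ← e', h1])

/-- The children. -/
theorem part_children (h : 0 < r₀) {M j : ℕ} (hj : j < M) (hM : M ≤ N) (q : X d) :
    ∃ S : Finset (ℕ × X d), c.Part M j q S ∧ ∀ P ∈ S, P.1 = j + 1 := by
  obtain ⟨S, h1, h2, -⟩ := c.Cube_stop h hj hM (q := q) (fun l _ => l = j) rfl
  refine ⟨S, h1, fun P hP => ?_⟩
  have h3 := (h1.lev P hP).1
  by_contra hc
  have := h2 P hP (j + 1) (by omega) (by omega)
  omega

/-- Stopping cubes: `(i, p)` with `j < i ≤ M`, `p ∈ sub j q i`, `T l (a l p)` for `j ≤ l < i`, and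
`i = M` or `¬ T i p`. -/
theorem part_stop (h : 0 < r₀) {M j : ℕ} (hj : j < M) (hM : M ≤ N) {q : X d}
    (T : ℕ → X d → Prop) (hT : T j q) : ∃ S : Finset (ℕ × X d), c.Part M j q S ∧
      (∀ P ∈ S, ∀ l, j ≤ l → l < P.1 → T l (c.a l P.2)) ∧ ∀ P ∈ S, P.1 < M → ¬T P.1 P.2 := by
  exact c.Cube_stop h hj hM T hT

theorem Part.sum_eq {c : Cubes E r₀ N} (h : 0 < r₀) (hE : MeasurableSet E) {M j : ℕ} (hM : M ≤ N)
    {q : X d} {S : Finset (ℕ × X d)} (hS : c.Part M j q S) {μ : Measure (X d)}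
    [IsFiniteMeasureOnCompacts μ] {W : Set (X d)} (hW : MeasurableSet W) :
    ∑ P ∈ S, μ.real (c.cub P.1 P.2 ∩ W) = μ.real (c.cub j q ∩ W) := by
  rw [← measureReal_biUnion_finset (f := fun P : ℕ × X d => c.cub P.1 P.2 ∩ W) ?_ ?_ ?_]
  · congr 1
    ext x
    simp only [mem_iUnion, mem_inter_iff, exists_prop]
    constructor
    · rintro ⟨P, hP, h1, h2⟩
      exact ⟨c.cub_sub h (hS.lev P hP).1.le ((hS.lev P hP).2.trans hM) (hS.ctr P hP).1
        (hS.ctr P hP).2 h1, h2⟩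
    · rintro ⟨h1, h2⟩
      obtain ⟨P, hP, e⟩ := hS.cover x h1
      exact ⟨P, hP, ⟨h1.1, e⟩, h2⟩
  · intro P hP P' hP' hne
    refine disjoint_left.2 fun x hx hx' => hne ?_
    exact hS.disj x hx.1.1 P hP P' hP' hx.1.2 hx'.1.2
  · exact fun P _ => (c.measurableSet_cub hE _ _).inter hW
  · exact fun P hP =>
      (((c.bounded_cub ((hS.lev P hP).2.trans hM) _).subset inter_subset_left).measure_lt_top).ne

theorem sum_sub (h : 0 < r₀) (hE : MeasurableSet E) {j i : ℕ} (hji : j ≤ i) (hi : i ≤ N) (q : X d)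
    {μ : Measure (X d)} [IsFiniteMeasureOnCompacts μ] {W : Set (X d)} (hW : MeasurableSet W)
    (P : X d → Prop) (s : Finset (X d)) (hs : ∀ p, p ∈ s ↔ p ∈ c.sub j q i ∧ P p) :
    ∑ p ∈ s, μ.real (c.cub i p ∩ W) = μ.real ({x | x ∈ c.cub j q ∧ P (c.a i x)} ∩ W) := by
  rw [← measureReal_biUnion_finset (f := fun p : X d => c.cub i p ∩ W) ?_ ?_ ?_]
  · congr 1
    ext x
    simp only [mem_iUnion, mem_inter_iff, exists_prop, hs]
    constructor
    · rintro ⟨p, ⟨hp, hP⟩, h1, h2⟩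
      exact ⟨⟨c.cub_sub h hji hi hp.1 hp.2 h1, by rw [h1.2]; exact hP⟩, h2⟩
    · rintro ⟨⟨h1, hP⟩, h2⟩
      exact ⟨c.a i x, ⟨⟨c.ctr_a h hi h1.1, (c.a_a h hji hi h1.1).trans h1.2⟩, hP⟩,
        ⟨h1.1, rfl⟩, h2⟩
  · intro p _ p' _ hne
    exact disjoint_left.2 fun x hx hx' => hne (hx.1.2.symm.trans hx'.1.2)
  · exact fun p _ => (c.measurableSet_cub hE _ _).inter hW
  · exact fun p _ => (((c.bounded_cub hi _).subset inter_subset_left).measure_lt_top).ne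

end Cubes

variable {C D r₀ : ℝ} {N : ℕ} {μ : Measure (X d)}

theorem cub_le (hu : Up n C μ) (hC : 0 ≤ C) (h : 0 < r₀) (c : Cubes μ.support r₀ N) {j : ℕ}
    (hj : j ≤ N) (q : X d) : μ.real (c.cub j q) ≤ C * 2 ^ n * rr r₀ j ^ n := by
  have hr : 0 < rr r₀ j := by unfold rr; positivity
  have := hu.real_le hC (by positivity) (c.cub_subset hj q)
  rwa [mul_pow, ← mul_assoc] at this

theorem Cube_rr_le (h : 0 < r₀) (j : ℕ) : rr r₀ j ≤ r₀ :=
  mul_le_of_le_one_right h.le (pow_le_one₀ (by norm_num) (by norm_num))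

theorem le_cub (hu : Up n C μ) (hl : Lo n C D μ) (h : 0 < r₀) (hD : r₀ ≤ D)
    (c : Cubes μ.support r₀ N) {j : ℕ} (hj : j ≤ N) {q : X d} (hq : c.Ctr j q) :
    rr r₀ j ^ n / (4 ^ n * C) ≤ μ.real (c.cub j q) := by
  have hr : 0 < rr r₀ j := by unfold rr; positivity
  have := hl.le_real hu hq.1 (r := rr r₀ j / 4) (by positivity)
    (by linarith [Cube_rr_le h j]) (c.bounded_cub hj q) (c.ball_subset hj hq)
  rwa [div_pow, div_div] at this

theorem card_ctr (hu : Up n C μ) (hl : Lo n C D μ) (hC : 1 ≤ C) (h : 0 < r₀) (hD : r₀ ≤ D)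
    (c : Cubes μ.support r₀ N) {j : ℕ} (hj : j ≤ N) {x : X d} {A : ℝ} (hA : 0 < A)
    (s : Finset (X d)) (hs : ∀ p ∈ s, c.Ctr j p ∧ dist p x ≤ A * rr r₀ j) :
    (s.card : ℝ) ≤ C ^ 2 * (8 * A + 2) ^ n := by
  have hr : 0 < rr r₀ j := by unfold rr; positivity
  have := pack hu hl hC (r := rr r₀ j / 4) (R := A * rr r₀ j) (by positivity) (by positivity)
    (by linarith [Cube_rr_le h j]) s (fun y hy => ⟨(hs y hy).1.1, (hs y hy).2⟩)
    fun y hy z hz hne => c.sep hj (hs z hz).1 (hs y hy).1.1 (by rw [(hs y hy).1.2]; exact hne)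
  have e : 2 * (A * rr r₀ j + rr r₀ j / 4) / (rr r₀ j / 4) = 8 * A + 2 := by
    field_simp
    ring
  rwa [e] at this

end Crest.Agent.R085
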