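import Crest.Agent.R085.CarA
import Crest.Agent.R085.Cube

/-! Row 85. The cubes which are not good form a Carleson family. -/

set_option autoImplicit false

open MeasureTheory Set Filter Topology Metric
open scoped ENNReal NNReal

noncomputable section

namespace Crest.Agent.R085

variable {n d : ℕ}

/-- Almost orthogonality: `ψ` is `1`-Lipschitz and `φ` has mean zero. -/
theorem orth_le {C : ℝ} (hC : 1 ≤ C) {μ : Measure (X d)} (hu : Up n C μ) (hd : 0 < d)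
    {φ ψ : X d → ℝ} {p : X d} {R : ℝ} (hR : 0 < R) (hφ : LipschitzWith 1 φ) (ho : Off φ p R)
    (h0 : ∫ y, φ y ∂μ = 0) (hψ : LipschitzWith 1 ψ) :
    |∫ y, φ y * ψ y ∂μ| ≤ C * R ^ (n + 2) := by
  have hc := ho.hasCompactSupport
  have i1 : Integrable φ μ := hu.integrable hφ.continuous hc
  have i2 : Integrable (fun y => φ y * ψ y) μ :=
    hu.integrable (hφ.continuous.mul hψ.continuous) hc.mul_right
  have e : ∫ y, φ y * ψ y ∂μ = ∫ y, φ y * (ψ y - ψ p) ∂μ := by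
    simp only [mul_sub]
    rw [integral_sub i2 (i1.mul_const _), integral_mul_const, h0, zero_mul, sub_zero]
  have ho' : Off (fun y => φ y * (ψ y - ψ p)) p R := fun y hy => by
    simp only [ho y hy, zero_mul]
  have hb : ∀ y ∈ μ.support, |φ y * (ψ y - ψ p)| ≤ R * R := fun y _ => by
    by_cases hy : R ≤ dist y p
    · rw [ho y hy, zero_mul, abs_zero]; positivity
    · have h1 := ho.abs_le hd hR hφ y
      have h2 := hψ.dist_le_mul y p
      rw [Real.dist_eq] at h2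
      simp only [NNReal.coe_one, one_mul] at h1 h2
      rw [abs_mul]
      exact mul_le_mul h1 (h2.trans (not_le.1 hy).le) (abs_nonneg _) hR.le
  rw [e]
  refine (abs_integral_le_integral_abs).trans
    ((hu.integral_abs_le (by linarith) hR (by positivity) ho' hb).trans (le_of_eq ?_))
  ring

/-- A failure of `Good` persists for all small `t` and large `s` (`err_clm`). -/
theorem not_good_ev {C : ℝ} (hC : 1 ≤ C) {μ : Measure (X d)} (hu : Up n C μ) {x : X d}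
    {r A δ : ℝ} (hr : 0 < r) (hA : 0 < A) (hδ : 0 < δ) (h : ¬Good n μ x r A δ) :
    ∃ (ℓ : X d →L[ℝ] ℝ) (ψ : X d → ℝ), ‖ℓ‖ ≤ 1 ∧ LipschitzWith 1 ψ ∧ Off ψ x (A * r) ∧
      ∫ y, ψ y ∂μ = 0 ∧ ∀ᶠ p : ℝ × ℝ in FF, δ / 2 * r ^ (n + 1) ≤ |EE n μ p.1 p.2 ℓ ψ| := by
  unfold Good at h
  push Not at h
  obtain ⟨ℓ, hℓ, ψ, hψ, ho, h0, hf⟩ := h
  refine ⟨ℓ, ψ, hℓ, hψ, ho, h0, ?_⟩
  obtain ⟨c, hc, herr⟩ := err_clm n hC
  have hρ : 0 < A * r := mul_pos hA hr
  set ρ := A * r with hρdef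
  have t1 : Tendsto (fun p : ℝ × ℝ => p.1) FF (𝓝 0) := FF_fst.mono_right nhdsWithin_le_nhds
  have t2 : Tendsto (fun p : ℝ × ℝ => √(ρ / p.2)) FF (𝓝 0) := by
    have := (tendsto_const_nhds (x := ρ)).div_atTop FF_snd
    simpa using this.sqrt
  have t3 : Tendsto (fun p : ℝ × ℝ => c * ρ ^ n * (p.1 + ρ * √(ρ / p.2))) FF (𝓝 0) := by
    simpa using (t1.add (t2.const_mul ρ)).const_mul (c * ρ ^ n)
  have hpos : 0 < δ / 2 * r ^ (n + 1) := by positivity
  obtain ⟨q, hq1, hq2, hq3, hq4, hq5⟩ :=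
    (hf.and_eventually ((t3.eventually_le_const hpos).and (FF_ev hρ (8 * ρ)))).exists
  filter_upwards [FF_ev hq3 q.2] with p hp
  obtain ⟨hp1, hp2, hp3⟩ := hp
  have h1 := herr d μ ℓ ψ x ρ p.1 q.1 q.2 p.2 1 hu hψ ho h0 hρ hp1 hp2 hq4 hq5 hp3
  have h2 : c * ‖ℓ‖ * ((1 : ℝ≥0) : ℝ) * ρ ^ n * (q.1 + ρ * √(ρ / q.2))
      ≤ c * ρ ^ n * (q.1 + ρ * √(ρ / q.2)) := by
    rw [NNReal.coe_one, mul_one]
    gcongr
    exact mul_le_of_le_one_right hc.le hℓ
  have h3 := abs_sub_abs_le_abs_sub (EE n μ q.1 q.2 ℓ ψ) (EE n μ p.1 p.2 ℓ ψ)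
  rw [abs_sub_comm] at h3
  linarith

end Crest.Agent.R085
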