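import Crest.Agent.R085.CarD0

/-! Row 85. The cubes which are not nice form a Carleson family. -/

set_option autoImplicit false

open MeasureTheory Set Filter Topology Metric
open scoped ENNReal NNReal

noncomputable section

namespace Crest.Agent.R085

variable {n d : ℕ}

theorem CarD_gen {r₀ r' c : ℝ} (h : 0 < r₀) {j m : ℕ} (hm : (1 / 32 : ℝ) ^ m ≤ c / 4)
    (h1 : c * (rr r₀ j / 4) ≤ r') (h2 : r' ≤ rr r₀ j / 4) :
    ∃ k ≤ m, rr r₀ (j + k) ≤ r' ∧ r' ≤ 32 * rr r₀ (j + k) := by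
  classical
  have h0 := rr_pos h j
  have h3 : rr r₀ (j + m) ≤ r' := by
    rw [rr_add]
    nlinarith
  have hex : ∃ k, rr r₀ (j + k) ≤ r' := ⟨m, h3⟩
  refine ⟨Nat.find hex, Nat.find_min' hex h3, Nat.find_spec hex, ?_⟩
  rcases e : Nat.find hex with _ | k
  · rw [add_zero]; linarith
  · have := Nat.find_min hex (show k < Nat.find hex by omega)
    rw [← add_assoc, rr_succ]
    linarith

theorem CarD_union {μ : Measure (X d)} {S T U Q : Set (X d)} (hQ : μ Q ≠ ⊤) (h : S ⊆ T ∪ U)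
    (hT : T ⊆ Q) (hU : U ⊆ Q) : μ.real S ≤ μ.real T + μ.real U :=
  (measureReal_mono h (ne_top_of_le_ne_top hQ (measure_mono (union_subset hT hU)))).trans
    (measureReal_union_le T U)

/-- `gd j p := Good n μ p (rr j) A δ ∧ A * rr j ≤ D`, `fl j p := ∀ x ∈ cub j p, Flat n μ x (rr j) ε`.
Choose `ε ≤ ε₀` (`persist`) and `ε ≤ ε₃` (`nice_of`), apply `appear` with `ε / 640` at
`(p, rr j / 4)`, let `i` be the first generation with `rr i ≤ r'` (`Fl.scale` loses `32`,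
`Fl.center` loses `20`); `A = max … + 2`, `δ = min … / 4 ^ (n + 1)` (`Good.mono`).  The condition
`A * rr j ≤ D` fails only for `j < j₀ (A)`.  `carlA`, `carl_abs`. -/
theorem carlN (n d : ℕ) (hn : 1 ≤ n) (hd : n ≤ d) {C : ℝ} (hC : 1 ≤ C) (CR : ℝ) :
    ∃ C₂ : ℝ, 1 ≤ C₂ ∧ ∀ η : ℝ, 0 < η → ∃ c : ℝ, 0 < c ∧ ∀ (μ : Measure (X d)) (D r₀ : ℝ)
      (N' N : ℕ) (cb : Cubes μ.support r₀ N') (q : X d), Up n C μ → Lo n C D μ →
      Crest.AnalysisR.HasRieszBound n CR μ → 0 < r₀ → r₀ ≤ D → N ≤ N' →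
      ∑ j ∈ Finset.range (N + 1), μ.real {x | x ∈ cb.cub 0 q ∧
        ¬∃ (ι : X n →ₗᵢ[ℝ] X d) (θ : ℝ), Nice C₂ μ (cb.a j x) (rr r₀ j) η ι θ} ≤ c * r₀ ^ n := by
  obtain ⟨C₂, hC₂, H₃⟩ := nice_of n d hn hC
  obtain ⟨ε₀, hε₀, H₁⟩ := persist n d hn hC
  refine ⟨C₂, hC₂, fun η hη => ?_⟩
  obtain ⟨ε₃, A₃, δ₃, hε₃, hA₃, hδ₃, H₃⟩ := H₃ η hη
  obtain ⟨ε, hε, e₀, e₃⟩ : ∃ ε, 0 < ε ∧ ε ≤ ε₀ ∧ ε ≤ ε₃ :=
    ⟨min ε₀ ε₃, lt_min hε₀ hε₃, min_le_left _ _, min_le_right _ _⟩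
  obtain ⟨A₁, δ₁, hA₁, hδ₁, H₁⟩ := H₁ ε hε e₀
  obtain ⟨c₂, A₂, δ₂, hc₂, hA₂, hδ₂, H₂⟩ := appear n d hd hC (show 0 < ε / 640 by positivity)
  obtain ⟨δ, hδ, d₁, d₂, d₃⟩ : ∃ δ, 0 < δ ∧ δ ≤ δ₁ ∧ δ ≤ δ₂ / 4 ^ (n + 1) ∧ δ ≤ δ₃ :=
    ⟨min δ₁ (min (δ₂ / 4 ^ (n + 1)) δ₃), by positivity, min_le_left _ _,
      (min_le_right _ _).trans (min_le_left _ _), (min_le_right _ _).trans (min_le_right _ _)⟩
  obtain ⟨A, hA⟩ : ∃ A, A = A₁ + A₂ + A₃ + 2 := ⟨_, rfl⟩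
  obtain ⟨cA, hcA, HA⟩ := carlA n hC CR (show 1 ≤ A by linarith) hδ
  obtain ⟨m', hm'⟩ := exists_pow_lt_of_lt_one (show 0 < c₂ / 4 by positivity)
    (show (1 / 32 : ℝ) < 1 by norm_num)
  obtain ⟨j₀, hj₀⟩ := exists_pow_lt_of_lt_one (show 0 < 1 / A by rw [hA]; positivity)
    (show (1 / 32 : ℝ) < 1 by norm_num)
  obtain ⟨m, hm1, hm⟩ : ∃ m, 1 ≤ m ∧ (1 / 32 : ℝ) ^ m ≤ c₂ / 4 := ⟨m' + 1, by omega,
    (pow_le_pow_of_le_one (by norm_num) (by norm_num) (Nat.le_succ m')).trans hm'.le⟩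
  obtain ⟨κ, hκ⟩ : ∃ κ : ℝ, κ = ((1 / 32) ^ m) ^ n / (4 ^ n * C * (C * 2 ^ n)) := ⟨_, rfl⟩
  have hC0 : 0 < C := by linarith
  have κ0 : 0 < κ := hκ ▸ by positivity
  have κ1 : κ ≤ 1 := hκ ▸ div_le_one_of_le₀ ((pow_le_one₀ (by positivity)
    (pow_le_one₀ (by norm_num) (by norm_num))).trans (one_le_mul_of_one_le_of_one_le
      (one_le_mul_of_one_le_of_one_le (one_le_pow₀ (by norm_num)) hC)
      (one_le_mul_of_one_le_of_one_le hC (one_le_pow₀ (by norm_num))))) (by positivity)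
  refine ⟨m / κ * (C * 2 ^ n + (cA + j₀ * (C * 2 ^ n))) + (cA + j₀ * (C * 2 ^ n)), by positivity,
    fun μ D r₀ N' N cb q hu hl hR h0 hD hN => ?_⟩
  have hr := rr_pos h0
  have gm : ∀ {p y : X d} {j : ℕ} {A' δ' : ℝ}, Good n μ p (rr r₀ j) A δ ∧ A * rr r₀ j ≤ D →
      dist y p ≤ 2 * rr r₀ j → A' + 2 ≤ A → δ ≤ δ' →
      A' * rr r₀ j ≤ D ∧ Good n μ y (rr r₀ j) A' δ' := fun {p y j A' δ'} g h1 h2 h3 => by
    have := mul_le_mul_of_nonneg_right h2 (hr j).le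
    exact ⟨by linarith [hr j, g.2], g.1.mono (by linarith)
      (mul_le_mul_of_nonneg_right h3 (pow_pos (hr j) _).le)⟩
  have H := carl_abs hu h0 cb hN q (fun j p => Good n μ p (rr r₀ j) A δ ∧ A * rr r₀ j ≤ D)
    (fun j p => ∀ x ∈ cb.cub j p, Flat n μ x (rr r₀ j) ε) hm1 κ0 κ1
    (fun j hj x hx g f y hy => by
      have h1 := cb.nest j (j + 1) (Nat.le_succ j) (by omega) y hy.1 x hx hy.2
      have h2 := gm g (h1 ▸ (cb.near j (by omega) y hy.1).le) (show A₁ + 2 ≤ A by linarith) d₁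
      rw [rr_succ]
      exact H₁ μ D y _ hu hl hy.1 (hr j) h2.1 h2.2 (f y ⟨hy.1, h1⟩))
    (fun j hj p hp g => by
      have h1 : A₂ * (rr r₀ j / 4) ≤ A * rr r₀ j := by nlinarith [hr j]
      obtain ⟨x', hx', h2, r', h3, h4, ι, h5⟩ := H₂ μ D p (rr r₀ j / 4) hu hl hp.1
        (by linarith [hr j]) (h1.trans g.2) (g.1.mono (by rwa [dist_self, zero_add]) (by
          rw [div_pow, ← mul_div_assoc, mul_div_right_comm]
          exact mul_le_mul_of_nonneg_right d₂ (pow_pos (hr j) _).le))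
      obtain ⟨k, hk, h6, h7⟩ := CarD_gen h0 hm h3 h4
      have hi : j + k ≤ N' := by omega
      have h8 := cb.ctr_a h0 hi hx'
      refine ⟨j + k, cb.a (j + k) x', Nat.le_add_right j k, by omega, h8, ?_, fun x hx => ⟨ι, ?_⟩, ?_⟩
      · rw [cb.a_a h0 (Nat.le_add_right j k) hi hx']
        exact (cb.ball_subset (by omega) hp ⟨h2, hx'⟩).2
      · have h9 := (h5.scale (by positivity) (hr _) h6).mono (hr _) (show _ ≤ ε / 20 by
          have := (div_le_iff₀ (hr (j + k))).2 h7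
          nlinarith)
        have h10 := cb.near _ hi x hx.1
        rw [hx.2] at h10
        refine (h9.center (by positivity) (hr _) hx.1 ?_).mono (hr _) (by linarith)
        linarith [dist_triangle_right x x' (cb.a (j + k) x'), cb.near _ hi x' hx']
      · refine le_trans ?_ (le_cub hu hl h0 hD cb hi h8)
        refine (mul_le_mul_of_nonneg_left (cub_le hu hC0.le h0 cb (by omega) p) κ0.le).trans ?_
        have h9 := pow_le_pow_left₀ (hr _).le (rr_anti h0 (Nat.add_le_add_left hk j)) n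
        refine le_trans (le_of_eq ?_) (div_le_div_of_nonneg_right h9 (by positivity))
        rw [hκ, rr_add, mul_pow]
        field_simp)
  have hQ : μ (cb.cub 0 q) ≠ ⊤ := ne_top_of_le_ne_top ENNReal.ofReal_ne_top
    ((measure_mono (cb.cub_subset (Nat.zero_le _) q)).trans (hu _ _ (by linarith [hr 0])))
  have hq := cub_le hu hC0.le h0 cb (Nat.zero_le _) q
  rw [rr_zero] at hq
  have G : ∑ j ∈ Finset.range (N + 1), μ.real {x | x ∈ cb.cub 0 q ∧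
      ¬(Good n μ (cb.a j x) (rr r₀ j) A δ ∧ A * rr r₀ j ≤ D)} ≤
      (cA + j₀ * (C * 2 ^ n)) * r₀ ^ n := by
    have h1 : ∀ j ∈ Finset.range (N + 1), μ.real {x | x ∈ cb.cub 0 q ∧
        ¬(Good n μ (cb.a j x) (rr r₀ j) A δ ∧ A * rr r₀ j ≤ D)} ≤
        μ.real {x | x ∈ cb.cub 0 q ∧ ¬Good n μ (cb.a j x) (rr r₀ j) A δ} +
          if j ∈ Finset.range j₀ then μ.real (cb.cub 0 q) else 0 := fun j _ => by
      split_ifs with h
      · exact CarD_union hQ (fun x hx => Or.inr hx.1) (fun x hx => hx.1) Subset.rfl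
      · rw [add_zero]
        refine measureReal_mono (fun x hx => ⟨hx.1, fun g => hx.2 ⟨g, ?_⟩⟩)
          (ne_top_of_le_ne_top hQ (measure_mono fun x hx => hx.1))
        have h2 := rr_anti h0 (not_lt.1 (mt Finset.mem_range.2 h))
        have h3 : 0 < A := by linarith
        rw [lt_div_iff₀ h3] at hj₀
        refine (mul_le_mul_of_nonneg_left h2 h3.le).trans (le_trans ?_ hD)
        unfold rr
        nlinarith
    refine (Finset.sum_le_sum h1).trans ?_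
    rw [Finset.sum_add_distrib, Finset.sum_ite_mem, Finset.sum_const, nsmul_eq_mul]
    have h2 : ((Finset.range (N + 1) ∩ Finset.range j₀).card : ℝ) ≤ j₀ := by
      exact_mod_cast (Finset.card_le_card Finset.inter_subset_right).trans (Finset.card_range j₀).le
    have h3 := mul_le_mul h2 hq measureReal_nonneg (Nat.cast_nonneg _)
    linarith [HA d μ D r₀ N' N cb q hu hl hR h0 hD hN]
  refine (Finset.sum_le_sum fun j hj => CarD_union hQ
    (T := {x | x ∈ cb.cub 0 q ∧ ¬∀ y ∈ cb.cub j (cb.a j x), Flat n μ y (rr r₀ j) ε})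
    (U := {x | x ∈ cb.cub 0 q ∧ ¬(Good n μ (cb.a j x) (rr r₀ j) A δ ∧ A * rr r₀ j ≤ D)})
    (fun x hx => ?_) (fun x hx => hx.1) fun x hx => hx.1).trans ?_
  · by_contra hc
    rw [mem_union, not_or] at hc
    have h1 := cb.ctr_a h0 (show j ≤ N' by have := Finset.mem_range.1 hj; omega) hx.1.1
    have h2 := gm (not_not.1 fun h => hc.2 ⟨hx.1, h⟩) (y := cb.a j x)
      (by rw [dist_self]; linarith [hr j]) (show A₃ + 2 ≤ A by linarith) d₃
    obtain ⟨ι, h3⟩ := (not_not.1 fun h => hc.1 ⟨hx.1, h⟩) _ h1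
    exact hx.2 (H₃ μ D _ _ hu hl h1.1 (hr j) h2.1 h2.2 ⟨ι, h3.mono (hr j) e₃⟩)
  · rw [Finset.sum_add_distrib, add_mul]
    refine add_le_add ?_ G
    rw [div_mul_eq_mul_div, div_mul_eq_mul_div, le_div_iff₀' κ0, mul_assoc]
    exact H.trans (mul_le_mul_of_nonneg_left (by linarith) (Nat.cast_nonneg m))

end Crest.Agent.R085
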