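import Crest.Agent.R085.PPa0

/-! Row 85. Flatness persists and appears at good scales (compactness). -/

set_option autoImplicit false

open MeasureTheory Set Filter Topology Metric
open scoped ENNReal NNReal

noncomputable section

namespace Crest.Agent.R085

theorem PPa_ev {ε : ℝ} (hε : 0 < ε) : ∀ᶠ j : ℕ in (UU : Filter ℕ), 1 / ((j : ℝ) + 1) ≤ ε :=
  UU_le ((tendsto_one_div_add_atTop_nhds_zero_nat (𝕜 := ℝ)).eventually_le_const hε)

/-- Compactness, `dim_hole`, `touch` (with `y₀ = 0`), `VL.seq`, `VL.fl_ev`. -/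
theorem flat_step (n d m : ℕ) (hm : n ≤ m) {C : ℝ} (hC : 1 ≤ C) {ε : ℝ} (hε : 0 < ε) :
    ∃ ε' : ℝ, 0 < ε' ∧ ∀ μ : Measure (X d), KK n C μ → (0 : X d) ∈ μ.support →
      Flat (m + 1) μ 0 1 ε' →
      ∃ x ∈ μ.support, ‖x‖ < 1 / 2 ∧ ∃ r : ℝ, 0 < r ∧ r ≤ 1 ∧ Flat m μ x r ε := by
  by_contra hcon
  push Not at hcon
  choose μs hk h0 hf hn using fun j : ℕ => hcon (1 / ((j : ℝ) + 1)) (by positivity)
  choose ιs hιs using hf
  obtain ⟨μ, hv, hK, hμ0, hl⟩ := exists_kk_lim hC (fun j => (hk j).up) (fun j => (hk j).lo _) h0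
    fun j => (hk j).good 0 _ one_pos (by positivity)
  obtain ⟨ι, hι⟩ := iso_lim ιs
  have hs : ∀ y ∈ μ.support, ∃ u, ι u = y := fun y hy =>
    Fl.range (fun ζ hζ => hv.fl_lim hK.up one_pos (fun ζ' hζ' => (hι ζ' hζ').mono fun j h => h.1)
      ((PPa_ev hζ).mono fun j h => (hιs j).mono one_pos h)) hy
  obtain ⟨p, hp, hp'⟩ := dim_hole hC hK.up hK.lo (Nat.lt_succ_of_le hm) ι
  obtain ⟨C₁, -, hb⟩ := KK.rb n hC
  obtain ⟨x, hx, hd, r, hr, hr1, ι', hfl⟩ :=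
    touch hC hK.up hK.lo (hb d μ hK) ι hs hp' hμ0 (half_pos hε)
  have hx' : ‖x‖ < 1 / 2 := by
    rw [dist_zero_left, ι.norm_map, dist_eq_norm] at hd
    linarith [norm_sub_norm_le x (ι p), ι.norm_map p]
  obtain ⟨xs, hxs, hxt⟩ := hv.seq hK.up hx
  obtain ⟨j, h1, h2, h3⟩ := (hxs.and ((hxt.norm.eventually_lt_const hx').and
    (hv.fl_ev hC (fun j => (hk j).up) hl hr (half_pos hε).le (half_lt_self hε) hfl hxt))).exists
  exact hn j _ h1 h2 r hr hr1 ⟨ι', h3⟩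

/-- Downward induction on `m` (`flat_top`, `flat_step`, `KK.sc`, `fl_sc`). -/
theorem flat_exists {n d m : ℕ} (hm : n ≤ m) (hd : m ≤ d) {C : ℝ} (hC : 1 ≤ C)
    {μ : Measure (X d)} (h : KK n C μ) {x : X d} (hx : x ∈ μ.support) {r ε : ℝ} (hr : 0 < r)
    (hε : 0 < ε) :
    ∃ x' ∈ μ.support, dist x' x < r ∧ ∃ r' : ℝ, 0 < r' ∧ r' ≤ r ∧ Flat m μ x' r' ε := by
  obtain ⟨k, hk⟩ := Nat.exists_eq_add_of_le hd
  induction k generalizing m r ε with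
  | zero =>
    subst hk
    exact ⟨x, hx, by rwa [dist_self], r, hr, le_rfl, flat_top μ x hr hε.le⟩
  | succ k ih =>
    obtain ⟨ε', hε', H⟩ := flat_step n d m hm hC hε
    obtain ⟨x₁, hx₁, hd₁, r₁, hr₁, hr₁', ι, hf⟩ :=
      ih (m := m + 1) (by omega) (by omega) (half_pos hr) hε' (by omega)
    obtain ⟨y, hy, hy', ρ, hρ, hρ', ι', hf'⟩ := H (sc n μ x₁ r₁) (h.sc hr₁)
      ((mem_support_sc hr₁ 0).2 (by simpa using hx₁))
      ⟨ι, (fl_sc hr₁ one_pos).2 (by simpa using hf)⟩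
    refine ⟨x₁ + r₁ • y, (mem_support_sc hr₁ y).1 hy, ?_, r₁ * ρ, mul_pos hr₁ hρ,
      (mul_le_of_le_one_right hr₁.le hρ').trans (by linarith), ι', (fl_sc hr₁ hρ).1 hf'⟩
    have h1 := dist_triangle (x₁ + r₁ • y) x₁ x
    rw [dist_self_add_left, norm_smul, Real.norm_of_nonneg hr₁.le] at h1
    linarith [mul_lt_mul_of_pos_left hy' hr₁]

/-- Compactness and `flat_exists`. -/
theorem appear (n d : ℕ) (hd : n ≤ d) {C : ℝ} (hC : 1 ≤ C) {ε : ℝ} (hε : 0 < ε) :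
    ∃ c A δ : ℝ, 0 < c ∧ 1 ≤ A ∧ 0 < δ ∧
      ∀ (μ : Measure (X d)) (D : ℝ) (x : X d) (r : ℝ), Up n C μ → Lo n C D μ → x ∈ μ.support →
        0 < r → A * r ≤ D → Good n μ x r A δ →
        ∃ x' ∈ μ.support, dist x' x < r ∧ ∃ r' : ℝ, c * r ≤ r' ∧ r' ≤ r ∧ Flat n μ x' r' ε := by
  by_contra hcon
  push Not at hcon
  choose μs Ds xs rs hu hl hx hr hD hg hn using fun j : ℕ =>
    hcon (1 / ((j : ℝ) + 1)) ((j : ℝ) + 1) (1 / ((j : ℝ) + 1)) (by positivity)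
      (le_add_of_nonneg_left (Nat.cast_nonneg j)) (by positivity)
  have hus := fun j => (hu j).sc (x := xs j) (hr j)
  obtain ⟨μ, hv, hK, hμ0, hl1⟩ := exists_kk_lim hC hus (fun j => (hl j).sc (hr j) (hD j))
    (fun j => (mem_support_sc (hr j) 0).2 (by simpa using hx j)) fun j => (hg j).sc (hr j)
  obtain ⟨x, hx', hd', r, hr', hr1, ι, hfl⟩ :=
    flat_exists le_rfl hd hC hK hμ0 one_pos (half_pos hε)
  rw [dist_zero_right] at hd'
  obtain ⟨ys, hys, hyt⟩ := hv.seq hK.up hx'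
  obtain ⟨j, h0, h1, h2, h3⟩ := ((PPa_ev hr').and (hys.and
    ((hyt.norm.eventually_lt_const hd').and
      (hv.fl_ev hC hus hl1 hr' (half_pos hε).le (half_lt_self hε) hfl hyt)))).exists
  refine hn j _ ((mem_support_sc (hr j) _).1 h1) ?_ (rs j * r) ?_
    (mul_le_of_le_one_right (hr j).le hr1) ⟨ι, (fl_sc (hr j) hr').1 h3⟩
  · rw [dist_self_add_left, norm_smul, Real.norm_of_nonneg (hr j).le]
    exact mul_lt_of_lt_one_right (hr j) h2
  · rw [mul_comm]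
    exact mul_le_mul_of_nonneg_left h0 (hr j).le

end Crest.Agent.R085
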