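import Crest.Agent.R085.Form
import Crest.Agent.R085.Iso

/-! Row 85. Rescaling. -/

set_option autoImplicit false

open MeasureTheory Set Filter Topology Metric
open scoped ENNReal NNReal

noncomputable section

namespace Crest.Agent.R085

variable {n d m : ℕ} {C D : ℝ} {μ : Measure (X d)} {x : X d} {r : ℝ}

theorem Scale_left (hr : 0 < r) (y : X d) : r⁻¹ • (x + r • y - x) = y := by
  rw [add_sub_cancel_left, smul_smul, inv_mul_cancel₀ hr.ne', one_smul]

theorem Scale_right (hr : 0 < r) (y : X d) : x + r • (r⁻¹ • (y - x)) = y := by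
  rw [smul_smul, mul_inv_cancel₀ hr.ne', one_smul, add_sub_cancel]

/-- the rescaling map as a homeomorphism -/
def Scale_homeo (x : X d) {r : ℝ} (hr : 0 < r) : X d ≃ₜ X d where
  toFun := fun y => r⁻¹ • (y - x)
  invFun := fun y => x + r • y
  left_inv := Scale_right hr
  right_inv := Scale_left hr
  continuous_toFun := by fun_prop
  continuous_invFun := by fun_prop

theorem Scale_image (hr : 0 < r) (S : Set (X d)) :
    (fun y => x + r • y) '' S = (fun y => r⁻¹ • (y - x)) ⁻¹' S := by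
  ext z
  constructor
  · rintro ⟨y, hy, rfl⟩
    simpa only [mem_preimage, Scale_left hr] using hy
  · intro hz
    exact ⟨_, hz, Scale_right hr z⟩

theorem Scale_apply (hr : 0 < r) (S : Set (X d)) :
    sc n μ x r S = ENNReal.ofReal ((r ^ n)⁻¹) * μ ((fun y => x + r • y) '' S) := by
  rw [Scale_image hr, sc, Measure.smul_apply, smul_eq_mul]
  congr 1
  exact (Scale_homeo x hr).toMeasurableEquiv.map_apply S

theorem Scale_real (hr : 0 < r) (S : Set (X d)) :
    (sc n μ x r).real S = (r ^ n)⁻¹ * μ.real ((fun y => x + r • y) '' S) := by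
  rw [Measure.real, Scale_apply hr, ENNReal.toReal_mul, ENNReal.toReal_ofReal (by positivity)]
  rfl

theorem Scale_norm (hr : 0 < r) (y : X d) : ‖r⁻¹ • y‖ = ‖y‖ / r := by
  rw [norm_smul, norm_inv, Real.norm_of_nonneg hr.le, div_eq_inv_mul]

theorem Scale_dist (hr : 0 < r) (y z : X d) : dist (x + r • y) (x + r • z) = r * dist y z := by
  rw [dist_add_left, dist_smul₀, Real.norm_of_nonneg hr.le]

theorem Scale_ball (hr : 0 < r) (y : X d) (ρ : ℝ) :
    (fun z => x + r • z) '' ball y ρ = ball (x + r • y) (r * ρ) := by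
  ext z
  constructor
  · rintro ⟨w, hw, rfl⟩
    rw [mem_ball] at hw ⊢
    rw [Scale_dist hr]
    exact mul_lt_mul_of_pos_left hw hr
  · intro hz
    refine ⟨r⁻¹ • (z - x), ?_, Scale_right hr z⟩
    rw [mem_ball] at hz ⊢
    rw [← Scale_right (x := x) hr z, Scale_dist hr] at hz
    exact lt_of_mul_lt_mul_left hz hr.le

theorem Scale_thick (hr : 0 < r) (η : ℝ) (Z : Set (X d)) (y : X d) :
    y ∈ thickening (η * 1) ((fun z => x + r • z) ⁻¹' Z) ↔ x + r • y ∈ thickening (η * r) Z := by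
  rw [mem_thickening_iff, mem_thickening_iff]
  constructor
  · rintro ⟨z, hz, h⟩
    refine ⟨x + r • z, hz, ?_⟩
    rw [Scale_dist hr]; nlinarith
  · rintro ⟨z, hz, h⟩
    refine ⟨r⁻¹ • (z - x), by simpa only [mem_preimage, Scale_right hr] using hz, ?_⟩
    rw [← Scale_right (x := x) hr z, Scale_dist hr] at h
    nlinarith

theorem Scale_vol (hr : 0 < r) (ι : X n →ₗᵢ[ℝ] X d) (T : Set (X d)) :
    volume.real {u : X n | x + r • (0 + ι u) ∈ T} =
      (r ^ n)⁻¹ * volume.real {u : X n | x + ι u ∈ T} := by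
  have e : {u : X n | x + r • (0 + ι u) ∈ T} = (r • ·) ⁻¹' {u : X n | x + ι u ∈ T} := by
    ext u; simp
  rw [e, Measure.real, Measure.addHaar_preimage_smul _ hr.ne', ENNReal.toReal_mul,
    ENNReal.toReal_ofReal (abs_nonneg _), finrank_euclideanSpace_fin,
    abs_of_pos (by positivity)]
  rfl

theorem Scale_FF (hr : 0 < r) : Tendsto (fun p : ℝ × ℝ => (r * p.1, r * p.2)) FF FF := by
  have h1 : Tendsto (fun t : ℝ => r * t) (𝓝[>] 0) (𝓝[>] 0) := by
    refine tendsto_nhdsWithin_iff.2 ⟨?_, ?_⟩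
    · have : Tendsto (fun t : ℝ => r * t) (𝓝 0) (𝓝 (r * 0)) :=
        (continuous_const.mul continuous_id).tendsto 0
      rw [mul_zero] at this
      exact this.mono_left nhdsWithin_le_nhds
    · filter_upwards [self_mem_nhdsWithin] with t ht
      exact mul_pos hr ht
  exact h1.prodMap (tendsto_id.const_mul_atTop hr)

theorem Scale_kk (hr : 0 < r) (t s : ℝ) (z : X d) :
    kk n t s (r⁻¹ • z) = r ^ (n + 1) * kk n (r * t) (r * s) z := by
  rw [kk, kk, Scale_norm hr, div_div, div_div, div_pow, div_div_eq_mul_div]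
  ring

theorem mem_support_sc (hr : 0 < r) (y : X d) :
    y ∈ (sc n μ x r).support ↔ x + r • y ∈ μ.support := by
  rw [Measure.mem_support_iff_forall, Measure.mem_support_iff_forall]
  have hc : ENNReal.ofReal ((r ^ n)⁻¹) ≠ 0 := by
    rw [Ne, ENNReal.ofReal_eq_zero, not_le]; positivity
  constructor
  · intro h U hU
    have hV : (fun z => x + r • z) ⁻¹' U ∈ 𝓝 y :=
      (by fun_prop : Continuous fun z : X d => x + r • z).continuousAt.preimage_mem_nhds hU
    have := h _ hV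
    rw [Scale_apply hr] at this
    have h2 : 0 < μ ((fun z => x + r • z) '' ((fun z => x + r • z) ⁻¹' U)) :=
      pos_iff_ne_zero.2 fun h0 => by rw [h0, mul_zero] at this; exact lt_irrefl _ this
    exact h2.trans_le (measure_mono (image_preimage_subset _ _))
  · intro h U hU
    have hV : (fun z => r⁻¹ • (z - x)) ⁻¹' U ∈ 𝓝 (x + r • y) := by
      refine (by fun_prop : Continuous fun z : X d => r⁻¹ • (z - x)).continuousAt.preimage_mem_nhds ?_
      rwa [Scale_left hr]
    have := h _ hV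
    rw [Scale_apply hr, Scale_image hr]
    exact ENNReal.mul_pos hc this.ne'

theorem sc_apply (hr : 0 < r) (S : Set (X d)) :
    sc n μ x r S = ENNReal.ofReal ((r ^ n)⁻¹) * μ ((fun y => x + r • y) '' S) := by
  exact Scale_apply hr S

theorem integral_sc (hr : 0 < r) (f : X d → ℝ) :
    ∫ y, f y ∂sc n μ x r = (r ^ n)⁻¹ * ∫ y, f (r⁻¹ • (y - x)) ∂μ := by
  rw [sc, integral_smul_measure, ENNReal.toReal_ofReal (by positivity), smul_eq_mul]
  congr 1
  exact integral_map_equiv (Scale_homeo x hr).toMeasurableEquiv f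

theorem Up.sc (h : Up n C μ) (hr : 0 < r) : Up n C (sc n μ x r) := by
  intro y ρ hρ
  rw [sc_apply hr, Scale_ball hr]
  refine (mul_le_mul_right (h _ _ (mul_pos hr hρ)) _).trans (le_of_eq ?_)
  rw [← ENNReal.ofReal_mul (by positivity)]
  congr 1
  rw [mul_pow]; field_simp

theorem Lo.sc {D' : ℝ} (h : Lo n C D μ) (hr : 0 < r) (hD : D' * r ≤ D) :
    Lo n C D' (sc n μ x r) := by
  intro y hy ρ hρ hρD
  rw [Scale_real hr, Scale_ball hr]
  have h1 := h _ ((mem_support_sc hr y).1 hy) (r * ρ) (mul_pos hr hρ) (by nlinarith)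
  refine le_trans (le_of_eq ?_) (mul_le_mul_of_nonneg_left h1 (by positivity))
  rw [mul_pow, mul_div_assoc, ← mul_assoc, inv_mul_cancel₀ (by positivity), one_mul]

theorem EE_sc (hr : 0 < r) (t s : ℝ) (ℓ : X d →L[ℝ] ℝ) (ψ : X d → ℝ) :
    EE n (sc n μ x r) t s ℓ ψ =
      (r ^ n)⁻¹ * EE n μ (r * t) (r * s) ℓ fun y => ψ (r⁻¹ • (y - x)) := by
  rw [EE, EE, integral_sc hr]
  congr 1
  refine integral_congr_ae (Eventually.of_forall fun y => ?_)
  simp only
  congr 1
  rw [LL, LL, integral_sc hr, ← integral_const_mul]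
  refine integral_congr_ae (Eventually.of_forall fun w => ?_)
  simp only
  rw [← smul_sub, sub_sub_sub_cancel_right, Scale_kk hr, map_smul, map_smul, map_sub, map_sub,
    smul_eq_mul, smul_eq_mul]
  field_simp
  ring

theorem Good.sc {A δ : ℝ} (h : Good n μ x r A δ) (hr : 0 < r) : Good n (sc n μ x r) 0 1 A δ := by
  intro ℓ hℓ ψ hψ hoff hint
  have h1 : LipschitzWith 1 fun y => r * ψ (r⁻¹ • (y - x)) := by
    refine LipschitzWith.of_dist_le_mul fun y z => ?_
    have := hψ.dist_le_mul (r⁻¹ • (y - x)) (r⁻¹ • (z - x))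
    rw [dist_eq_norm (r⁻¹ • (y - x)), ← smul_sub, sub_sub_sub_cancel_right, Scale_norm hr,
      NNReal.coe_one, one_mul, le_div_iff₀ hr] at this
    rw [Real.dist_eq, ← mul_sub, abs_mul, abs_of_pos hr, ← Real.dist_eq, NNReal.coe_one, one_mul,
      dist_eq_norm y, mul_comm]
    exact this
  have h2 : Off (fun y => r * ψ (r⁻¹ • (y - x))) x (A * r) := by
    intro y hy
    show r * ψ (r⁻¹ • (y - x)) = 0
    rw [hoff _ ?_, mul_zero]
    rw [dist_zero_right, Scale_norm hr, le_div_iff₀ hr, mul_one, ← dist_eq_norm]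
    exact hy
  have h3 : ∫ y, r * ψ (r⁻¹ • (y - x)) ∂μ = 0 := by
    rw [integral_sc hr, mul_eq_zero] at hint
    rw [integral_const_mul, hint.resolve_left (by positivity), mul_zero]
  filter_upwards [(Scale_FF hr).eventually (h ℓ hℓ _ h1 h2 h3)] with p hp
  have e : EE n μ (r * p.1) (r * p.2) ℓ (fun y => r * ψ (r⁻¹ • (y - x))) =
      r * EE n μ (r * p.1) (r * p.2) ℓ (fun y => ψ (r⁻¹ • (y - x))) := by
    rw [EE, EE, ← integral_const_mul]
    simp only [mul_assoc]
  rw [e, abs_mul, abs_of_pos hr, pow_succ] at hp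
  rw [EE_sc hr, abs_mul, abs_of_pos (by positivity), one_pow, mul_one,
    inv_mul_le_iff₀ (by positivity)]
  exact le_of_mul_le_mul_left (hp.trans (le_of_eq (by ring))) hr

theorem KK.sc (h : KK n C μ) (hr : 0 < r) : KK n C (sc n μ x r) := by
  refine ⟨h.up.sc hr, fun D => (h.lo (D * r)).sc hr le_rfl, fun ℓ ψ hψ hint => ?_⟩
  have h1 : Test fun y => ψ (r⁻¹ • (y - x)) := by
    obtain ⟨⟨Λ, hΛ⟩, hc⟩ := hψ
    refine ⟨⟨_, hΛ.comp ((lipschitzWith_smul r⁻¹).comp
      (LipschitzWith.id.sub (LipschitzWith.const x)))⟩, ?_⟩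
    exact hc.comp_homeomorph (Scale_homeo x hr)
  have h3 : ∫ y, ψ (r⁻¹ • (y - x)) ∂μ = 0 := by
    rw [integral_sc hr, mul_eq_zero] at hint
    exact hint.resolve_left (by positivity)
  have := ((h.refl ℓ _ h1 h3).comp (Scale_FF hr)).const_mul (r ^ n)⁻¹
  rw [mul_zero] at this
  refine this.congr fun p => ?_
  rw [EE_sc hr]; rfl

theorem fl_sc (hr : 0 < r) {y : X d} {ρ ε : ℝ} (hρ : 0 < ρ) {ι : X m →ₗᵢ[ℝ] X d} :
    Fl (sc n μ x r) y ρ ε ι ↔ Fl μ (x + r • y) (r * ρ) ε ι := by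
  have key : ∀ (z : X d) (u : X m), ‖z - y - ι u‖ ≤ ε * ρ * wt (‖z - y‖ / ρ) ↔
      ‖x + r • z - (x + r • y) - ι (r • u)‖ ≤
        ε * (r * ρ) * wt (‖x + r • z - (x + r • y)‖ / (r * ρ)) := by
    intro z u
    rw [add_sub_add_left_eq_sub, map_smul, ← smul_sub, ← smul_sub, norm_smul, norm_smul,
      Real.norm_of_nonneg hr.le, mul_div_mul_left _ _ hr.ne',
      show ε * (r * ρ) * wt (‖z - y‖ / ρ) = r * (ε * ρ * wt (‖z - y‖ / ρ)) by ring,
      mul_le_mul_iff_right₀ hr]
  constructor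
  · intro h z hz
    rw [← Scale_right (x := x) hr z] at hz ⊢
    obtain ⟨u, hu⟩ := h _ ((mem_support_sc hr _).2 hz)
    exact ⟨r • u, (key _ _).1 hu⟩
  · intro h z hz
    obtain ⟨u, hu⟩ := h _ ((mem_support_sc hr _).1 hz)
    refine ⟨r⁻¹ • u, (key _ _).2 ?_⟩
    rwa [smul_smul, mul_inv_cancel₀ hr.ne', one_smul]

theorem Nice.of_sc (hr : 0 < r) {C₂ η θ : ℝ} {ι : X n →ₗᵢ[ℝ] X d}
    (h : Nice C₂ (sc n μ x r) 0 1 η ι θ) : Nice C₂ μ x r η ι θ := by
  have hn : 0 < r ^ n := by positivity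
  have key : ∀ (z : X d) (u : X n), ‖z - 0 - ι u‖ ≤ η * 1 →
      ‖x + r • z - x - ι (r • u)‖ ≤ η * r := by
    intro z u hz
    rw [add_sub_cancel_left, map_smul, ← smul_sub, norm_smul, Real.norm_of_nonneg hr.le]
    rw [sub_zero] at hz
    nlinarith
  have hsub : ∀ Z ⊆ ball x (20 * r), (fun z => x + r • z) ⁻¹' Z ⊆ ball (0 : X d) (20 * 1) := by
    intro Z hZ z hz
    have := hZ hz
    rw [mem_ball, dist_eq_norm, add_sub_cancel_left, norm_smul, Real.norm_of_nonneg hr.le] at this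
    rw [mem_ball, dist_zero_right]
    nlinarith
  have hsurj : Function.Surjective fun z : X d => x + r • z := fun z => ⟨_, Scale_right hr z⟩
  refine ⟨h.lo, h.hi, fun y hy hd => ?_, fun u hu => ?_, fun Z hZ => ?_, fun Z hZ => ?_⟩
  · rw [← Scale_right (x := x) hr y] at hy ⊢
    obtain ⟨u, hu⟩ := h.n1 _ ((mem_support_sc hr _).2 hy) (by
      rw [dist_zero_right, Scale_norm hr, div_lt_iff₀ hr, ← dist_eq_norm]; linarith)
    exact ⟨r • u, key _ _ hu⟩
  · obtain ⟨z, hz, hz'⟩ := h.n2 (r⁻¹ • u) (by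
      rw [Scale_norm hr, div_lt_iff₀ hr]; linarith)
    refine ⟨_, (mem_support_sc hr _).1 hz, ?_⟩
    have := key _ _ hz'
    rwa [smul_smul, mul_inv_cancel₀ hr.ne', one_smul] at this
  · have := h.m1 _ (hsub Z hZ)
    simp only [Scale_thick hr] at this
    rw [Scale_real hr, image_preimage_eq _ hsurj, Scale_vol hr, one_pow, mul_one,
      inv_mul_le_iff₀ hn] at this
    refine this.trans (le_of_eq ?_)
    field_simp
  · have := h.m2 _ (hsub Z hZ)
    have e : thickening (η * 1) ((fun z => x + r • z) ⁻¹' Z) =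
        (fun z => x + r • z) ⁻¹' thickening (η * r) Z := by
      ext y; exact Scale_thick hr η Z y
    simp only [mem_preimage] at this
    rw [e, Scale_real hr, image_preimage_eq _ hsurj, Scale_vol hr, one_pow, mul_one] at this
    have h2 := mul_le_mul_of_nonneg_left this hn.le
    refine le_trans (le_of_eq ?_) (h2.trans (le_of_eq ?_))
    · field_simp
    · field_simp

end Crest.Agent.R085
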