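import Crest.Agent.R085.VagB0

/-! Row 85. Vague limits: products, equicontinuous families, reflectionless limits. -/

set_option autoImplicit false

open MeasureTheory Set Filter Topology Metric
open scoped ENNReal NNReal

noncomputable section

namespace Crest.Agent.R085

variable {n d : ℕ} {C : ℝ} {μs : ℕ → Measure (X d)} {μ : Measure (X d)}

theorem VagB_lip {φ : X d → ℝ} {Λ : ℝ≥0} (h : LipschitzWith Λ φ) (a : ℝ) :
    LipschitzWith (‖a‖₊ * Λ) fun x => a * φ x :=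
  (lipschitzWith_smul a).comp h

theorem VagB_good {R δ : ℝ} (hg : Good n μ 0 1 R δ) (ℓ : X d →L[ℝ] ℝ) {φ : X d → ℝ} {Λ : ℝ≥0}
    (hΛ : 0 < Λ) (hφ : LipschitzWith Λ φ) (ho : Off φ 0 R) (h0 : ∫ y, φ y ∂μ = 0) :
    ∀ᶠ p : ℝ × ℝ in FF, |EE n μ p.1 p.2 ℓ φ| ≤ δ * ((‖ℓ‖ + 1) * Λ) := by
  have h1 : 0 < ‖ℓ‖ + 1 := by positivity
  have h2 : (0 : ℝ) < Λ := hΛ
  filter_upwards [hg ((‖ℓ‖ + 1)⁻¹ • ℓ) (by
      rw [norm_smul, Real.norm_of_nonneg (by positivity), inv_mul_le_iff₀ h1]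
      linarith) (fun x => (Λ : ℝ)⁻¹ * φ x)
    ((VagB_lip hφ _).weaken (by simp [hΛ.ne'])) (fun y hy => by
      simp [ho y (by simpa using hy)]) (by rw [integral_const_mul, h0, mul_zero])] with p hp
  change |EE n μ p.1 p.2 (fun x => (‖ℓ‖ + 1)⁻¹ * ℓ x) _| ≤ _ at hp
  rw [EE_mul_left, EE_mul_right, ← mul_assoc, abs_mul, ← mul_inv, abs_of_pos (by positivity),
    one_pow, mul_one, inv_mul_le_iff₀ (by positivity)] at hp
  linarith

/-- Correct the mean of the test function with a multiple `a j → 0` of `bmp 0 1`, normalise the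
Lipschitz constant and `‖ℓ‖`, use `err_clm` (uniform in `j`), `VL.EE`, `FF_err`. -/
theorem VL.kk (h : VL μs μ) (hC : 1 ≤ C) (hu : Up n C μ) (hus : ∀ j, Up n C (μs j))
    (hl : ∀ D, ∀ᶠ j in (UU : Filter ℕ), Lo n C D (μs j)) (h0 : ∀ j, (0 : X d) ∈ (μs j).support)
    (hg : ∀ A δ : ℝ, 0 < δ → ∀ᶠ j in (UU : Filter ℕ), Good n (μs j) 0 1 A δ) :
    KK n C μ ∧ (0 : X d) ∈ μ.support := by
  have hC0 : 0 ≤ C := by linarith
  have hz : (0 : X d) ∈ μ.support :=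
    h.mem hC hus (hl 1) (Eventually.of_forall h0) tendsto_const_nhds
  refine ⟨⟨hu, h.lo hC hu hus hl, fun ℓ ψ hψ hψ0 => ?_⟩, hz⟩
  obtain ⟨c, hc, H⟩ := err_clm n hC
  obtain ⟨⟨Λ, hΛ⟩, hs⟩ := hψ
  obtain ⟨R, hR, ho⟩ := exists_off hs 0
  have hR0 : 0 < R := by linarith
  have hb := bmp_test (0 : X d) one_pos
  have hbo : Off (bmp (0 : X d) 1) 0 R := (bmp_off 0 one_pos).mono (by simpa using hR)
  have hb0 : 0 < ∫ y, bmp 0 1 y ∂μ :=
    hu.integral_pos hb.continuous hb.2 (bmp_nonneg _ _) hz (by simp [bmp])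
  have t1 := h _ hb.continuous hb.2
  have t2 := (h _ hΛ.continuous hs).div t1 hb0.ne'
  rw [hψ0, zero_div] at t2
  set a : ℕ → ℝ := (fun j => ∫ y, ψ y ∂μs j) / fun j => ∫ y, bmp 0 1 y ∂μs j with ha
  have key : ∀ t s : ℝ, 0 < t → t ≤ R → 8 * R ≤ s →
      |R085.EE n μ t s ℓ ψ| ≤ c * ‖ℓ‖ * (Λ + 2 : ℝ≥0) * R ^ n * (t + R * √(R / s)) := by
    intro t s ht htR hs8
    have hs0 : 0 < s := by linarith
    have t3 := ((h.EE hC0 hu hus ℓ.continuous hΛ.continuous hs ht hs0).sub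
      (t2.mul (h.EE hC0 hu hus ℓ.continuous hb.continuous hb.2 ht hs0))).abs
    rw [zero_mul, sub_zero] at t3
    have hK : 0 < (‖ℓ‖ + 1) * (Λ + 2 : ℝ≥0) := by positivity
    refine le_of_forall_pos_le_add fun ε hε => le_of_tendsto t3 ?_
    filter_upwards [hg R _ (div_pos hε hK), t1.eventually (lt_mem_nhds hb0),
      t2.abs.eventually (ge_mem_nhds (by simp : |(0 : ℝ)| < 1))] with j g1 g2 g3
    have i1 := (hus j).integrable hΛ.continuous hs
    have i2 := ((hus j).integrable hb.continuous hb.2).const_mul (a j)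
    have o1 : Off (fun x => a j * bmp (0 : X d) 1 x) 0 R := fun y hy => by simp [hbo y hy]
    have l1 : LipschitzWith (Λ + 2) fun x => ψ x - a j * bmp 0 1 x := by
      refine (hΛ.sub (VagB_lip (bmp_lip 0 one_pos) (a j))).weaken (add_le_add_right ?_ _)
      rw [← NNReal.coe_le_coe]
      simpa using g3
    have o2 : Off (fun x => ψ x - a j * bmp (0 : X d) 1 x) 0 R := fun y hy => by
      simp [hbo y hy, ho y hy]
    have m1 : ∫ x, (ψ x - a j * bmp 0 1 x) ∂μs j = 0 := by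
      rw [integral_sub i1 i2, integral_const_mul, ha, Pi.div_apply, div_mul_cancel₀ _ g2.ne',
        sub_self]
    obtain ⟨p, p1, p2, p3, p4⟩ := ((VagB_good g1 ℓ (by positivity) l1 o2 m1).and (FF_ev ht s)).exists
    have p5 := H d (μs j) ℓ _ 0 R p.1 t s p.2 _ (hus j) l1 o2 m1 hR0 p2 p3 htR hs8 p4
    rw [div_mul_cancel₀ _ hK.ne'] at p1
    rw [← EE_mul_right, ← EE_sub_right (hus j) ht hs0 ℓ.continuous i1 i2 ho o1]
    have p6 := abs_sub_abs_le_abs_sub (R085.EE n (μs j) t s ℓ fun x => ψ x - a j * bmp 0 1 x)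
      (R085.EE n (μs j) p.1 p.2 ℓ fun x => ψ x - a j * bmp 0 1 x)
    rw [abs_sub_comm] at p5
    linarith
  refine squeeze_zero_norm' ?_ (FF_err one_pos (c * ‖ℓ‖ * (Λ + 2 : ℝ≥0) * R ^ n)
    (c * ‖ℓ‖ * (Λ + 2 : ℝ≥0) * R ^ n * (R * √R)))
  filter_upwards [FF_ev hR0 (8 * R)] with p hp
  refine (key _ _ hp.1 hp.2.1 hp.2.2).trans (le_of_eq ?_)
  rw [Real.sqrt_div hR0.le, Real.rpow_one]
  ring

/-- The form used in compactness arguments. -/
theorem exists_kk_lim (hC : 1 ≤ C) (hus : ∀ j, Up n C (μs j))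
    (hl : ∀ j : ℕ, Lo n C (j + 1) (μs j)) (h0 : ∀ j, (0 : X d) ∈ (μs j).support)
    (hg : ∀ j : ℕ, Good n (μs j) 0 1 (j + 1) (1 / (j + 1))) :
    ∃ μ, VL μs μ ∧ KK n C μ ∧ (0 : X d) ∈ μ.support ∧
      ∀ᶠ j in (UU : Filter ℕ), Lo n C 1 (μs j) := by
  obtain ⟨μ, hu, h⟩ := exists_VL (by linarith) hus
  have h1 : ∀ D : ℝ, ∀ᶠ j : ℕ in (UU : Filter ℕ), D ≤ j + 1 := fun D =>
    ((tendsto_natCast_atTop_atTop.eventually_ge_atTop D).mono fun j hj => by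
      linarith).filter_mono UU_le
  have h2 : ∀ D, ∀ᶠ j in (UU : Filter ℕ), Lo n C D (μs j) := fun D =>
    (h1 D).mono fun j hj => (hl j).mono (by linarith) le_rfl hj
  have h3 := h.kk hC hu hus h2 h0 fun A δ hδ => by
    filter_upwards [h1 A, h1 (1 / δ)] with j a1 a2
    refine (hg j).mono (by simpa using a1) ?_
    rw [one_pow, mul_one, mul_one]
    exact (one_div_le (by positivity) hδ).2 a2
  exact ⟨μ, h, h3.1, h3.2, h2 1⟩

end Crest.Agent.R085
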