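import Crest.Agent.R085.Plane
import Crest.Agent.R085.VagB
import Crest.Agent.R085.Scale

/-! Row 85. Good and flat implies nice (compactness). -/

set_option autoImplicit false

open MeasureTheory Set Filter Topology Metric
open scoped ENNReal NNReal

noncomputable section

namespace Crest.Agent.R085

variable {n d : ℕ} {C C₂ : ℝ} {μs : ℕ → Measure (X d)}

theorem PPb_lip {η : ℝ} (hη : 0 < η) (Z : Set (X d)) :
    LipschitzWith η.toNNReal⁻¹ fun y => (thickenedIndicator hη Z y : ℝ) :=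
  LipschitzWith.of_dist_le_mul fun x y => (lipschitzWith_thickenedIndicator hη Z).dist_le_mul x y

theorem PPb_thick {η : ℝ} {Z : Set (X d)} (hZ : Z ⊆ ball 0 20) :
    thickening η Z ⊆ ball 0 (20 + η) := by
  intro y hy
  obtain ⟨z, hz, h⟩ := mem_thickening_iff.1 hy
  have h1 := hZ hz
  rw [mem_ball] at h1 ⊢
  linarith [dist_triangle y z 0]

theorem PPb_off {η : ℝ} (hη : 0 < η) {Z : Set (X d)} (hZ : Z ⊆ ball 0 20) :
    Off (fun y => (thickenedIndicator hη Z y : ℝ)) 0 (20 + η) := fun y hy => by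
  have h : y ∉ thickening η Z := fun h => (mem_ball.1 (PPb_thick hZ h)).not_ge hy
  simp only [thickenedIndicator_zero hη Z h, NNReal.coe_zero]

theorem PPb_int {ν : Measure (X d)} (hu : Up n C ν) {η : ℝ} (hη : 0 < η) {Z : Set (X d)}
    (hZ : Z ⊆ ball 0 20) : ν.real Z ≤ ∫ y, (thickenedIndicator hη Z y : ℝ) ∂ν ∧
      ∫ y, (thickenedIndicator hη Z y : ℝ) ∂ν ≤ ν.real (thickening η Z) := by
  have hi := hu.integrable (PPb_lip hη Z).continuous (PPb_off hη hZ).hasCompactSupport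
  have hb : Bornology.IsBounded Z := isBounded_ball.subset hZ
  constructor
  · refine (measureReal_mono subset_closure (hu.ne_top hb.closure)).trans ?_
    rw [← integral_indicator_one isClosed_closure.measurableSet]
    refine integral_mono_of_nonneg (Eventually.of_forall fun y =>
      indicator_nonneg (fun _ _ => zero_le_one) y) hi (Eventually.of_forall fun y => ?_)
    by_cases hy : y ∈ closure Z
    · simp [indicator_of_mem hy, thickenedIndicator_one_of_mem_closure hη Z hy]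
    · simp [indicator_of_notMem hy]
  · rw [← integral_indicator_one isOpen_thickening.measurableSet]
    refine integral_mono hi ((integrable_indicator_iff isOpen_thickening.measurableSet).2
      (integrableOn_const (hu.ne_top hb.thickening))) fun y => ?_
    by_cases hy : y ∈ thickening η Z
    · rw [indicator_of_mem hy]
      exact_mod_cast thickenedIndicator_le_one hη Z y
    · simp [indicator_of_notMem hy, thickenedIndicator_zero hη Z hy]

theorem PPb_unif {μ : Measure (X d)} (h : VL μs μ) (hC : 0 ≤ C) (hu : Up n C μ)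
    (hus : ∀ j, Up n C (μs j)) {η : ℝ} (hη : 0 < η) :
    ∀ᶠ j in (UU : Filter ℕ), ∀ Z ⊆ ball (0 : X d) 20,
      |∫ y, (thickenedIndicator hη Z y : ℝ) ∂μs j - ∫ y, (thickenedIndicator hη Z y : ℝ) ∂μ| ≤ η := by
  by_contra hc
  rw [← Ultrafilter.eventually_not] at hc
  push Not at hc
  obtain ⟨Z, hZ⟩ := hc.choice
  have h1 := h.equi hC hu hus
    (ψs := fun j y => (thickenedIndicator hη (Z j ∩ ball 0 20) y : ℝ)) (B := 1)
    (fun j => PPb_lip hη _) (fun j => PPb_off hη inter_subset_right) fun j y => by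
      rw [NNReal.abs_eq]
      exact_mod_cast thickenedIndicator_le_one hη _ y
  obtain ⟨j, ⟨h2, h3⟩, h4⟩ := (hZ.and (Metric.tendsto_nhds.1 h1 η hη)).exists
  rw [inter_eq_left.2 h2, dist_zero_right, Real.norm_eq_abs] at h4
  exact h4.not_gt h3

/-- `n1`: `VL.mem`; `n2`: `VL.near` at the limit of the bad points; `m1`, `m2`: apply `VL.equi` to
`ψ j y = max 0 (1 - infDist y (Z j) / η)` for the bad sets `Z j` (nonempty). -/
theorem VL.nice (hC : 1 ≤ C) {ι : X n →ₗᵢ[ℝ] X d} {θ : ℝ≥0} (h1 : 1 / C₂ ≤ (θ : ℝ))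
    (h2 : (θ : ℝ) ≤ C₂) (hθ : 0 < θ) (h : VL μs (θ • (volume : Measure (X n)).map ι))
    (hu : Up n C (θ • (volume : Measure (X n)).map ι)) (hus : ∀ j, Up n C (μs j))
    (hl : ∀ᶠ j in (UU : Filter ℕ), Lo n C 1 (μs j)) {η : ℝ} (hη : 0 < η) :
    ∀ᶠ j in (UU : Filter ℕ), Nice C₂ (μs j) 0 1 η ι θ := by
  have hce : IsClosedEmbedding ι := ι.isometry.isClosedEmbedding
  have happ : ∀ S : Set (X d), (θ • (volume : Measure (X n)).map ι) S = θ * volume (ι ⁻¹' S) :=
    fun S => by rw [Measure.coe_nnreal_smul_apply, hce.measurableEmbedding.map_apply]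
  have hreal : ∀ S : Set (X d),
      (θ • (volume : Measure (X n)).map ι).real S = θ * volume.real (ι ⁻¹' S) := fun S => by
    simp only [Measure.real, happ, ENNReal.toReal_mul, ENNReal.coe_toReal]
  have hs1 : ∀ y ∈ (θ • (volume : Measure (X n)).map ι).support, ∃ u, ι u = y :=
    Measure.support_subset_of_isClosed (t := range ι) hce.isClosed_range (by
      rw [mem_ae_iff, happ, preimage_compl, preimage_range, compl_univ, measure_empty, mul_zero])
  have hs2 : ∀ u, ι u ∈ (θ • (volume : Measure (X n)).map ι).support := fun u => by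
    rw [Measure.mem_support_iff_forall]
    intro U hU
    rw [happ]
    exact ENNReal.mul_pos (ENNReal.coe_ne_zero.2 hθ.ne')
      (Measure.measure_pos_of_mem_nhds _ (ι.continuous.continuousAt hU)).ne'
  have n1 : ∀ᶠ j in (UU : Filter ℕ), ∀ y ∈ (μs j).support, dist y 0 < 20 * 1 →
      ∃ u : X n, ‖y - 0 - ι u‖ ≤ η * 1 := by
    by_contra hc
    rw [← Ultrafilter.eventually_not] at hc
    push Not at hc
    obtain ⟨ys, hys⟩ := hc.choice
    obtain ⟨y, -, hy⟩ := exists_lim (ys := ys) (R := 20 * 1)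
      (hys.mono fun j hj => by rw [← dist_zero_right]; exact hj.2.1.le)
    obtain ⟨u, rfl⟩ := hs1 y (h.mem hC hus hl (hys.mono fun j hj => hj.1) hy)
    obtain ⟨j, a1, a2⟩ := (hys.and (Metric.tendsto_nhds.1 hy η hη)).exists
    have a3 := a1.2.2 u
    rw [sub_zero, mul_one, ← dist_eq_norm] at a3
    exact a3.not_gt a2
  have n2 : ∀ᶠ j in (UU : Filter ℕ), ∀ u : X n, ‖u‖ < 20 * 1 →
      ∃ y ∈ (μs j).support, ‖y - 0 - ι u‖ ≤ η * 1 := by
    by_contra hc
    rw [← Ultrafilter.eventually_not] at hc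
    push Not at hc
    obtain ⟨us, hus'⟩ := hc.choice
    obtain ⟨u, -, hu'⟩ := exists_lim (ys := us) (R := 20 * 1) (hus'.mono fun j hj => hj.1.le)
    obtain ⟨j, ⟨a1, a2⟩, y, hy, a3⟩ := ((hus'.and (Metric.tendsto_nhds.1 hu' (η / 2)
      (half_pos hη))).and (h.near hu (hs2 u) (half_pos hη))).exists
    have a4 := a1.2 y hy
    rw [sub_zero, mul_one, ← dist_eq_norm] at a4
    have a5 := dist_triangle_right y (ι (us j)) (ι u)
    rw [ι.dist_map] at a5
    linarith
  filter_upwards [n1, n2, PPb_unif h (zero_le_one.trans hC) hu hus hη] with j a1 a2 a3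
  refine ⟨h1, h2, a1, a2, fun Z hZ => ?_, fun Z hZ => ?_⟩
  · rw [mul_one] at hZ
    have b1 := (PPb_int (hus j) hη hZ).1
    have b2 := (PPb_int hu hη hZ).2
    have b3 := (abs_le.1 (a3 Z hZ)).2
    rw [hreal] at b2
    simp only [zero_add, mul_one, one_pow]
    exact b1.trans ((sub_le_iff_le_add'.1 b3).trans (add_le_add b2 le_rfl))
  · rw [mul_one] at hZ
    have b1 := (PPb_int (hus j) hη hZ).2
    have b2 := (PPb_int hu hη hZ).1
    have b3 := (abs_le.1 (a3 Z hZ)).1
    rw [hreal] at b2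
    simp only [zero_add, mul_one, one_pow]
    exact b2.trans (by linarith)

theorem nice_of (n d : ℕ) (hn : 1 ≤ n) {C : ℝ} (hC : 1 ≤ C) : ∃ C₂ : ℝ, 1 ≤ C₂ ∧
    ∀ η : ℝ, 0 < η → ∃ ε A δ : ℝ, 0 < ε ∧ 1 ≤ A ∧ 0 < δ ∧
      ∀ (μ : Measure (X d)) (D : ℝ) (x : X d) (r : ℝ), Up n C μ → Lo n C D μ → x ∈ μ.support →
        0 < r → A * r ≤ D → Good n μ x r A δ → Flat n μ x r ε →
        ∃ (ι : X n →ₗᵢ[ℝ] X d) (θ : ℝ), Nice C₂ μ x r η ι θ := by
  obtain ⟨C₂, hC₂, hp⟩ := plane n hn hC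
  refine ⟨C₂, hC₂, fun η hη => ?_⟩
  by_contra hc
  push Not at hc
  choose νs D x r hu hl hx hr hD hg hf hnn using fun j : ℕ =>
    hc (1 / (j + 1)) (j + 1) (1 / (j + 1)) (by positivity)
      (by linarith [(Nat.cast_nonneg j : (0 : ℝ) ≤ j)]) (by positivity)
  choose ιs hf using hf
  have hus : ∀ j, Up n C (sc n (νs j) (x j) (r j)) := fun j => (hu j).sc (hr j)
  obtain ⟨μ, hv, hk, h0, hlo⟩ := exists_kk_lim hC hus (fun j => (hl j).sc (hr j) (hD j))
    (fun j => (mem_support_sc (hr j) 0).2 (by simpa using hx j)) fun j => (hg j).sc (hr j)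
  obtain ⟨ι, hι⟩ := iso_lim ιs
  have hfl : ∀ ε : ℝ, 0 < ε → Fl μ 0 1 ε ι := fun ε hε => by
    refine hv.fl_lim hk.up one_pos (fun ζ hζ => (hι ζ hζ).mono fun _ h => h.1) ?_
    filter_upwards [UU_le ((tendsto_one_div_add_atTop_nhds_zero_nat (𝕜 := ℝ)).eventually
      (eventually_le_nhds hε))] with j hj
    refine Fl.mono ((fl_sc (hr j) one_pos).2 ?_) one_pos hj
    simpa using hf j
  obtain ⟨θ, h1, h2, rfl, -⟩ := hp d μ ι hk h0 fun y hy => Fl.range hfl hy
  have hθ : 0 < θ := by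
    have : (0 : ℝ) < θ := lt_of_lt_of_le (by positivity) h1
    exact_mod_cast this
  obtain ⟨j, hj⟩ := (hv.nice hC h1 h2 hθ hk.up hus hlo hη).exists
  exact hnn j ι θ (Nice.of_sc (hr j) hj)

end Crest.Agent.R085
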