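import Crest.Agent.R085.CarB
import Crest.Agent.R085.PPa
import Crest.Agent.R085.PPb

/-! Row 85. The cubes which are not nice form a Carleson family. -/

set_option autoImplicit false

open MeasureTheory Set Filter Topology Metric
open scoped ENNReal NNReal

noncomputable section

namespace Crest.Agent.R085

variable {n d : ℕ}

theorem CarD0_sum {a b : ℕ → ℝ} {M κ : ℝ} {m N : ℕ} (ha : ∀ j, 0 ≤ a j) (hb : ∀ j, 0 ≤ b j)
    (hM : ∀ j, a j ≤ M) (hκ : κ ≤ 1)
    (h : ∀ j, j + m ≤ N → a (m + j) ≤ (1 - κ) * a j + ∑ l ∈ Finset.range m, b (l + j)) :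
    κ * ∑ j ∈ Finset.range (N + 1), a j ≤ m * (M + ∑ j ∈ Finset.range (N + 1), b j) := by
  have h1 : ∑ j ∈ Finset.range (N + 1), a j ≤ ∑ j ∈ Finset.range (m + (N + 1 - m)), a j :=
    Finset.sum_le_sum_of_subset_of_nonneg (Finset.range_mono (by omega)) fun j _ _ => ha j
  have h2 : ∑ j ∈ Finset.range m, a j ≤ m * M := by
    simpa using Finset.sum_le_card_nsmul (Finset.range m) a M fun j _ => hM j
  have h3 := Finset.sum_le_sum (s := Finset.range (N + 1 - m)) fun j hj =>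
    h j (by rw [Finset.mem_range] at hj; omega)
  have h4 : ∑ j ∈ Finset.range (N + 1 - m), a j ≤ ∑ j ∈ Finset.range (N + 1), a j :=
    Finset.sum_le_sum_of_subset_of_nonneg (Finset.range_mono (by omega)) fun j _ _ => ha j
  have h5 : ∑ l ∈ Finset.range m, ∑ j ∈ Finset.range (N + 1 - m), b (l + j) ≤
      m * ∑ j ∈ Finset.range (N + 1), b j := by
    simpa using Finset.sum_le_card_nsmul (Finset.range m) _ (∑ j ∈ Finset.range (N + 1), b j)
      fun l hl => show ∑ j ∈ Finset.range (N + 1 - m), b (l + j) ≤ _ by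
        rw [← add_tsub_cancel_left l (N + 1 - m), ← Finset.sum_Ico_eq_sum_range]
        refine Finset.sum_le_sum_of_subset_of_nonneg (fun i hi => ?_) fun j _ _ => hb j
        simp only [Finset.mem_range, Finset.mem_Ico] at *
        omega
  rw [Finset.sum_range_add _ m] at h1
  rw [Finset.sum_add_distrib, ← Finset.mul_sum, Finset.sum_comm] at h3
  nlinarith [mul_le_mul_of_nonneg_left h4 (sub_nonneg.2 hκ)]

/-- Abstract form.  `fl` (flat) persists along good cubes, and every good cube contains a flat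
cube of comparable size.  With `nn j`, `bb j` the measures of the points of `cub 0 q` in a non-flat,
resp. non-good cube of generation `j`:
`nn (j + m) ≤ (1 - κ) nn j + ∑_{j ≤ l < j + m} bb l` for `j + m ≤ N`; sum over `j`. -/
theorem carl_abs {C : ℝ} {μ : Measure (X d)} (hu : Up n C μ) {r₀ : ℝ} (h : 0 < r₀) {N' N : ℕ}
    (cb : Cubes μ.support r₀ N') (hN : N ≤ N') (q : X d) (gd fl : ℕ → X d → Prop) {m : ℕ}
    (hm : 1 ≤ m) {κ : ℝ} (hκ : 0 < κ) (hκ1 : κ ≤ 1)
    (h1 : ∀ j < N, ∀ x ∈ μ.support, gd j (cb.a j x) → fl j (cb.a j x) →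
      fl (j + 1) (cb.a (j + 1) x))
    (h2 : ∀ j, j + m ≤ N → ∀ p, cb.Ctr j p → gd j p → ∃ i p', j ≤ i ∧ i ≤ j + m ∧ cb.Ctr i p' ∧
      cb.a j p' = p ∧ fl i p' ∧ κ * μ.real (cb.cub j p) ≤ μ.real (cb.cub i p')) :
    κ * ∑ j ∈ Finset.range (N + 1), μ.real {x | x ∈ cb.cub 0 q ∧ ¬fl j (cb.a j x)} ≤
      m * (μ.real (cb.cub 0 q) +
        ∑ j ∈ Finset.range (N + 1), μ.real {x | x ∈ cb.cub 0 q ∧ ¬gd j (cb.a j x)}) := by
  classical
  have := hu.locFin
  have hE : MeasurableSet μ.support := μ.isClosed_support.measurableSet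
  have fin : ∀ j ≤ N', ∀ p, μ (cb.cub j p) ≠ ∞ := fun j hj p => hu.ne_top (cb.bounded_cub hj p)
  have fQ : ∀ P : X d → Prop, μ {x | x ∈ cb.cub 0 q ∧ P x} ≠ ∞ := fun P =>
    measure_ne_top_of_subset (fun _ hx => hx.1) (fin 0 N'.zero_le q)
  refine CarD0_sum (fun _ => measureReal_nonneg) (fun _ => measureReal_nonneg)
    (fun _ => measureReal_mono (fun _ hx => hx.1) (fin 0 N'.zero_le q)) hκ1 fun j hj => ?_
  have hj' : j ≤ N' := by omega
  choose! i p' i1 i2 i3 i4 i5 i6 using h2 j hj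
  set s := (cb.finite_sub h j.zero_le hj' q).toFinset.filter fun p => gd j p ∧ ¬fl j p
  have hs : ∀ p, p ∈ s ↔ p ∈ cb.sub 0 q j ∧ gd j p ∧ ¬fl j p := fun p => by simp [s]
  have e := cb.sum_sub h hE j.zero_le hj' q (μ := μ) .univ _ s hs
  simp only [inter_univ] at e
  have sub : {x | x ∈ cb.cub 0 q ∧ ¬fl (m + j) (cb.a (m + j) x)} ⊆
      (⋃ p ∈ s, cb.cub j p \ cb.cub (i p) (p' p)) ∪
        ⋃ l ∈ Finset.range m, {x | x ∈ cb.cub 0 q ∧ ¬gd (l + j) (cb.a (l + j) x)} := by
    rintro x ⟨hx, hf⟩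
    refine or_iff_not_imp_right.2 fun hg => ?_
    simp only [mem_iUnion, mem_ofPred_eq, not_exists, not_and, not_not, Finset.mem_range] at hg
    have per : ∀ l, j ≤ l → l ≤ m + j → ¬fl l (cb.a l x) := fun l a b =>
      Nat.decreasingInduction' (P := fun l => ¬fl l (cb.a l x)) (fun k k1 k2 ih hk => ih
        (h1 k (by omega) x hx.1 (by
          simpa [Nat.sub_add_cancel (a.trans k2)] using hg (k - j) (by omega) hx) hk)) b hf
    have c := cb.ctr_a h hj' hx.1
    have g : gd j (cb.a j x) := by simpa using hg 0 hm hx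
    refine mem_iUnion₂.2 ⟨_, (hs _).2 ⟨⟨c, (cb.a_a h j.zero_le hj' hx.1).trans hx.2⟩, g,
      per j le_rfl (by omega)⟩, ⟨hx.1, rfl⟩, fun hx' => ?_⟩
    exact per _ (i1 _ c g) (by have := i2 _ c g; omega) (hx'.2 ▸ i5 _ c g)
  refine (measureReal_mono sub (measure_union_ne_top
    (measure_biUnion_ne_top s.finite_toSet fun p _ =>
      measure_ne_top_of_subset sdiff_subset (fin j hj' p))
    (measure_biUnion_ne_top (Finset.range m).finite_toSet fun l _ => fQ _))).trans
    ((measureReal_union_le _ _).trans (add_le_add ?_ (measureReal_biUnion_finset_le _ _)))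
  calc _ ≤ ∑ p ∈ s, (1 - κ) * μ.real (cb.cub j p) := by
        refine (measureReal_biUnion_finset_le _ _).trans (Finset.sum_le_sum fun p hp => ?_)
        obtain ⟨⟨c, -⟩, g, -⟩ := (hs p).1 hp
        rw [measureReal_sdiff (cb.cub_sub h (i1 p c g) (by have := i2 p c g; omega) (i3 p c g)
          (i4 p c g)) (cb.measurableSet_cub hE _ _) (fin j hj' p)]
        linarith [i6 p c g]
    _ ≤ _ := by
        rw [← Finset.mul_sum, e]
        exact mul_le_mul_of_nonneg_left (measureReal_mono (fun x hx => ⟨hx.1, hx.2.2⟩) (fQ _))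
          (sub_nonneg.2 hκ1)

end Crest.Agent.R085
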