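import Crest.Agent.R085.Code0

/-! Row 85. The coding map. -/

set_option autoImplicit false

open MeasureTheory Set Filter Topology Metric
open scoped ENNReal NNReal

noncomputable section

namespace Crest.Agent.R085

variable {n d : ℕ} {C r₀ : ℝ} {N M : ℕ} {μ : Measure (X d)}

/-- From finite co-Lipschitz maps to a big piece of a Lipschitz image.  Extend the inverse of
`g N` (`LipschitzOnWith.extend_finite_dimension`), rescale so that the image of `F N` lies in
`closedBall 0 (r / 2)`, take the pointwise limit `G` along `UU`; the convergence is uniform on this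
ball, so `B N` is eventually contained in every neighbourhood of the compact set
`G '' closedBall 0 (r / 2)`; continuity of the measure from above. -/
theorem bpli (n d : ℕ) {lam : ℝ} (hlam : 0 < lam) : ∃ L : ℝ≥0, ∀ (μ : Measure (X d)) (x : X d)
    (r a : ℝ), IsFiniteMeasureOnCompacts μ → 0 < r →
    (∀ ζ : ℝ, 0 < ζ → ∃ (F : Finset (X d)) (g : X d → X n) (B : Set (X d)),
      (∀ y ∈ F, dist y x ≤ r / 2 ∧ ‖g y‖ ≤ r / 2) ∧
      (∀ y ∈ F, ∀ y' ∈ F, lam * ‖y - y'‖ ≤ ‖g y - g y'‖) ∧ B ⊆ closedBall x (r / 2) ∧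
      (∀ y ∈ B, ∃ y' ∈ F, dist y y' ≤ ζ) ∧ a ≤ μ.real B) →
    ∃ G : X n → X d, LipschitzOnWith L G (ball 0 r) ∧
      ENNReal.ofReal a ≤ μ (ball x r ∩ G '' ball 0 r) := by
  refine ⟨lipschitzExtensionConstant (X d) * (lam⁻¹).toNNReal, fun μ x r a hμ hr H => ?_⟩
  set L : ℝ≥0 := lipschitzExtensionConstant (X d) * (lam⁻¹).toNNReal with hL
  rcases le_or_gt a 0 with ha | ha
  · exact ⟨fun _ => x, ((LipschitzWith.const x).weaken (zero_le)).lipschitzOnWith, by
      rw [ENNReal.ofReal_of_nonpos ha]; exact zero_le⟩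
  have key : ∀ N : ℕ, ∃ (G : X n → X d) (B : Set (X d)), LipschitzWith L G ∧
      (∃ u, ‖u‖ ≤ r / 2 ∧ dist (G u) x ≤ r / 2) ∧ B ⊆ closedBall x (r / 2) ∧
      (∀ y ∈ B, ∃ u, ‖u‖ ≤ r / 2 ∧ dist y (G u) ≤ 1 / ((N : ℝ) + 1)) ∧ a ≤ μ.real B := by
    intro N
    obtain ⟨F, g, B, h1, h2, h3, h4, h5⟩ := H (1 / ((N : ℝ) + 1)) (by positivity)
    have hinj : InjOn g F := fun y hy y' hy' e => by
      have := h2 y hy y' hy'
      rw [e, sub_self, norm_zero] at this
      have h0 : ‖y - y'‖ ≤ 0 := by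
        by_contra hc
        exact absurd this (not_le.2 (mul_pos hlam (not_le.1 hc)))
      exact sub_eq_zero.1 (norm_le_zero_iff.1 h0)
    have hlip : LipschitzOnWith (lam⁻¹).toNNReal (Function.invFunOn g F) (g '' F) := by
      refine LipschitzOnWith.of_dist_le' ?_
      rintro _ ⟨y, hy, rfl⟩ _ ⟨y', hy', rfl⟩
      rw [hinj.leftInvOn_invFunOn hy, hinj.leftInvOn_invFunOn hy', dist_eq_norm, dist_eq_norm,
        le_inv_mul_iff₀ hlam]
      exact h2 y hy y' hy'
    obtain ⟨G, hG, hE⟩ := hlip.extend_finite_dimension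
    have hGg : ∀ y ∈ F, G (g y) = y := fun y hy => by
      rw [← hE (mem_image_of_mem g hy), hinj.leftInvOn_invFunOn hy]
    have hB : B.Nonempty := by
      rw [nonempty_iff_ne_empty]
      rintro rfl
      rw [measureReal_empty] at h5
      linarith
    obtain ⟨y, hy⟩ := hB
    obtain ⟨y', hy', -⟩ := h4 y hy
    refine ⟨G, B, hG, ⟨g y', (h1 y' hy').2, by rw [hGg y' hy']; exact (h1 y' hy').1⟩, h3,
      fun z hz => ?_, h5⟩
    obtain ⟨z', hz', hd⟩ := h4 z hz
    exact ⟨g z', (h1 z' hz').2, by rwa [hGg z' hz']⟩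
  choose Gs B h1 h2 h3 h4 h5 using key
  have hlim : ∀ u, ∃ z, Tendsto (fun N => Gs N u) UU (𝓝 z) := fun u => by
    obtain ⟨z, -, hz⟩ := (isCompact_closedBall x (L * (‖u‖ + r / 2) + r / 2)).ultrafilter_le_nhds
      (UU.map fun N => Gs N u) (by
        rw [Ultrafilter.coe_map, le_principal_iff, mem_map]
        refine Eventually.of_forall fun N => ?_
        obtain ⟨v, hv, hv'⟩ := h2 N
        have a1 := (h1 N).dist_le_mul u v
        have a2 : dist u v ≤ ‖u‖ + r / 2 := by
          rw [dist_eq_norm]; linarith [norm_sub_le u v]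
        have a3 := mul_le_mul_of_nonneg_left a2 L.coe_nonneg
        have a4 := dist_triangle (Gs N u) (Gs N v) x
        change dist (Gs N u) x ≤ _
        linarith)
    exact ⟨z, hz⟩
  choose G hG using hlim
  have hGL : LipschitzWith L G := LipschitzWith.of_dist_le_mul fun u v =>
    le_of_tendsto' ((hG u).dist (hG v)) fun N => (h1 N).dist_le_mul u v
  refine ⟨G, hGL.lipschitzOnWith, ?_⟩
  have hK : IsCompact (G '' closedBall 0 (r / 2)) := (isCompact_closedBall _ _).image hGL.continuous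
  have hth : ∀ δ : ℝ, 0 < δ → ENNReal.ofReal a ≤
      μ.restrict (closedBall x (r / 2)) (cthickening δ (G '' closedBall 0 (r / 2))) := by
    intro δ hδ
    have hε : 0 < δ / ((L : ℝ) + 2) := by positivity
    obtain ⟨t, ht1, ht2, ht3⟩ :=
      finite_cover_balls_of_compact (isCompact_closedBall (0 : X n) (r / 2)) hε
    have e1 : ∀ᶠ N in (UU : Filter ℕ), ∀ u ∈ t, dist (Gs N u) (G u) < δ / ((L : ℝ) + 2) :=
      (eventually_all_finite ht2).2 fun u _ => Metric.tendsto_nhds.1 (hG u) _ hε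
    have e2 : ∀ᶠ N : ℕ in (UU : Filter ℕ), 1 / ((N : ℝ) + 1) < δ / ((L : ℝ) + 2) :=
      (tendsto_one_div_add_atTop_nhds_zero_nat.eventually (gt_mem_nhds hε)).filter_mono
        Nat.hyperfilter_le_atTop
    obtain ⟨N, hN1, hN2⟩ := (e1.and e2).exists
    rw [Measure.restrict_apply isClosed_cthickening.measurableSet]
    refine (ENNReal.ofReal_le_of_le_toReal (h5 N)).trans (measure_mono fun y hy => ⟨?_, h3 N hy⟩)
    obtain ⟨u, hu, hd⟩ := h4 N y hy
    obtain ⟨v, hv, huv⟩ := mem_iUnion₂.1 (ht3 (mem_closedBall_zero_iff.2 hu))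
    refine mem_cthickening_of_dist_le y (G v) δ _ (mem_image_of_mem G (ht1 hv)) ?_
    have a1 := (h1 N).dist_le_mul u v
    have a2 := mul_le_mul_of_nonneg_left (mem_ball.1 huv).le L.coe_nonneg
    have a3 := dist_triangle4 y (Gs N u) (Gs N v) (G v)
    have a4 := hN1 v hv
    have a5 : δ = ((L : ℝ) + 2) * (δ / ((L : ℝ) + 2)) := by field_simp
    linarith
  have t := tendsto_measure_cthickening_of_isCompact (μ := μ.restrict (closedBall x (r / 2))) hK
  refine (ge_of_tendsto (t.mono_left (nhdsWithin_le_nhds (s := Ioi 0)))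
    (eventually_nhdsWithin_of_forall hth)).trans ?_
  rw [Measure.restrict_apply hK.measurableSet, inter_comm]
  exact measure_mono (inter_subset_inter (closedBall_subset_ball (half_lt_self hr))
    (image_mono (closedBall_subset_ball (half_lt_self hr))))

end Crest.Agent.R085
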