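import Crest.Agent.R085.Cube

/-! Row 85. The coding map. -/

set_option autoImplicit false

open MeasureTheory Set Filter Topology Metric
open scoped ENNReal NNReal

noncomputable section

namespace Crest.Agent.R085

variable {n d : ℕ} {C r₀ : ℝ} {N M : ℕ} {μ : Measure (X d)}

/-- Every cube splits into smaller cubes which can be placed in `ℝⁿ`. -/
def Splits (n : ℕ) (μ : Measure (X d)) {r₀ : ℝ} {N : ℕ} (c : Cubes μ.support r₀ N) (M : ℕ)
    (κ : ℝ) (W : ℕ → X d → ℝ) : Prop :=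
  ∀ j < M, ∀ q, c.Ctr j q → ∃ (S : Finset (ℕ × X d)) (z : ℕ × X d → X n), c.Part M j q S ∧
    (∀ P ∈ S, ‖z P‖ ≤ rr r₀ j / 2) ∧
    (∀ P ∈ S, ∀ P' ∈ S, P ≠ P' → κ * (‖P.2 - P'.2‖ + rr r₀ P.1 + rr r₀ P'.1) ≤ ‖z P - z P'‖) ∧
    μ.real (c.cub j q) + ∑ P ∈ S with P.1 < M, W P.1 P.2 ≤ W j q

/-- Induction on `k` (for all cubes).  `k = 0`: `F = ∅`.  `j = M`: `F = {q}`, `h = 0`.  Otherwise `F`
is the union of the sets `F P` (`{P.2}` for `P.1 = M`) and `h = z P + (κ / 2) • h P` on `cub P`. -/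
theorem code (hu : Up n C μ) (h : 0 < r₀) (c : Cubes μ.support r₀ N) (hM : M ≤ N) {κ : ℝ}
    (hκ : 0 < κ) (hκ1 : κ ≤ 1) {W : ℕ → X d → ℝ} (hW : ∀ j ≤ M, ∀ q, c.Ctr j q → 0 ≤ W j q)
    (hs : Splits n μ c M κ W) (k : ℕ) : ∀ j ≤ M, ∀ q, c.Ctr j q →
      ∃ (F : Finset (X d)) (g : X d → X n), (∀ y ∈ F, y ∈ c.cub j q ∧ ‖g y‖ ≤ rr r₀ j) ∧
        (∀ y ∈ F, ∀ y' ∈ F, (κ / 4) ^ k * ‖y - y'‖ ≤ ‖g y - g y'‖) ∧
        k * μ.real (c.cub j q \ {x | c.a M x ∈ F}) ≤ W j q := by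
  classical
  have hrr : ∀ j, 0 < rr r₀ j := fun j => by unfold rr; positivity
  have hanti : ∀ j i, j ≤ i → rr r₀ i ≤ rr r₀ j := fun j i hji => by
    unfold rr
    exact mul_le_mul_of_nonneg_left (pow_le_pow_of_le_one (by norm_num) (by norm_num) hji) h.le
  -- the last generation
  have hlast : ∀ (k : ℕ) (q : X d), c.Ctr M q → ∃ (F : Finset (X d)) (g : X d → X n),
      (∀ y ∈ F, y ∈ c.cub M q ∧ ‖g y‖ ≤ rr r₀ M) ∧
        (∀ y ∈ F, ∀ y' ∈ F, (κ / 4) ^ k * ‖y - y'‖ ≤ ‖g y - g y'‖) ∧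
        μ.real (c.cub M q \ {x | c.a M x ∈ F}) = 0 := by
    intro k q hq
    refine ⟨{q}, fun _ => 0, ?_, ?_, ?_⟩
    · intro y hy
      rw [Finset.mem_singleton] at hy
      subst hy
      exact ⟨hq, by simpa using (hrr M).le⟩
    · intro y hy y' hy'
      rw [Finset.mem_singleton] at hy hy'
      subst hy; subst hy'
      simp
    · have : c.cub M q \ {x | c.a M x ∈ ({q} : Finset (X d))} = ∅ := by
        ext x
        simp only [Cubes.cub, Set.mem_sdiff, mem_ofPred_eq, Finset.mem_singleton, mem_empty_iff_false,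
          iff_false, not_and, not_not]
        exact fun hx => hx.2
      rw [this, measureReal_empty]
  induction k with
  | zero =>
    intro j hj q hq
    refine ⟨∅, fun _ => 0, by simp, by simp, ?_⟩
    simpa using hW j hj q hq
  | succ k ih =>
    intro j hj q hq
    rcases hj.eq_or_lt with rfl | hjM
    · obtain ⟨F, g, h1, h2, h3⟩ := hlast (k + 1) q hq
      refine ⟨F, g, h1, h2, ?_⟩
      rw [h3, mul_zero]
      exact hW _ le_rfl q hq
    obtain ⟨S, z, hP, hz, hsep, hWs⟩ := hs j hjM q hq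
    have hall : ∀ P : ℕ × X d, ∃ (F : Finset (X d)) (g : X d → X n), P ∈ S →
        (∀ y ∈ F, y ∈ c.cub P.1 P.2 ∧ ‖g y‖ ≤ rr r₀ P.1) ∧
        (∀ y ∈ F, ∀ y' ∈ F, (κ / 4) ^ k * ‖y - y'‖ ≤ ‖g y - g y'‖) ∧
        k * μ.real (c.cub P.1 P.2 \ {x | c.a M x ∈ F}) ≤ if P.1 < M then W P.1 P.2 else 0 := by
      intro P
      by_cases hPS : P ∈ S
      · rcases (hP.lev P hPS).2.eq_or_lt with hPM | hPM
        · have hc : c.Ctr M P.2 := hPM ▸ (hP.ctr P hPS).1
          obtain ⟨F, g, h1, h2, h3⟩ := hlast k P.2 hc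
          refine ⟨F, g, fun _ => ?_⟩
          rw [hPM, if_neg (lt_irrefl M), h3, mul_zero]
          exact ⟨h1, h2, le_rfl⟩
        · obtain ⟨F, g, h1, h2, h3⟩ := ih P.1 hPM.le P.2 (hP.ctr P hPS).1
          exact ⟨F, g, fun _ => ⟨h1, h2, by rw [if_pos hPM]; exact h3⟩⟩
      · exact ⟨∅, fun _ => 0, fun h => absurd h hPS⟩
    choose FP gP hFP using hall
    -- the cube of the partition containing a point
    obtain ⟨π, hπ⟩ : ∃ π : X d → ℕ × X d, ∀ P ∈ S, ∀ y ∈ c.cub P.1 P.2, π y = P := by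
      refine ⟨fun y => if hy : ∃ P ∈ S, c.a P.1 y = P.2 then hy.choose else (0, 0), ?_⟩
      intro P hPS y hy
      have hex : ∃ P ∈ S, c.a P.1 y = P.2 := ⟨P, hPS, hy.2⟩
      simp only [dif_pos hex]
      exact hP.disj y hy.1 _ hex.choose_spec.1 P hPS hex.choose_spec.2 hy.2
    have hsub : ∀ P ∈ S, c.cub P.1 P.2 ⊆ c.cub j q := fun P hPS =>
      c.cub_sub h (hP.lev P hPS).1.le ((hP.lev P hPS).2.trans hM) (hP.ctr P hPS).1
        (hP.ctr P hPS).2
    have hnear : ∀ P ∈ S, ∀ y ∈ c.cub P.1 P.2, ‖y - P.2‖ ≤ 2 * rr r₀ P.1 := fun P hPS y hy => by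
      have := c.near P.1 ((hP.lev P hPS).2.trans hM) y hy.1
      rw [hy.2, dist_eq_norm] at this
      exact this.le
    have hk4 : 0 ≤ (κ / 4) ^ k := by positivity
    have hk1 : (κ / 4) ^ k ≤ 1 := pow_le_one₀ (by positivity) (by linarith)
    have hns : ∀ v : X n, ‖(κ / 2) • v‖ = κ / 2 * ‖v‖ := fun v => by
      rw [norm_smul, Real.norm_of_nonneg (by positivity)]
    refine ⟨S.biUnion FP, fun y => z (π y) + (κ / 2) • gP (π y) y, ?_, ?_, ?_⟩
    · intro y hy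
      obtain ⟨P, hPS, hyP⟩ := Finset.mem_biUnion.1 hy
      obtain ⟨h1, h2⟩ := (hFP P hPS).1 y hyP
      refine ⟨hsub P hPS h1, ?_⟩
      simp only [hπ P hPS y h1]
      have h3 := norm_add_le (z P) ((κ / 2) • gP P y)
      rw [hns] at h3
      have h4 := hz P hPS
      have h5 := hanti j P.1 (hP.lev P hPS).1.le
      have h6 : κ / 2 * ‖gP P y‖ ≤ 1 / 2 * rr r₀ j :=
        mul_le_mul (by linarith) (h2.trans h5) (norm_nonneg _) (by norm_num)
      linarith
    · intro y hy y' hy'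
      obtain ⟨P, hPS, hyP⟩ := Finset.mem_biUnion.1 hy
      obtain ⟨P', hPS', hyP'⟩ := Finset.mem_biUnion.1 hy'
      obtain ⟨h1, h2⟩ := (hFP P hPS).1 y hyP
      obtain ⟨h1', h2'⟩ := (hFP P' hPS').1 y' hyP'
      simp only [hπ P hPS y h1, hπ P' hPS' y' h1']
      have hn := norm_nonneg (y - y')
      by_cases hPP : P = P'
      · subst hPP
        have h3 := (hFP P hPS).2.1 y hyP y' hyP'
        have h4 : z P + (κ / 2) • gP P y - (z P + (κ / 2) • gP P y') =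
            (κ / 2) • (gP P y - gP P y') := by
          rw [smul_sub]; abel
        rw [h4, hns, pow_succ]
        have h5 : 0 ≤ (κ / 4) ^ k * ‖y - y'‖ := by positivity
        calc (κ / 4) ^ k * (κ / 4) * ‖y - y'‖ = κ / 4 * ((κ / 4) ^ k * ‖y - y'‖) := by ring
          _ ≤ κ / 2 * ((κ / 4) ^ k * ‖y - y'‖) := mul_le_mul_of_nonneg_right (by linarith) h5
          _ ≤ _ := mul_le_mul_of_nonneg_left h3 (by positivity)
      · have h3 := hsep P hPS P' hPS' hPP
        have h4 : z P - z P' = (z P + (κ / 2) • gP P y - (z P' + (κ / 2) • gP P' y')) -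
            (κ / 2) • gP P y + (κ / 2) • gP P' y' := by abel
        have h5 : ‖z P - z P'‖ ≤ ‖z P + (κ / 2) • gP P y - (z P' + (κ / 2) • gP P' y')‖ +
            κ / 2 * ‖gP P y‖ + κ / 2 * ‖gP P' y'‖ := by
          rw [h4, ← hns, ← hns]
          exact (norm_add_le _ _).trans (add_le_add (norm_sub_le _ _) le_rfl)
        have h6 : ‖y - y'‖ ≤ ‖P.2 - P'.2‖ + 2 * rr r₀ P.1 + 2 * rr r₀ P'.1 := by
          have e : y - y' = (P.2 - P'.2) + (y - P.2) - (y' - P'.2) := by abel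
          have a1 := hnear P hPS y h1
          have a2 := hnear P' hPS' y' h1'
          have a3 := norm_sub_le ((P.2 - P'.2) + (y - P.2)) (y' - P'.2)
          have a4 := norm_add_le (P.2 - P'.2) (y - P.2)
          rw [← e] at a3
          linarith
        have h7 : κ / 2 * ‖gP P y‖ ≤ κ / 2 * rr r₀ P.1 :=
          mul_le_mul_of_nonneg_left h2 (by positivity)
        have h8 : κ / 2 * ‖gP P' y'‖ ≤ κ / 2 * rr r₀ P'.1 :=
          mul_le_mul_of_nonneg_left h2' (by positivity)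
        have h9 : (κ / 4) ^ (k + 1) * ‖y - y'‖ ≤ κ / 4 * ‖y - y'‖ := by
          rw [pow_succ]
          exact mul_le_mul_of_nonneg_right (mul_le_of_le_one_left (by positivity) hk1) hn
        have h10 : κ / 4 * ‖y - y'‖ ≤ κ / 4 * (‖P.2 - P'.2‖ + 2 * rr r₀ P.1 + 2 * rr r₀ P'.1) :=
          mul_le_mul_of_nonneg_left h6 (by positivity)
        have h11 : 0 ≤ κ * ‖P.2 - P'.2‖ := by positivity
        linarith
    · have hfin : μ (c.cub j q) ≠ ∞ := hu.ne_top (c.bounded_cub (hj.trans hM) q)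
      set A := c.cub j q \ {x | c.a M x ∈ S.biUnion FP} with hA
      have h1 : μ.real A ≤ μ.real (c.cub j q) := measureReal_mono sdiff_subset hfin
      have h2 : A ⊆ ⋃ P ∈ S, (c.cub P.1 P.2 \ {x | c.a M x ∈ FP P}) := by
        intro x hx
        obtain ⟨P, hPS, hxP⟩ := hP.cover x hx.1
        simp only [mem_iUnion]
        exact ⟨P, hPS, ⟨hx.1.1, hxP⟩, fun hF => hx.2 (Finset.mem_biUnion.2 ⟨P, hPS, hF⟩)⟩
      have h3 : μ (⋃ P ∈ S, (c.cub P.1 P.2 \ {x | c.a M x ∈ FP P})) ≠ ∞ := by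
        refine ne_top_of_le_ne_top hfin (measure_mono ?_)
        exact iUnion₂_subset fun P hPS => sdiff_subset.trans (hsub P hPS)
      have h4 : μ.real A ≤ ∑ P ∈ S, μ.real (c.cub P.1 P.2 \ {x | c.a M x ∈ FP P}) :=
        (measureReal_mono h2 h3).trans (measureReal_biUnion_finset_le _ _)
      have h5 : (k : ℝ) * μ.real A ≤ ∑ P ∈ S with P.1 < M, W P.1 P.2 := by
        rw [Finset.sum_filter]
        refine (mul_le_mul_of_nonneg_left h4 (Nat.cast_nonneg k)).trans ?_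
        rw [Finset.mul_sum]
        exact Finset.sum_le_sum fun P hPS => (hFP P hPS).2.2
      push_cast
      linarith

end Crest.Agent.R085
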