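import Crest.Agent.R085.Reg

/-! Row 85. Cubes: construction and elementary properties. -/

set_option autoImplicit false

open MeasureTheory Set Filter Topology Metric
open scoped ENNReal NNReal

noncomputable section

namespace Crest.Agent.R085

variable {n d : ℕ}

/-- One generation. -/
theorem Cube0_level (E : Set (X d)) {r : ℝ} (hr : 0 < r) : ∃ p : X d → X d, Measurable p ∧
    (∀ x ∈ E, p x ∈ E ∧ dist x (p x) < r) ∧
    ∀ x ∈ E, ∀ y, dist y (p x) < r / 2 → p y = p x := by
  classical
  rcases E.eq_empty_or_nonempty with rfl | ⟨x₀, hx₀⟩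
  · exact ⟨fun _ => 0, measurable_const, by simp, by simp⟩
  obtain ⟨T, hTE, hsep, hcov⟩ := exists_net E hr
  have hTc : T.Countable := countable_of_sep hr hsep
  have hTn : T.Nonempty := by
    obtain ⟨y, hy, -⟩ := hcov x₀ hx₀
    exact ⟨y, hy⟩
  obtain ⟨e, he⟩ := hTc.exists_eq_range hTn
  have heT : ∀ k, e k ∈ T := fun k => he ▸ mem_range_self k
  let Q : X d → ℕ → Prop := fun x k => dist x (e k) < r / 2 ∨
    ((∀ m, r / 2 ≤ dist x (e m)) ∧ dist x (e k) < r) ∨ ∀ m, r ≤ dist x (e m)
  have hQ : ∀ x, ∃ k, Q x k := by
    intro x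
    by_cases h1 : ∃ k, dist x (e k) < r / 2
    · obtain ⟨k, hk⟩ := h1
      exact ⟨k, Or.inl hk⟩
    push Not at h1
    by_cases h2 : ∃ k, dist x (e k) < r
    · obtain ⟨k, hk⟩ := h2
      exact ⟨k, Or.inr (Or.inl ⟨h1, hk⟩)⟩
    push Not at h2
    exact ⟨0, Or.inr (Or.inr h2)⟩
  have hd : ∀ m, Measurable fun x : X d => dist x (e m) := fun m =>
    (continuous_id.dist continuous_const).measurable
  have hQm : ∀ k, MeasurableSet {x | Q x k} := by
    intro k
    have h1 : ∀ (c : ℝ) (m : ℕ), MeasurableSet {x : X d | dist x (e m) < c} := fun c m =>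
      measurableSet_lt (hd m) measurable_const
    have h2 : ∀ c : ℝ, MeasurableSet {x : X d | ∀ m, c ≤ dist x (e m)} := fun c => by
      rw [Set.ofPred_forall]
      exact MeasurableSet.iInter fun m => measurableSet_le measurable_const (hd m)
    exact (h1 _ k).union (((h2 _).inter (h1 _ k)).union (h2 _))
  refine ⟨fun x => e (Nat.find (hQ x)), ?_, ?_, ?_⟩
  · exact (measurable_from_top (f := e)).comp (measurable_find hQ hQm)
  · intro x hx
    refine ⟨hTE (heT _), ?_⟩
    rcases Nat.find_spec (hQ x) with h | h | h
    · linarith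
    · exact h.2
    · obtain ⟨y, hy, hxy⟩ := hcov x hx
      rw [he] at hy
      obtain ⟨m, rfl⟩ := hy
      linarith [h m]
  · intro x _ y hy
    beta_reduce at hy ⊢
    rcases Nat.find_spec (hQ y) with h | h | h
    · by_contra hne
      have h1 := hsep _ (heT _) _ (heT _) hne
      have h2 := dist_triangle_left (e (Nat.find (hQ y))) (e (Nat.find (hQ x))) y
      linarith
    · linarith [h.1 (Nat.find (hQ x))]
    · linarith [h (Nat.find (hQ x))]

/-- The compositions `p (N - i) ∘ ⋯ ∘ p N`. -/
def Cube0_b (p : ℕ → X d → X d) (N : ℕ) : ℕ → X d → X d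
  | 0 => p N
  | i + 1 => p (N - (i + 1)) ∘ Cube0_b p N i

/-- Take nets `T j ⊆ E` (`exists_net` with radius `rr r₀ j`, countable) and maps `p j` with values
in `T j` (on `E`): the point of `T j` at distance `< rr r₀ j / 2` if there is one (it is unique),
otherwise the first point of an enumeration of `T j` at distance `< rr r₀ j` (any fixed value if
there is none); the fibres are measurable and the range is countable.
`a N = p N`, `a j = p j ∘ a (j + 1)` (define `b i = a (N - i)` by recursion on `i`). -/
theorem exists_cubes (E : Set (X d)) {r₀ : ℝ} (h : 0 < r₀) (N : ℕ) : Nonempty (Cubes E r₀ N) := by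
  choose p hpm hp1 hp2 using fun j => Cube0_level E (rr_pos h j)
  have hm : ∀ i, Measurable (Cube0_b p N i) := by
    intro i
    induction i with
    | zero => exact hpm N
    | succ i ih => exact (hpm _).comp ih
  have hmem : ∀ i, ∀ x ∈ E, Cube0_b p N i x ∈ E := by
    intro i
    induction i with
    | zero => exact fun x hx => (hp1 N x hx).1
    | succ i ih => exact fun x hx => (hp1 _ _ (ih x hx)).1
  have hrr : ∀ i, i + 1 ≤ N → rr r₀ (N - i) = rr r₀ (N - (i + 1)) / 32 := by
    intro i hi
    rw [← rr_succ]
    congr 1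
    omega
  have hnear : ∀ i ≤ N, ∀ x ∈ E, dist x (Cube0_b p N i x) < 2 * rr r₀ (N - i) := by
    intro i
    induction i with
    | zero =>
      intro _ x hx
      have h1 := (hp1 N x hx).2
      have h2 := rr_pos h N
      change dist x (p N x) < 2 * rr r₀ N
      linarith
    | succ i ih =>
      intro hi x hx
      have h1 := ih (by omega) x hx
      have h2 := (hp1 (N - (i + 1)) _ (hmem i x hx)).2
      have h3 := dist_triangle x (Cube0_b p N i x) (p (N - (i + 1)) (Cube0_b p N i x))
      have h4 := hrr i hi
      have h5 := rr_pos h (N - (i + 1))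
      change dist x (p (N - (i + 1)) (Cube0_b p N i x)) < _
      linarith
  have hinner : ∀ i ≤ N, ∀ x ∈ E, ∀ y ∈ E, dist y (Cube0_b p N i x) < rr r₀ (N - i) / 4 →
      Cube0_b p N i y = Cube0_b p N i x := by
    intro i hi x hx y hy hxy
    cases i with
    | zero =>
      have h2 := rr_pos h N
      change dist y (p N x) < rr r₀ N / 4 at hxy
      exact hp2 N x hx y (by linarith)
    | succ i =>
      change dist y (p (N - (i + 1)) (Cube0_b p N i x)) < _ at hxy
      have h1 := hnear i (by omega) y hy
      have h3 := dist_triangle_left (Cube0_b p N i y) (p (N - (i + 1)) (Cube0_b p N i x)) y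
      have h4 := hrr i hi
      have h5 := rr_pos h (N - (i + 1))
      exact hp2 (N - (i + 1)) _ (hmem i x hx) (Cube0_b p N i y) (by linarith)
  have hnest : ∀ i k x y, Cube0_b p N i x = Cube0_b p N i y →
      Cube0_b p N (i + k) x = Cube0_b p N (i + k) y := by
    intro i k x y hxy
    induction k with
    | zero => exact hxy
    | succ k ih => exact congrArg (p (N - (i + k + 1))) ih
  refine ⟨⟨fun j => Cube0_b p N (N - j), fun j q => hm _ (measurableSet_singleton q),
    fun j _ => hmem _, fun j hj x hx => ?_, fun j hj x hx y hy hxy => ?_,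
    fun j i hji hi x _ y _ hxy => ?_⟩⟩
  · have := hnear (N - j) (by omega) x hx
    rwa [show N - (N - j) = j by omega] at this
  · refine hinner (N - j) (by omega) x hx y hy ?_
    rwa [show N - (N - j) = j by omega]
  · have := hnest (N - i) (i - j) x y hxy
    rwa [show N - i + (i - j) = N - j by omega] at this

end Crest.Agent.R085
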