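import Crest.Agent.R085.Cube0

/-! Row 85. Cubes: construction and elementary properties. -/

set_option autoImplicit false

open MeasureTheory Set Filter Topology Metric
open scoped ENNReal NNReal

noncomputable section

namespace Crest.Agent.R085

variable {n d : ℕ}

theorem Cube1_rr_pos {r₀ : ℝ} (h : 0 < r₀) (j : ℕ) : 0 < rr r₀ j := by
  unfold rr; positivity

namespace Cubes

variable {E : Set (X d)} {r₀ : ℝ} {N : ℕ} (c : Cubes E r₀ N)

theorem ctr_a (h : 0 < r₀) {j : ℕ} (hj : j ≤ N) {x : X d} (hx : x ∈ E) : c.Ctr j (c.a j x) :=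
  ⟨c.mem j hj x hx, c.inner j hj x hx _ (c.mem j hj x hx)
    (by rw [dist_self]; linarith [Cube1_rr_pos h j])⟩

theorem a_a (h : 0 < r₀) {j i : ℕ} (hji : j ≤ i) (hi : i ≤ N) {x : X d} (hx : x ∈ E) :
    c.a j (c.a i x) = c.a j x :=
  c.nest j i hji hi _ (c.mem i hi x hx) x hx (c.ctr_a h hi hx).2

theorem sep {j : ℕ} (hj : j ≤ N) {q y : X d} (hq : c.Ctr j q) (hy : y ∈ E) (h : c.a j y ≠ q) :
    rr r₀ j / 4 ≤ dist y q := by
  by_contra h1
  exact h ((c.inner j hj q hq.1 y hy (by rw [hq.2]; exact not_le.1 h1)).trans hq.2)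

theorem cub_subset {j : ℕ} (hj : j ≤ N) (q : X d) : c.cub j q ⊆ ball q (2 * rr r₀ j) := by
  rintro x ⟨hx, rfl⟩
  exact c.near j hj x hx

theorem ball_subset {j : ℕ} (hj : j ≤ N) {q : X d} (hq : c.Ctr j q) :
    ball q (rr r₀ j / 4) ∩ E ⊆ c.cub j q := by
  rintro x ⟨h1, hx⟩
  refine ⟨hx, ?_⟩
  by_contra h2
  exact absurd (mem_ball.1 h1) (not_lt.2 (c.sep hj hq hx h2))

theorem measurableSet_cub (hE : MeasurableSet E) (j : ℕ) (q : X d) : MeasurableSet (c.cub j q) :=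
  hE.inter (c.meas j q)

theorem bounded_cub {j : ℕ} (hj : j ≤ N) (q : X d) : Bornology.IsBounded (c.cub j q) :=
  isBounded_ball.subset (c.cub_subset hj q)

theorem cub_sub (h : 0 < r₀) {j i : ℕ} (hji : j ≤ i) (hi : i ≤ N) {q p : X d} (hp : c.Ctr i p)
    (hq : c.a j p = q) : c.cub i p ⊆ c.cub j q := by
  rintro x ⟨hx, rfl⟩
  exact ⟨hx, (c.a_a h hji hi hx).symm.trans hq⟩

theorem finite_ctr (h : 0 < r₀) {i : ℕ} (hi : i ≤ N) (x : X d) (R : ℝ) :
    {p | c.Ctr i p ∧ dist p x < R}.Finite :=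
  finite_of_sep (r := rr r₀ i / 4) ((isBounded_ball (x := x) (r := R)).subset fun _ hp => hp.2)
    (by linarith [Cube1_rr_pos h i])
    fun _ hy _ hz hyz => c.sep hi hz.1 hy.1.1 (by rw [hy.1.2]; exact hyz)

theorem finite_sub (h : 0 < r₀) {j i : ℕ} (hji : j ≤ i) (hi : i ≤ N) (q : X d) :
    (c.sub j q i).Finite :=
  (c.finite_ctr h hi q (2 * rr r₀ j)).subset fun _ hp =>
    ⟨hp.1, c.cub_subset (hji.trans hi) q ⟨hp.1.1, hp.2⟩⟩

theorem measurableSet_pred (h : 0 < r₀) (hE : MeasurableSet E) {i : ℕ} (hi : i ≤ N)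
    (P : X d → Prop) : MeasurableSet {x | x ∈ E ∧ P (c.a i x)} := by
  have hc : {p | c.Ctr i p ∧ P p}.Countable := by
    refine (countable_iUnion fun R : ℕ => (c.finite_ctr h hi 0 R).countable).mono fun p hp => ?_
    obtain ⟨R, hR⟩ := exists_nat_gt (dist p 0)
    exact mem_iUnion.2 ⟨R, hp.1, hR⟩
  have e : {x | x ∈ E ∧ P (c.a i x)} = ⋃ p ∈ {p | c.Ctr i p ∧ P p}, c.cub i p := by
    ext x
    simp only [mem_iUnion, exists_prop]
    constructor
    · rintro ⟨hx, hP⟩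
      exact ⟨c.a i x, ⟨c.ctr_a h hi hx, hP⟩, hx, rfl⟩
    · rintro ⟨p, hp, hx, rfl⟩
      exact ⟨hx, hp.2⟩
  rw [e]
  exact MeasurableSet.biUnion hc fun p _ => c.measurableSet_cub hE i p

end Cubes

end Crest.Agent.R085
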