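import Mathlib
import Crest.Prelude.Def_RieszRectifiability

/-! Row 85 (S0113): definitions.

`LL μ t s` is the jump operator with kernel `‖z‖^(-n-1)` truncated to `t ≲ ‖z‖ ≲ s`; on a linear
functional `ℓ` it is the component `ℓ` of the truncated Riesz transform of `μ`.

Plan of the proof (see `DESIGN.md` in the docstring of `Final.lean`):
* `KK`: regular measures for which all linear functionals are harmonic ("reflectionless");
* Hölder estimate (`holder`) + Liouville (`liouville`) ⇒ flatness improves in `KK` (`improve`);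
* touching ball ⇒ flat places exist (`touch`); compactness transfers all this to `Good` scales;
* `Good` fails on a Carleson family (`carlA`), so `Nice` does (`carlN`);
* area argument (`area`), splitting (`split`), coding (`code`). -/

set_option autoImplicit false

open MeasureTheory Set Filter Topology Metric
open scoped ENNReal NNReal

noncomputable section

namespace Crest.Agent.R085

abbrev X (d : ℕ) := EuclideanSpace ℝ (Fin d)

/-- `0` on `(-∞, 1]`, `1` on `[2, ∞)`, affine in between. -/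
def chi (u : ℝ) : ℝ := max 0 (min 1 (u - 1))

/-- The truncated kernel. -/
def kk (n : ℕ) {d : ℕ} (t s : ℝ) (z : X d) : ℝ := (chi (‖z‖ / t) - chi (‖z‖ / s)) / ‖z‖ ^ (n + 1)

/-- The truncated jump operator. -/
def LL (n : ℕ) {d : ℕ} (μ : Measure (X d)) (t s : ℝ) (f : X d → ℝ) (x : X d) : ℝ :=
  ∫ y, (f x - f y) * kk n t s (x - y) ∂μ

/-- The truncated form. -/
def EE (n : ℕ) {d : ℕ} (μ : Measure (X d)) (t s : ℝ) (f ψ : X d → ℝ) : ℝ :=
  ∫ x, ψ x * LL n μ t s f x ∂μ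

/-- `t → 0+`, `s → ∞`. -/
def FF : Filter (ℝ × ℝ) := 𝓝[>] 0 ×ˢ atTop

/-- The growth weight. -/
def wt (u : ℝ) : ℝ := (max 1 u) ^ (3 / 2 : ℝ)

/-- Upper regularity (all centres, all radii). -/
def Up (n : ℕ) (C : ℝ) {d : ℕ} (μ : Measure (X d)) : Prop :=
  ∀ (x : X d) (r : ℝ), 0 < r → μ (ball x r) ≤ ENNReal.ofReal (C * r ^ n)

/-- Lower regularity up to the radius `D`. -/
def Lo (n : ℕ) (C D : ℝ) {d : ℕ} (μ : Measure (X d)) : Prop :=
  ∀ x ∈ μ.support, ∀ r : ℝ, 0 < r → r ≤ D → r ^ n / C ≤ μ.real (ball x r)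

/-- Lipschitz functions with compact support. -/
def Test {d : ℕ} (ψ : X d → ℝ) : Prop := (∃ Λ : ℝ≥0, LipschitzWith Λ ψ) ∧ HasCompactSupport ψ

/-- `ψ` vanishes outside of the ball. -/
def Off {d : ℕ} (ψ : X d → ℝ) (x : X d) (R : ℝ) : Prop := ∀ y, R ≤ dist y x → ψ y = 0

/-- Lipschitz on bounded sets. -/
def LocLip {d : ℕ} (f : X d → ℝ) : Prop := ∀ R : ℝ, ∃ Λ : ℝ≥0, LipschitzOnWith Λ f (ball 0 R)

/-- Harmonic (modulo constants) for the jump operator of `μ`. -/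
def Harm (n : ℕ) {d : ℕ} (μ : Measure (X d)) (f : X d → ℝ) : Prop :=
  ∀ ψ, Test ψ → ∫ x, ψ x ∂μ = 0 → Tendsto (fun p : ℝ × ℝ => EE n μ p.1 p.2 f ψ) FF (𝓝 0)

/-- Growth of `f` on the support. -/
def Gr {d : ℕ} (μ : Measure (X d)) (f : X d → ℝ) (x₀ : X d) (ρ M : ℝ) : Prop :=
  ∀ y ∈ μ.support, |f y| ≤ M * wt (‖y - x₀‖ / ρ)

/-- Reflectionless regular measures. -/
structure KK (n : ℕ) (C : ℝ) {d : ℕ} (μ : Measure (X d)) : Prop where
  up : Up n C μ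
  lo : ∀ D, Lo n C D μ
  refl : ∀ ℓ : X d →L[ℝ] ℝ, Harm n μ ℓ

/-- The truncated Riesz transforms are bounded on the support. -/
def RB (n : ℕ) (C₁ : ℝ) {d : ℕ} (μ : Measure (X d)) : Prop :=
  ∀ x ∈ μ.support, ∀ (ℓ : X d →L[ℝ] ℝ) (t s : ℝ), 0 < t → t ≤ s → |LL n μ t s ℓ x| ≤ C₁ * ‖ℓ‖

/-- Small oscillation of the Riesz transform. -/
def Good (n : ℕ) {d : ℕ} (μ : Measure (X d)) (x : X d) (r A δ : ℝ) : Prop :=
  ∀ ℓ : X d →L[ℝ] ℝ, ‖ℓ‖ ≤ 1 → ∀ ψ : X d → ℝ, LipschitzWith 1 ψ → Off ψ x (A * r) →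
    ∫ y, ψ y ∂μ = 0 → ∀ᶠ p : ℝ × ℝ in FF, |EE n μ p.1 p.2 ℓ ψ| ≤ δ * r ^ (n + 1)

/-- The support is close to the plane `x + range ι` at the scale `r` and above. -/
def Fl {m d : ℕ} (μ : Measure (X d)) (x : X d) (r ε : ℝ) (ι : X m →ₗᵢ[ℝ] X d) : Prop :=
  ∀ y ∈ μ.support, ∃ u : X m, ‖y - x - ι u‖ ≤ ε * r * wt (‖y - x‖ / r)

def Flat (m : ℕ) {d : ℕ} (μ : Measure (X d)) (x : X d) (r ε : ℝ) : Prop :=
  ∃ ι : X m →ₗᵢ[ℝ] X d, Fl μ x r ε ι

/-- The orthogonal projection on the plane, in the coordinates of the plane. -/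
def pr {m d : ℕ} (ι : X m →ₗᵢ[ℝ] X d) : X d →L[ℝ] X m :=
  ContinuousLinearMap.adjoint ι.toContinuousLinearMap

/-- `μ` is close to `θ` times the area measure of the plane `x + range ι` at the scale `r`. -/
structure Nice {n d : ℕ} (C₂ : ℝ) (μ : Measure (X d)) (x : X d) (r η : ℝ) (ι : X n →ₗᵢ[ℝ] X d)
    (θ : ℝ) : Prop where
  lo : 1 / C₂ ≤ θ
  hi : θ ≤ C₂
  n1 : ∀ y ∈ μ.support, dist y x < 20 * r → ∃ u : X n, ‖y - x - ι u‖ ≤ η * r
  n2 : ∀ u : X n, ‖u‖ < 20 * r → ∃ y ∈ μ.support, ‖y - x - ι u‖ ≤ η * r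
  m1 : ∀ Z ⊆ ball x (20 * r),
    μ.real Z ≤ θ * volume.real {u : X n | x + ι u ∈ thickening (η * r) Z} + η * r ^ n
  m2 : ∀ Z ⊆ ball x (20 * r),
    θ * volume.real {u : X n | x + ι u ∈ Z} ≤ μ.real (thickening (η * r) Z) + η * r ^ n

/-- The ultrafilter along which all limits are taken. -/
def UU : Ultrafilter ℕ := hyperfilter ℕ

/-- Vague convergence along `UU`. -/
def VL {d : ℕ} (μs : ℕ → Measure (X d)) (μ : Measure (X d)) : Prop :=
  ∀ φ : X d → ℝ, Continuous φ → HasCompactSupport φ →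
    Tendsto (fun j => ∫ x, φ x ∂μs j) UU (𝓝 (∫ x, φ x ∂μ))

/-- The rescaled measure. -/
def sc (n : ℕ) {d : ℕ} (μ : Measure (X d)) (x : X d) (r : ℝ) : Measure (X d) :=
  ENNReal.ofReal ((r ^ n)⁻¹) • μ.map fun y => r⁻¹ • (y - x)

/-- A bump function (semiconvex). -/
def bmp {d : ℕ} (x : X d) (ρ : ℝ) (y : X d) : ℝ := max 0 (1 - ‖y - x‖ ^ 2 / ρ ^ 2)

/-- A cut-off function: `1` on `ball x R`, `0` outside of `ball x (2 R)`. -/
def cut {d : ℕ} (x : X d) (R : ℝ) (y : X d) : ℝ := max 0 (min 1 (2 - ‖y - x‖ / R))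

/-- The scales. -/
def rr (r₀ : ℝ) (j : ℕ) : ℝ := r₀ * (1 / 32) ^ j

/-- Nested partitions of `E`: `a j x` is the centre of the cube of generation `j` containing `x`. -/
structure Cubes {d : ℕ} (E : Set (X d)) (r₀ : ℝ) (N : ℕ) where
  a : ℕ → X d → X d
  meas : ∀ j q, MeasurableSet {x | a j x = q}
  mem : ∀ j ≤ N, ∀ x ∈ E, a j x ∈ E
  near : ∀ j ≤ N, ∀ x ∈ E, dist x (a j x) < 2 * rr r₀ j
  inner : ∀ j ≤ N, ∀ x ∈ E, ∀ y ∈ E, dist y (a j x) < rr r₀ j / 4 → a j y = a j x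
  nest : ∀ j i, j ≤ i → i ≤ N → ∀ x ∈ E, ∀ y ∈ E, a i x = a i y → a j x = a j y

namespace Cubes

variable {d : ℕ} {E : Set (X d)} {r₀ : ℝ} {N : ℕ} (c : Cubes E r₀ N)

/-- `q` is a centre of generation `j`. -/
def Ctr (j : ℕ) (q : X d) : Prop := q ∈ E ∧ c.a j q = q

def cub (j : ℕ) (q : X d) : Set (X d) := {x | x ∈ E ∧ c.a j x = q}

/-- The centres of generation `i` in the cube `(j, q)`. -/
def sub (j : ℕ) (q : X d) (i : ℕ) : Set (X d) := {p | c.Ctr i p ∧ c.a j p = q}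

/-- The boundary layer of width `w` of the cubes of generation `i`. -/
def bd (i : ℕ) (w : ℝ) : Set (X d) := {x | x ∈ E ∧ ∃ y ∈ E, c.a i y ≠ c.a i x ∧ dist x y < w}

/-- A partition of the cube `(j, q)` into smaller cubes of generation at most `M`. -/
structure Part (M j : ℕ) (q : X d) (S : Finset (ℕ × X d)) : Prop where
  lev : ∀ P ∈ S, j < P.1 ∧ P.1 ≤ M
  ctr : ∀ P ∈ S, c.Ctr P.1 P.2 ∧ c.a j P.2 = q
  cover : ∀ x ∈ c.cub j q, ∃ P ∈ S, c.a P.1 x = P.2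
  disj : ∀ x ∈ E, ∀ P ∈ S, ∀ P' ∈ S, c.a P.1 x = P.2 → c.a P'.1 x = P'.2 → P = P'

end Cubes

/-- The projection on the first plane is co-Lipschitz on the second one. -/
def CoL {n d : ℕ} (ι ι' : X n →ₗᵢ[ℝ] X d) : Prop := ∀ u : X n, ‖u‖ / 2 ≤ ‖pr ι (ι' u)‖

end Crest.Agent.R085
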