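import Crest.Agent.R085.AreaB
import Crest.Agent.R085.Code

/-! Row 85. The splitting of a cube and the potential. -/

set_option autoImplicit false

open MeasureTheory Set Filter Topology Metric
open scoped ENNReal NNReal

noncomputable section

namespace Crest.Agent.R085

variable {n d : ℕ}

/-- The packing sum of the cubes which are not nice. -/
def BB (μ : Measure (X d)) {r₀ : ℝ} {N : ℕ} (c : Cubes μ.support r₀ N) (M : ℕ)
    (nice : ℕ → X d → Prop) (j : ℕ) (q : X d) : ℝ :=
  ∑ i ∈ Finset.Icc j M, μ.real {x | x ∈ c.cub j q ∧ ¬nice i (c.a i x)}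

theorem BB_part {C r₀ : ℝ} {N M j : ℕ} {μ : Measure (X d)} (hu : Up n C μ) (h : 0 < r₀)
    (c : Cubes μ.support r₀ N) (hM : M ≤ N) (hj : j < M) (nice : ℕ → X d → Prop) {q : X d}
    {S : Finset (ℕ × X d)} (hS : c.Part M j q S) :
    μ.real {x | x ∈ c.cub j q ∧ ¬nice j (c.a j x)} + ∑ P ∈ S, BB μ c M nice P.1 P.2 ≤
      BB μ c M nice j q := by
  classical
  haveI := hu.locFin
  have hE : MeasurableSet μ.support := Measure.isClosed_support.measurableSet
  have hset : ∀ (i l : ℕ) (p : X d), {x | x ∈ c.cub l p ∧ ¬nice i (c.a i x)} =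
      c.cub l p ∩ {x | x ∈ μ.support ∧ ¬nice i (c.a i x)} := by
    intro i l p
    ext x
    exact ⟨fun h => ⟨h.1, h.1.1, h.2⟩, fun h => ⟨h.1, h.2.2⟩⟩
  have h1 : BB μ c M nice j q = μ.real {x | x ∈ c.cub j q ∧ ¬nice j (c.a j x)} +
      ∑ i ∈ Finset.Icc (j + 1) M, μ.real {x | x ∈ c.cub j q ∧ ¬nice i (c.a i x)} := by
    unfold BB
    have : Finset.Icc j M = insert j (Finset.Icc (j + 1) M) := by
      ext i
      simp only [Finset.mem_Icc, Finset.mem_insert]
      omega
    rw [this, Finset.sum_insert (by simp)]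
  rw [h1]
  gcongr
  calc ∑ P ∈ S, BB μ c M nice P.1 P.2
      ≤ ∑ P ∈ S, ∑ i ∈ Finset.Icc (j + 1) M,
          μ.real {x | x ∈ c.cub P.1 P.2 ∧ ¬nice i (c.a i x)} := by
        refine Finset.sum_le_sum fun P hP => ?_
        unfold BB
        refine Finset.sum_le_sum_of_subset_of_nonneg ?_ fun _ _ _ => measureReal_nonneg
        exact Finset.Icc_subset_Icc (hS.lev P hP).1 le_rfl
    _ = ∑ i ∈ Finset.Icc (j + 1) M, μ.real {x | x ∈ c.cub j q ∧ ¬nice i (c.a i x)} := by
        rw [Finset.sum_comm]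
        refine Finset.sum_congr rfl fun i hi => ?_
        simp only [hset]
        exact hS.sum_eq h hE hM (c.measurableSet_pred h hE
          ((Finset.mem_Icc.1 hi).2.trans hM) fun p => ¬nice i p)

theorem BB_nonneg (μ : Measure (X d)) {r₀ : ℝ} {N : ℕ} (c : Cubes μ.support r₀ N) (M : ℕ)
    (nice : ℕ → X d → Prop) (j : ℕ) (q : X d) : 0 ≤ BB μ c M nice j q :=
  Finset.sum_nonneg fun _ _ => measureReal_nonneg

/-- A finite set can be placed on a segment. -/
theorem Split_place (hn : 1 ≤ n) {α : Type*} (S : Finset α) {K r : ℝ} (hK : (S.card : ℝ) ≤ K)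
    (hK0 : 0 < K) (hr : 0 < r) : ∃ z : α → X n, (∀ P ∈ S, ‖z P‖ ≤ r / 2) ∧
      ∀ P ∈ S, ∀ P' ∈ S, P ≠ P' → r / (2 * K) ≤ ‖z P - z P'‖ := by
  classical
  let e : X n := EuclideanSpace.single (⟨0, hn⟩ : Fin n) (1 : ℝ)
  have he : ‖e‖ = 1 := by simp [e]
  let i : α → ℕ := fun P => if h : P ∈ S then (S.equivFin ⟨P, h⟩ : ℕ) else 0
  have hi : ∀ P ∈ S, (i P : ℝ) ≤ K := by
    intro P hP
    simp only [i, dif_pos hP]
    exact le_trans (by exact_mod_cast (S.equivFin ⟨P, hP⟩).2.le) hK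
  have hinj : ∀ P ∈ S, ∀ P' ∈ S, P ≠ P' → i P ≠ i P' := by
    intro P hP P' hP' hne h
    simp only [i, dif_pos hP, dif_pos hP'] at h
    have := S.equivFin.injective (Fin.ext h)
    exact hne (congrArg Subtype.val this)
  refine ⟨fun P => ((i P : ℝ) * (r / (2 * K))) • e, fun P hP => ?_, fun P hP P' hP' hne => ?_⟩
  · rw [norm_smul, he, mul_one, Real.norm_of_nonneg (by positivity)]
    calc (i P : ℝ) * (r / (2 * K)) ≤ K * (r / (2 * K)) := by gcongr; exact hi P hP
      _ = r / 2 := by field_simp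
  · rw [← sub_smul, norm_smul, he, mul_one, ← sub_mul, Real.norm_eq_abs, abs_mul,
      abs_of_nonneg (by positivity : (0 : ℝ) ≤ r / (2 * K))]
    have h1 : (1 : ℝ) ≤ |(i P : ℝ) - i P'| := by
      have h2 : (1 : ℤ) ≤ |(i P : ℤ) - i P'| :=
        Int.one_le_abs (sub_ne_zero.2 (by exact_mod_cast hinj P hP P' hP' hne))
      exact_mod_cast h2
    exact le_mul_of_one_le_left (by positivity) h1

/-- `W j q = β (μ Q + BB j q) - α μ Q / θ j q` for nice cubes and `μ Q + β BB j q` for the other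
ones, with `α = 2 C₂`, `β = 1 + α C₂ + 2 α C₃`.
Not nice: `part_children`, at most `M₀` children (`card_ctr`), placed at the points
`(i / (2 M₀)) rr j e₀`.  Nice: `part_stop` for `T l p = nice l p ∧ CoL (ι j q) (ι l p)`,
`z P = (1 / 4) • pr (ι j q) (P.2 - q)`, `stop_sep`, `area`, `Part.sum_eq`, `BB_part`. -/
theorem split (n : ℕ) (hn : 1 ≤ n) {C C₂ : ℝ} (hC : 1 ≤ C) (hC₂ : 1 ≤ C₂) :
    ∃ κ β : ℝ, 0 < κ ∧ κ ≤ 1 ∧ 0 < β ∧
    ∀ (d : ℕ) (μ : Measure (X d)) (D η τ ζ r₀ : ℝ) (N M : ℕ) (c : Cubes μ.support r₀ N)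
      (nice : ℕ → X d → Prop) (ι : ℕ → X d → X n →ₗᵢ[ℝ] X d) (θ : ℕ → X d → ℝ), Up n C μ →
      Lo n C D μ → 0 < r₀ → r₀ ≤ D → 0 < η → η ≤ 1 / 7000 → 7000 * η ≤ τ → 0 ≤ ζ →
      10 * 4 ^ n * C * (ζ + η) ≤ 1 → M ≤ N →
      (∀ i ≤ M, ∀ x, μ.real (c.bd i (τ * rr r₀ i) ∩ ball x (3 * rr r₀ i)) ≤ ζ * rr r₀ i ^ n) →
      (∀ l p, nice l p → Nice C₂ μ p (rr r₀ l) η (ι l p) (θ l p)) →
      ∃ W : ℕ → X d → ℝ, (∀ j ≤ M, ∀ q, c.Ctr j q → 0 ≤ W j q ∧
        W j q ≤ β * (μ.real (c.cub j q) + BB μ c M nice j q)) ∧ Splits n μ c M κ W := by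
  classical
  obtain ⟨C₃, hC₃, harea⟩ := area n hC
  set K : ℝ := C ^ 2 * (8 * 64 + 2) ^ n with hK
  have hK1 : 1 ≤ K := one_le_mul_of_one_le_of_one_le (one_le_pow₀ hC) (one_le_pow₀ (by norm_num))
  set α : ℝ := 2 * C₂ with hα
  have hα0 : 0 < α := by positivity
  set β : ℝ := 1 + α * C₂ + 2 * α * C₃ with hβ
  have hβ1 : 1 ≤ β := by
    have : 0 ≤ α * C₂ + 2 * α * C₃ := by positivity
    linarith
  refine ⟨1 / (144 * K), β, by positivity, ?_, by positivity, ?_⟩
  · rw [div_le_one (by positivity)]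
    linarith
  intro d μ D η τ ζ r₀ N M c nice ι θ hu hl h0 hD hη0 hη hτ hζ hs hM hbd hnice
  haveI := hu.locFin
  have hE : MeasurableSet μ.support := Measure.isClosed_support.measurableSet
  let W : ℕ → X d → ℝ := fun j q =>
    if nice j q then β * (μ.real (c.cub j q) + BB μ c M nice j q) - α * (μ.real (c.cub j q) / θ j q)
    else μ.real (c.cub j q) + β * BB μ c M nice j q
  have hθ : ∀ l p, nice l p → 0 < θ l p := fun l p h =>
    lt_of_lt_of_le (by positivity) (hnice l p h).lo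
  have hW : ∀ j q, 0 ≤ W j q ∧ W j q ≤ β * (μ.real (c.cub j q) + BB μ c M nice j q) := by
    intro j q
    have hB := BB_nonneg μ c M nice j q
    have hm : 0 ≤ μ.real (c.cub j q) := measureReal_nonneg
    by_cases h : nice j q
    · simp only [W, if_pos h]
      have h1 := hθ j q h
      have h2 : μ.real (c.cub j q) / θ j q ≤ C₂ * μ.real (c.cub j q) := by
        rw [div_le_iff₀ h1]
        have h3 := (hnice j q h).lo
        rw [div_le_iff₀ (by positivity)] at h3
        nlinarith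
      have h3 : 0 ≤ μ.real (c.cub j q) / θ j q := by positivity
      constructor
      · have h4 : α * (μ.real (c.cub j q) / θ j q) ≤ α * (C₂ * μ.real (c.cub j q)) := by gcongr
        have h5 : α * C₂ ≤ β := by
          have : 0 ≤ 2 * α * C₃ := by positivity
          linarith
        nlinarith
      · nlinarith
    · simp only [W, if_neg h]
      exact ⟨by positivity, by nlinarith⟩
  refine ⟨W, fun j _ q _ => hW j q, fun j hj q hq => ?_⟩
  have hr := rr_pos h0 j
  have hin : ∀ {S : Finset (ℕ × X d)}, c.Part M j q S → ∀ P ∈ S, dist P.2 q < 2 * rr r₀ j :=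
    fun hS P hP => c.cub_subset (hj.le.trans hM) q ⟨(hS.ctr P hP).1.1, (hS.ctr P hP).2⟩
  have hsum : ∀ {S : Finset (ℕ × X d)}, c.Part M j q S →
      ∑ P ∈ S, μ.real (c.cub P.1 P.2) = μ.real (c.cub j q) := by
    intro S hS
    simpa using hS.sum_eq (μ := μ) h0 hE hM MeasurableSet.univ
  by_cases h : nice j q
  · obtain ⟨S, hS, hT, hT'⟩ := c.part_stop h0 hj hM
      (fun l p => nice l p ∧ CoL (ι j q) (ι l p)) ⟨h, coL_self _⟩
    refine ⟨S, fun P => (1 / 4 : ℝ) • pr (ι j q) (P.2 - q), hS, fun P hP => ?_,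
      fun P hP P' hP' hne => ?_, ?_⟩
    · rw [norm_smul, Real.norm_of_nonneg (by norm_num)]
      have h1 := norm_pr_le (ι j q) (P.2 - q)
      have h2 := hin hS P hP
      rw [dist_eq_norm] at h2
      linarith
    · have h1 := stop_sep (C₂ := C₂) (ι := ι) (θ := θ) (ι₀ := ι j q) h0 hη0.le
        (hη.trans (by norm_num)) c hM hS
        (fun P hP l h1 h2 => ⟨hnice _ _ (hT P hP l h1 h2).1, (hT P hP l h1 h2).2⟩) P hP P' hP' hne
      rw [← smul_sub, ← map_sub, norm_smul, Real.norm_of_nonneg (by norm_num),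
        sub_sub_sub_cancel_right]
      have h2 : 0 ≤ ‖P.2 - P'.2‖ + rr r₀ P.1 + rr r₀ P'.1 := by
        have := rr_pos h0 P.1
        have := rr_pos h0 P'.1
        positivity
      have h3 : 1 / (144 * K) ≤ 1 / 144 := by
        apply one_div_le_one_div_of_le <;> linarith
      nlinarith
    · have h1 := harea d μ C₂ D η τ ζ r₀ N M j c q S nice ι θ hu hl hC₂ h0 hD hη0 hη hτ hζ hs hM hj
        hq h hbd hnice hS hT hT'
      have h2 := BB_part hu h0 c hM hj nice hS
      have h2' : ∑ P ∈ S, BB μ c M nice P.1 P.2 ≤ BB μ c M nice j q :=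
        le_trans (le_add_of_nonneg_left measureReal_nonneg) h2
      have h3 : ∑ P ∈ S with P.1 < M, W P.1 P.2 ≤
          ∑ P ∈ S, (β * (μ.real (c.cub P.1 P.2) + BB μ c M nice P.1 P.2) - 20 / 11 * α *
            (if P.1 < M ∧ nice P.1 P.2 then 11 / 20 * (μ.real (c.cub P.1 P.2) / θ P.1 P.2)
              else C₃ * μ.real (c.cub P.1 P.2))) := by
        rw [Finset.sum_filter]
        refine Finset.sum_le_sum fun P _ => ?_
        have hB := BB_nonneg μ c M nice P.1 P.2
        have hm : 0 ≤ μ.real (c.cub P.1 P.2) := measureReal_nonneg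
        have hc : 20 / 11 * α * (C₃ * μ.real (c.cub P.1 P.2)) ≤
            (β - 1) * μ.real (c.cub P.1 P.2) := by
          have : 20 / 11 * α * C₃ ≤ β - 1 := by
            have : 0 ≤ α * C₂ := by positivity
            have : 0 ≤ α * C₃ := by positivity
            linarith
          nlinarith
        by_cases h4 : P.1 < M
        · by_cases h5 : nice P.1 P.2
          · simp only [W, if_pos h4, if_pos h5, if_pos (And.intro h4 h5)]
            linarith
          · simp only [W, if_pos h4, if_neg h5, if_neg (fun h : P.1 < M ∧ nice P.1 P.2 => h5 h.2)]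
            linarith
        · simp only [if_neg h4, if_neg (fun h : P.1 < M ∧ nice P.1 P.2 => h4 h.1)]
          nlinarith
      rw [Finset.sum_sub_distrib, ← Finset.mul_sum, ← Finset.mul_sum, Finset.sum_add_distrib,
        hsum hS] at h3
      simp only [W, if_pos h] at h3 ⊢
      have h4 := hθ j q h
      have h5 : μ.real (c.cub j q) ≤ C₂ * (μ.real (c.cub j q) / θ j q) := by
        rw [← mul_div_assoc, le_div_iff₀ h4, mul_comm C₂]
        exact mul_le_mul_of_nonneg_left (hnice j q h).hi measureReal_nonneg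
      have h6 : 0 ≤ C₂ * (μ.real (c.cub j q) / θ j q) := le_trans measureReal_nonneg h5
      have h7 := mul_le_mul_of_nonneg_left h1 (by positivity : 0 ≤ 20 / 11 * α)
      have h8 := mul_le_mul_of_nonneg_left h2' (by positivity : 0 ≤ β)
      have h9 : α * (μ.real (c.cub j q) / θ j q) = 2 * (C₂ * (μ.real (c.cub j q) / θ j q)) := by
        rw [hα]; ring
      nlinarith
  · obtain ⟨S, hS, hlev⟩ := c.part_children h0 hj hM q
    have hcard : (S.card : ℝ) ≤ K := by
      have h1 : (S.image Prod.snd).card = S.card := by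
        refine Finset.card_image_of_injOn fun P hP P' hP' hPP => ?_
        exact Prod.ext ((hlev P hP).trans (hlev P' hP').symm) hPP
      rw [← h1]
      refine card_ctr (j := j + 1) (x := q) hu hl hC h0 hD c (by omega) (by norm_num) _
        fun p hp => ?_
      obtain ⟨P, hP, rfl⟩ := Finset.mem_image.1 hp
      refine ⟨hlev P hP ▸ (hS.ctr P hP).1, ?_⟩
      have := hin hS P hP
      rw [rr_succ]
      linarith
    obtain ⟨z, hz, hz'⟩ := Split_place hn S hcard (by positivity) hr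
    refine ⟨S, z, hS, hz, fun P hP P' hP' hne => le_trans ?_ (hz' P hP P' hP' hne), ?_⟩
    · have h1 := hin hS P hP
      have h2 := hin hS P' hP'
      have h3 := dist_triangle_right P.2 P'.2 q
      rw [dist_eq_norm P.2 P'.2] at h3
      rw [hlev P hP, hlev P' hP', rr_succ]
      calc 1 / (144 * K) * (‖P.2 - P'.2‖ + rr r₀ j / 32 + rr r₀ j / 32)
          ≤ 1 / (144 * K) * (72 * rr r₀ j) := by gcongr; linarith
        _ = rr r₀ j / (2 * K) := by field_simp; ring
    · have h2 := BB_part hu h0 c hM hj nice hS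
      have h1 : {x | x ∈ c.cub j q ∧ ¬nice j (c.a j x)} = c.cub j q := by
        ext x
        refine ⟨fun hx => hx.1, fun hx => ⟨hx, ?_⟩⟩
        rw [hx.2]
        exact h
      rw [h1] at h2
      have h3 : ∑ P ∈ S with P.1 < M, W P.1 P.2 ≤
          ∑ P ∈ S, β * (μ.real (c.cub P.1 P.2) + BB μ c M nice P.1 P.2) := by
        refine le_trans (Finset.sum_le_sum_of_subset_of_nonneg (Finset.filter_subset _ _)
          fun P _ _ => (hW P.1 P.2).1) (Finset.sum_le_sum fun P _ => (hW P.1 P.2).2)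
      rw [← Finset.mul_sum, Finset.sum_add_distrib, hsum hS] at h3
      have h8 := mul_le_mul_of_nonneg_left h2 (by positivity : 0 ≤ β)
      have h9 : W j q = μ.real (c.cub j q) + β * BB μ c M nice j q := by simp only [W, if_neg h]
      rw [h9]
      linarith

end Crest.Agent.R085
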