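import Crest.Agent.R085.CarD
import Crest.Agent.R085.Split
import Crest.Agent.R085.Bdry

/-! Row 85. Assembly.

Order of the constants: `C` (`of_AD`), `C₂` (`carlN`), `κ, β` (`split`), `ζ = 1 / (20 4^n C)`,
`k, τ` (`small_bd`), `η = min (τ / 7000) (min (1 / 7000) ζ)`, `c` (`carlN`), the number `K` of coding
steps with `β (C 2^n + c) / K ≤ 1 / (2 4^n C)`, `lam = (κ / 4) ^ K`, `L` (`bpli`).
Given `x, r`: `r₀ = r / 8`, `D = r`; for `ζ' > 0` take `M` with `2 rr r₀ M ≤ ζ'`, cubes of depth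
`M + k`, `q = a 0 x`, `B = cub 0 q ∩ {a M · ∈ F}`; `cub 0 q ⊆ closedBall x (r / 2)`. -/

set_option autoImplicit false

open MeasureTheory Set Filter Topology Metric
open scoped ENNReal NNReal

noncomputable section

namespace Crest.Agent.R085

theorem main (d n : ℕ) (hn : 1 ≤ n) (hnd : n ≤ d) (C_AD C_R : ℝ) :
    ∃ θ : ℝ, 0 < θ ∧ ∃ M : ℝ≥0, ∀ μ : Measure (X d),
      Crest.AnalysisR.IsADRegular n C_AD μ → Crest.AnalysisR.HasRieszBound n C_R μ →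
        Crest.AnalysisR.IsUniformlyRectifiable n θ M μ := by
  classical
  obtain ⟨C, hC, hAD⟩ := of_AD n d C_AD
  obtain ⟨C₂, hC₂, hcarl⟩ := carlN n d hn hnd hC C_R
  obtain ⟨κ, β, hκ, hκ1, hβ, hsplit⟩ := split n hn hC hC₂
  have hC0 : 0 < C := by linarith
  set ζ : ℝ := 1 / (20 * 4 ^ n * C) with hζ
  have hζ0 : 0 < ζ := by positivity
  obtain ⟨k, τ, hτ, hbd⟩ := small_bd n hC hζ0
  set η : ℝ := min (τ / 7000) (min (1 / 7000) ζ) with hη
  have hη0 : 0 < η := lt_min (by positivity) (lt_min (by norm_num) hζ0)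
  have hη1 : η ≤ 1 / 7000 := (min_le_right _ _).trans (min_le_left _ _)
  have hη2 : η ≤ ζ := (min_le_right _ _).trans (min_le_right _ _)
  have hη3 : 7000 * η ≤ τ := by
    have : η ≤ τ / 7000 := min_le_left _ _
    linarith
  have hη4 : 10 * 4 ^ n * C * (ζ + η) ≤ 1 := by
    have h1 : 10 * 4 ^ n * C * (ζ + η) ≤ 10 * 4 ^ n * C * (ζ + ζ) := by gcongr
    have h2 : 10 * 4 ^ n * C * (ζ + ζ) = 1 := by
      rw [hζ]; field_simp; ring
    linarith
  obtain ⟨c, hc, hcarl⟩ := hcarl η hη0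
  obtain ⟨K, hK⟩ := exists_nat_gt (2 * 4 ^ n * C * (β * (C * 2 ^ n + c)))
  have hKpos : (0 : ℝ) < K := lt_trans (by positivity) hK
  have hlam : (0 : ℝ) < (κ / 4) ^ K := by positivity
  obtain ⟨L, hL⟩ := bpli n d hlam
  obtain ⟨ι₀, -⟩ := exists_iso (m := n) (d := d) ⊥ (by simp) hnd
  refine ⟨1 / (2 * 4 ^ n * C * 8 ^ n), by positivity, L, fun μ hμ hR x hx r hr => ?_⟩
  obtain ⟨hu, hl⟩ := hAD μ r hμ hr
  have hr0 : 0 < r := hr.1
  haveI := hu.locFin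
  refine hL μ x r _ inferInstance hr0 fun ζ' hζ' => ?_
  set r₀ : ℝ := r / 8 with hr₀
  have h0 : 0 < r₀ := by positivity
  have hD : r₀ ≤ r := by rw [hr₀]; linarith
  obtain ⟨M, hM⟩ : ∃ M : ℕ, 2 * rr r₀ M ≤ ζ' := by
    obtain ⟨M, hM⟩ := exists_pow_lt_of_lt_one (x := ζ' / (2 * r₀)) (y := (1 / 32 : ℝ))
      (by positivity) (by norm_num)
    refine ⟨M, ?_⟩
    rw [lt_div_iff₀ (by positivity)] at hM
    unfold rr
    nlinarith
  obtain ⟨cb⟩ := exists_cubes μ.support h0 (M + k)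
  set q := cb.a 0 x with hq
  have hqc : cb.Ctr 0 q := cb.ctr_a h0 (Nat.zero_le _) hx
  let nice : ℕ → X d → Prop := fun l p =>
    ∃ (ι : X n →ₗᵢ[ℝ] X d) (θ : ℝ), Nice C₂ μ p (rr r₀ l) η ι θ
  have hch : ∀ l p, ∃ (ι : X n →ₗᵢ[ℝ] X d) (θ : ℝ), nice l p → Nice C₂ μ p (rr r₀ l) η ι θ := by
    intro l p
    by_cases h : nice l p
    · obtain ⟨ι, θ, h⟩ := h
      exact ⟨ι, θ, fun _ => h⟩
    · exact ⟨ι₀, 0, fun h' => absurd h' h⟩
  choose ι θ hιθ using hch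
  obtain ⟨W, hW, hs⟩ := hsplit d μ r η τ ζ r₀ (M + k) M cb nice ι θ hu hl h0 hD hη0 hη1 hη3
    hζ0.le hη4 (Nat.le_add_right _ _)
    (fun i hi y => hbd d μ r r₀ (M + k) cb i y hu hl h0 hD (by omega)) hιθ
  obtain ⟨F, g, hF, hg, hμF⟩ := code hu h0 cb (Nat.le_add_right _ _) hκ hκ1
    (fun j hj p hp => (hW j hj p hp).1) hs K 0 (Nat.zero_le _) q hqc
  have hcub : ∀ y ∈ cb.cub 0 q, dist y x ≤ r / 2 := by
    intro y hy
    have h1 : dist y q < 2 * rr r₀ 0 := cb.cub_subset (Nat.zero_le _) q hy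
    have h2 : dist x q < 2 * rr r₀ 0 := cb.near 0 (Nat.zero_le _) x hx
    rw [rr_zero] at h1 h2
    have := dist_triangle_right y x q
    rw [hr₀] at h1 h2
    linarith
  refine ⟨F, g, cb.cub 0 q ∩ {y | cb.a M y ∈ F}, fun y hy => ⟨hcub y (hF y hy).1, ?_⟩, hg,
    fun y hy => mem_closedBall.2 (hcub y hy.1), fun y hy => ⟨cb.a M y, hy.2, ?_⟩, ?_⟩
  · have := (hF y hy).2
    rw [rr_zero, hr₀] at this
    linarith
  · exact ((cb.near M (Nat.le_add_right _ _) y hy.1.1).le).trans hM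
  · have h1 := le_cub hu hl h0 hD cb (Nat.zero_le _) hqc
    have h2 := cub_le hu hC0.le h0 cb (Nat.zero_le _) q
    rw [rr_zero] at h1 h2
    have h3 : BB μ cb M nice 0 q ≤ c * r₀ ^ n := by
      have := hcarl μ r r₀ (M + k) M cb q hu hl hR h0 hD (Nat.le_add_right _ _)
      rw [Nat.range_succ_eq_Icc_zero] at this
      exact this
    have h4 : W 0 q ≤ β * ((C * 2 ^ n + c) * r₀ ^ n) := by
      refine (hW 0 (Nat.zero_le _) q hqc).2.trans ?_
      gcongr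
      nlinarith
    have h5 : μ.real (cb.cub 0 q) ≤ μ.real (cb.cub 0 q ∩ {y | cb.a M y ∈ F}) +
        μ.real (cb.cub 0 q \ {y | cb.a M y ∈ F}) := by
      conv_lhs => rw [← inter_union_diff (cb.cub 0 q) {y | cb.a M y ∈ F}]
      exact measureReal_union_le _ _
    have h6 : μ.real (cb.cub 0 q \ {y | cb.a M y ∈ F}) ≤ r₀ ^ n / (2 * 4 ^ n * C) := by
      rw [le_div_iff₀ (by positivity)]
      have h7 : (K : ℝ) * (μ.real (cb.cub 0 q \ {y | cb.a M y ∈ F}) * (2 * 4 ^ n * C)) ≤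
          K * r₀ ^ n := by
        calc (K : ℝ) * (μ.real (cb.cub 0 q \ {y | cb.a M y ∈ F}) * (2 * 4 ^ n * C))
            = (K * μ.real (cb.cub 0 q \ {y | cb.a M y ∈ F})) * (2 * 4 ^ n * C) := by ring
          _ ≤ (β * ((C * 2 ^ n + c) * r₀ ^ n)) * (2 * 4 ^ n * C) :=
            mul_le_mul_of_nonneg_right (hμF.trans h4) (by positivity)
          _ = (2 * 4 ^ n * C * (β * (C * 2 ^ n + c))) * r₀ ^ n := by ring
          _ ≤ K * r₀ ^ n := by gcongr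
      exact le_of_mul_le_mul_left h7 hKpos
    have h8 : 1 / (2 * 4 ^ n * C * 8 ^ n) * r ^ n = r₀ ^ n / (2 * 4 ^ n * C) := by
      rw [hr₀, div_pow]; field_simp
    have h9 : r₀ ^ n / (4 ^ n * C) = 2 * (r₀ ^ n / (2 * 4 ^ n * C)) := by
      field_simp
    rw [h8]
    linarith

end Crest.Agent.R085
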