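import Crest.Agent.R085.Form0

/-! Row 85. Algebra of the truncated operator and of the truncated form. -/

set_option autoImplicit false

open MeasureTheory Set Filter Topology Metric
open scoped ENNReal NNReal

noncomputable section

namespace Crest.Agent.R085

variable {n d : ℕ} {C : ℝ} {μ : Measure (X d)} {t s : ℝ} {f g ψ φ : X d → ℝ}

private theorem Form_gen (ht : 0 < t) (hs : 0 < s) {F : X d × X d → ℝ}
    (hF : Continuous F) (hψ : Continuous ψ) (hc : HasCompactSupport ψ) :
    Continuous (fun p : X d × X d => ψ p.1 * (F p * kk n t s (p.1 - p.2))) ∧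
    HasCompactSupport (fun p : X d × X d => ψ p.1 * (F p * kk n t s (p.1 - p.2))) := by
  have hk : Continuous (kk n t s : X d → ℝ) := continuous_kk ht hs
  refine ⟨(hψ.comp continuous_fst).mul (hF.mul (hk.comp (continuous_fst.sub continuous_snd))), ?_⟩
  obtain ⟨R, -, hR⟩ := exists_off hc 0
  refine HasCompactSupport.intro
    ((isCompact_closedBall (0 : X d) R).prod
      (isCompact_closedBall (0 : X d) (R + 2 * max t s))) fun p hp => ?_
  by_cases h1 : R ≤ dist p.1 0
  · rw [hR _ h1, zero_mul]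
  · have h2 : R + 2 * max t s < dist p.2 0 := by
      by_contra h3
      exact hp ⟨mem_closedBall.2 (not_le.1 h1).le, mem_closedBall.2 (not_lt.1 h3)⟩
    have h4 : 2 * max t s ≤ ‖p.1 - p.2‖ := by
      have := dist_triangle p.2 p.1 0
      rw [dist_comm p.2 p.1, dist_eq_norm p.1 p.2] at this
      linarith
    rw [kk_zero_of_ge' ht hs h4, mul_zero, mul_zero]

private theorem Form_int (hu : Up n C μ) (ht : 0 < t) (hs : 0 < s) {F : X d × X d → ℝ}
    (hF : Continuous F) (hψ : Continuous ψ) (hc : HasCompactSupport ψ) :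
    Integrable (fun p : X d × X d => ψ p.1 * (F p * kk n t s (p.1 - p.2))) (μ.prod μ) := by
  have := hu.locFin
  obtain ⟨h1, h2⟩ := Form_gen (n := n) ht hs hF hψ hc
  exact h1.integrable_of_hasCompactSupport h2

private theorem Form_int' (hu : Up n C μ) (ht : 0 < t) (hs : 0 < s) {F : X d × X d → ℝ}
    (hF : Continuous F) (hψ : Continuous ψ) (hc : HasCompactSupport ψ) :
    Integrable (fun p : X d × X d => ψ p.2 * (F p * kk n t s (p.1 - p.2))) (μ.prod μ) := by
  have := hu.locFin
  have h := (Form_int hu ht hs (hF.comp continuous_swap) hψ hc).swap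
  refine h.congr (Eventually.of_forall fun p => ?_)
  simp only [Function.comp, Prod.fst_swap, Prod.snd_swap, Prod.swap_swap]
  rw [kk_comm]

private theorem Form_swap (hu : Up n C μ) (F : X d × X d → ℝ) :
    ∫ p : X d × X d, ψ p.2 * (F p * kk n t s (p.1 - p.2)) ∂μ.prod μ =
      ∫ p : X d × X d, ψ p.1 * (F p.swap * kk n t s (p.1 - p.2)) ∂μ.prod μ := by
  have := hu.locFin
  rw [← integral_prod_swap]
  refine integral_congr_ae (Eventually.of_forall fun p => ?_)
  simp only [Prod.fst_swap, Prod.snd_swap]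
  rw [kk_comm]

/-- The integrand is continuous with compact support on the product. -/
theorem EE_prod (hu : Up n C μ) (ht : 0 < t) (hs : 0 < s) (hf : Continuous f) (hψ : Continuous ψ)
    (hc : HasCompactSupport ψ) :
    Continuous (fun p : X d × X d => ψ p.1 * ((f p.1 - f p.2) * kk n t s (p.1 - p.2))) ∧
    HasCompactSupport (fun p : X d × X d => ψ p.1 * ((f p.1 - f p.2) * kk n t s (p.1 - p.2))) ∧
    Integrable (fun p : X d × X d => ψ p.1 * ((f p.1 - f p.2) * kk n t s (p.1 - p.2)))
      (μ.prod μ) ∧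
    EE n μ t s f ψ = ∫ p, ψ p.1 * ((f p.1 - f p.2) * kk n t s (p.1 - p.2)) ∂μ.prod μ := by
  have := hu.locFin
  have hF : Continuous fun p : X d × X d => f p.1 - f p.2 :=
    (hf.comp continuous_fst).sub (hf.comp continuous_snd)
  obtain ⟨h1, h2⟩ := Form_gen (n := n) ht hs hF hψ hc
  have h3 := Form_int hu ht hs hF hψ hc
  refine ⟨h1, h2, h3, ?_⟩
  rw [integral_prod _ h3]
  unfold EE LL
  refine integral_congr_ae (Eventually.of_forall fun x => ?_)
  simp only
  rw [integral_const_mul]

/-- Symmetrisation (swap the variables). -/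
theorem EE_symm (hu : Up n C μ) (ht : 0 < t) (hs : 0 < s) (hf : Continuous f) (hψ : Continuous ψ)
    (hc : HasCompactSupport ψ) :
    Integrable (fun p : X d × X d => (ψ p.1 - ψ p.2) * ((f p.1 - f p.2) * kk n t s (p.1 - p.2)))
      (μ.prod μ) ∧
    2 * EE n μ t s f ψ =
      ∫ p, (ψ p.1 - ψ p.2) * ((f p.1 - f p.2) * kk n t s (p.1 - p.2)) ∂μ.prod μ := by
  have hF : Continuous fun p : X d × X d => f p.1 - f p.2 :=
    (hf.comp continuous_fst).sub (hf.comp continuous_snd)
  have h1 := Form_int hu ht hs hF hψ hc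
  have h2 := Form_int' hu ht hs hF hψ hc
  have e : (fun p : X d × X d => (ψ p.1 - ψ p.2) * ((f p.1 - f p.2) * kk n t s (p.1 - p.2))) =
      fun p => ψ p.1 * ((f p.1 - f p.2) * kk n t s (p.1 - p.2)) -
        ψ p.2 * ((f p.1 - f p.2) * kk n t s (p.1 - p.2)) := by
    funext p; ring
  rw [e]
  refine ⟨h1.sub h2, ?_⟩
  rw [integral_sub h1 h2, Form_swap hu (fun p => f p.1 - f p.2),
    (EE_prod hu ht hs hf hψ hc).2.2.2]
  have e2 : ∫ p : X d × X d, ψ p.1 * ((f p.swap.1 - f p.swap.2) * kk n t s (p.1 - p.2)) ∂μ.prod μ =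
      -∫ p : X d × X d, ψ p.1 * ((f p.1 - f p.2) * kk n t s (p.1 - p.2)) ∂μ.prod μ := by
    rw [← integral_neg]
    refine integral_congr_ae (Eventually.of_forall fun p => ?_)
    simp only [Prod.fst_swap, Prod.snd_swap]
    ring
  rw [e2]; ring

theorem EE_adj (hu : Up n C μ) (ht : 0 < t) (hs : 0 < s) (hf : Continuous f) (hψ : Continuous ψ)
    (hc : HasCompactSupport ψ) : EE n μ t s f ψ = ∫ x, f x * LL n μ t s ψ x ∂μ := by
  have := hu.locFin
  have hf1 : Continuous fun p : X d × X d => f p.1 := hf.comp continuous_fst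
  have hf2 : Continuous fun p : X d × X d => f p.2 := hf.comp continuous_snd
  have h1 := Form_int hu ht hs hf1 hψ hc
  have h2 := Form_int hu ht hs hf2 hψ hc
  have h3 := Form_int' hu ht hs hf1 hψ hc
  have e1 : EE n μ t s f ψ =
      ∫ p : X d × X d, ψ p.1 * (f p.1 * kk n t s (p.1 - p.2)) ∂μ.prod μ -
        ∫ p : X d × X d, ψ p.1 * (f p.2 * kk n t s (p.1 - p.2)) ∂μ.prod μ := by
    rw [(EE_prod hu ht hs hf hψ hc).2.2.2, ← integral_sub h1 h2]
    refine integral_congr_ae (Eventually.of_forall fun p => ?_)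
    simp only
    ring
  have e2 : ∫ x, f x * LL n μ t s ψ x ∂μ =
      ∫ p : X d × X d, ψ p.1 * (f p.1 * kk n t s (p.1 - p.2)) ∂μ.prod μ -
        ∫ p : X d × X d, ψ p.2 * (f p.1 * kk n t s (p.1 - p.2)) ∂μ.prod μ := by
    rw [← integral_sub h1 h3, integral_prod _ (h1.sub' h3)]
    unfold LL
    refine integral_congr_ae (Eventually.of_forall fun x => ?_)
    simp only
    rw [← integral_const_mul]
    refine integral_congr_ae (Eventually.of_forall fun y => ?_)
    simp only
    ring
  rw [e1, e2, Form_swap hu (fun p => f p.1)]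
  rfl

theorem integral_LL (hu : Up n C μ) (ht : 0 < t) (hs : 0 < s) (hψ : Continuous ψ)
    (hc : HasCompactSupport ψ) : ∫ x, LL n μ t s ψ x ∂μ = 0 := by
  have h := EE_adj (f := fun _ => (1 : ℝ)) hu ht hs continuous_const hψ hc
  simp only [one_mul] at h
  rw [← h]
  simp [EE, LL]

theorem Harm.sub (hu : Up n C μ) (hf : Continuous f) (hg : Continuous g) (h : Harm n μ f)
    (h' : Harm n μ g) : Harm n μ fun x => f x - g x := by
  intro ψ hψ h0
  have h1 := (h ψ hψ h0).sub (h' ψ hψ h0)
  rw [sub_zero] at h1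
  refine h1.congr' ?_
  obtain ⟨R, -, hR⟩ := exists_off hψ.2 0
  filter_upwards [FF_ev one_pos 1] with p hp
  exact (EE_sub_left hu hp.1 (by linarith [hp.2.2]) hf hg (hu.integrable hψ.continuous hψ.2) hR).symm

theorem Harm.const_mul (h : Harm n μ f) (a : ℝ) : Harm n μ fun x => a * f x := by
  intro ψ hψ h0
  have h1 := (h ψ hψ h0).const_mul a
  rw [mul_zero] at h1
  exact h1.congr fun p => (EE_mul_left a).symm

theorem Harm.sub_const (h : Harm n μ f) (a : ℝ) : Harm n μ fun x => f x - a := by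
  intro ψ hψ h0
  exact (h ψ hψ h0).congr fun p => (EE_sub_const a).symm

theorem KK.good (h : KK n C μ) (x : X d) {r δ : ℝ} (A : ℝ) (hr : 0 < r) (hδ : 0 < δ) :
    Good n μ x r A δ := by
  intro ℓ _ ψ hψ ho h0
  have h1 := h.refl ℓ ψ ⟨⟨1, hψ⟩, ho.hasCompactSupport⟩ h0
  have hp : 0 < δ * r ^ (n + 1) := by positivity
  filter_upwards [(Metric.tendsto_nhds.1 h1) _ hp] with p hp'
  rw [Real.dist_eq, sub_zero] at hp'
  exact hp'.le

theorem Good.mono {x x' : X d} {r r' A A' δ δ' : ℝ} (h : Good n μ x r A δ)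
    (hA : dist x' x + A' * r' ≤ A * r) (hδ : δ * r ^ (n + 1) ≤ δ' * r' ^ (n + 1)) :
    Good n μ x' r' A' δ' := by
  intro ℓ hℓ ψ hψ ho h0
  filter_upwards [h ℓ hℓ ψ hψ (ho.mono hA) h0] with p hp
  exact hp.trans hδ

/-- For the Lebesgue measure: oddness. -/
theorem LL_vol_clm {m : ℕ} (ℓ : X m →L[ℝ] ℝ) (t s : ℝ) (x : X m) :
    LL n (volume : Measure (X m)) t s ℓ x = 0 := by
  unfold LL
  have h1 := integral_sub_left_eq_self (fun z : X m => ℓ z * kk n t s z) volume x
  have h2 : ∫ y, (ℓ x - ℓ y) * kk n t s (x - y) = ∫ z : X m, ℓ z * kk n t s z := by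
    rw [← h1]
    refine integral_congr_ae (Eventually.of_forall fun y => ?_)
    simp only [map_sub]
  have h3 := integral_neg_eq_self (fun z : X m => ℓ z * kk n t s z) volume
  simp only [map_neg, kk_neg, neg_mul, integral_neg] at h3
  rw [h2]
  linarith

theorem RB_vol (m : ℕ) : RB m 0 (volume : Measure (X m)) := by
  intro x _ ℓ t s _ _
  rw [LL_vol_clm]
  simp

theorem LL_vol_add {m : ℕ} (f : X m → ℝ) (v x : X m) :
    LL n (volume : Measure (X m)) t s (fun y => f (y + v)) x = LL n volume t s f (x + v) := by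
  unfold LL
  rw [← integral_add_right_eq_self (fun y => (f (x + v) - f y) * kk n t s (x + v - y)) v]
  refine integral_congr_ae (Eventually.of_forall fun y => ?_)
  simp only [add_sub_add_right_eq_sub]

theorem Harm.comp_add {m : ℕ} {f : X m → ℝ} (h : Harm n (volume : Measure (X m)) f) (v : X m) :
    Harm n (volume : Measure (X m)) fun y => f (y + v) := by
  intro ψ hψ h0
  have h1 := h (fun x => ψ (x + -v)) (hψ.comp_add (-v))
    (by rw [integral_add_right_eq_self ψ (-v)]; exact h0)
  refine h1.congr fun p => ?_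
  unfold EE
  rw [← integral_add_right_eq_self (fun x => ψ (x + -v) * LL n volume p.1 p.2 f x) v]
  refine integral_congr_ae (Eventually.of_forall fun x => ?_)
  simp only [add_neg_cancel_right]
  rw [LL_vol_add]

end Crest.Agent.R085
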