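import Crest.Agent.R085.Reg

/-! Row 85. Algebra of the truncated operator and of the truncated form. -/

set_option autoImplicit false

open MeasureTheory Set Filter Topology Metric
open scoped ENNReal NNReal

noncomputable section

namespace Crest.Agent.R085

variable {n d : ℕ} {C : ℝ} {μ : Measure (X d)} {t s : ℝ} {f g ψ φ : X d → ℝ}

theorem integrable_kk_mul (hu : Up n C μ) (ht : 0 < t) (hs : 0 < s) (hf : Continuous f) (x : X d) :
    Integrable (fun y => f y * kk n t s (x - y)) μ := by
  refine hu.integrable (hf.mul ((continuous_kk ht hs).comp (continuous_const.sub continuous_id)))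
    (Off.hasCompactSupport (x := x) (R := 2 * max t s) fun y hy => ?_)
  rw [kk_zero_of_ge' ht hs (by rwa [dist_comm, dist_eq_norm] at hy), mul_zero]

theorem integrable_LL (hu : Up n C μ) (ht : 0 < t) (hs : 0 < s) (hf : Continuous f) (x : X d) :
    Integrable (fun y => (f x - f y) * kk n t s (x - y)) μ := by
  exact integrable_kk_mul hu ht hs (continuous_const.sub hf) x

theorem continuous_LL (hu : Up n C μ) (ht : 0 < t) (hs : 0 < s) (hf : Continuous f) :
    Continuous (LL n μ t s f) := by
  haveI := hu.locFin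
  refine continuous_iff_continuousAt.2 fun x₀ => ?_
  refine (continuousOn_integral_of_compact_support (μ := μ)
    (f := fun x y => (f x - f y) * kk n t s (x - y)) (s := ball x₀ 1)
    (isCompact_closedBall x₀ (1 + 2 * max t s)) (Continuous.continuousOn ?_)
      fun x y hx hy => ?_).continuousAt (ball_mem_nhds x₀ one_pos)
  · exact ((hf.comp continuous_fst).sub (hf.comp continuous_snd)).mul
      ((continuous_kk ht hs).comp (continuous_fst.sub continuous_snd))
  · rw [mem_closedBall, not_le] at hy
    rw [mem_ball] at hx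
    rw [kk_zero_of_ge' ht hs, mul_zero]
    rw [← dist_eq_norm]
    linarith [dist_triangle_left y x₀ x]

theorem LL_split (hu : Up n C μ) {a b c : ℝ} (ha : 0 < a) (hb : 0 < b) (hc : 0 < c)
    (hf : Continuous f) (x : X d) : LL n μ a b f x + LL n μ b c f x = LL n μ a c f x := by
  rw [LL, LL, LL, ← integral_add (integrable_LL hu ha hb hf x) (integrable_LL hu hb hc hf x)]
  simp only [← mul_add, kk_add]

theorem LL_add (hu : Up n C μ) (ht : 0 < t) (hs : 0 < s) (hf : Continuous f) (hg : Continuous g)
    (x : X d) : LL n μ t s (fun y => f y + g y) x = LL n μ t s f x + LL n μ t s g x := by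
  rw [LL, LL, LL, ← integral_add (integrable_LL hu ht hs hf x) (integrable_LL hu ht hs hg x)]
  exact integral_congr_ae (ae_of_all _ fun y => by ring)

theorem LL_sub (hu : Up n C μ) (ht : 0 < t) (hs : 0 < s) (hf : Continuous f) (hg : Continuous g)
    (x : X d) : LL n μ t s (fun y => f y - g y) x = LL n μ t s f x - LL n μ t s g x := by
  rw [LL, LL, LL, ← integral_sub (integrable_LL hu ht hs hf x) (integrable_LL hu ht hs hg x)]
  exact integral_congr_ae (ae_of_all _ fun y => by ring)

theorem LL_const_mul (a : ℝ) (x : X d) :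
    LL n μ t s (fun y => a * f y) x = a * LL n μ t s f x := by
  rw [LL, LL, ← integral_const_mul]
  exact integral_congr_ae (ae_of_all _ fun y => by ring)

theorem LL_sub_const (a : ℝ) (x : X d) : LL n μ t s (fun y => f y - a) x = LL n μ t s f x := by
  simp only [LL, sub_sub_sub_cancel_right]

theorem LL_off (ht : 0 < t) (hts : t ≤ s) {x₀ : X d} {R : ℝ} (ho : Off ψ x₀ R) :
    Off (LL n μ t s ψ) x₀ (R + 2 * s) := by
  intro y hy
  refine (integral_congr_ae (ae_of_all _ fun z => ?_)).trans (integral_zero _ _)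
  by_cases hz : R ≤ dist z x₀
  · simp only [ho y (by linarith), ho z hz, sub_zero, zero_mul]
  · have h1 : 2 * s ≤ ‖y - z‖ := by
      rw [← dist_eq_norm]
      linarith [dist_triangle y z x₀]
    simp only [kk_zero_of_ge ht hts h1, mul_zero]

theorem integrable_EE (hu : Up n C μ) (ht : 0 < t) (hs : 0 < s) (hf : Continuous f)
    (hψ : Integrable ψ μ) {x₀ : X d} {R : ℝ} (ho : Off ψ x₀ R) :
    Integrable (fun x => ψ x * LL n μ t s f x) μ := by
  have hc := continuous_LL hu ht hs hf
  obtain ⟨B, hB⟩ := (isCompact_closedBall x₀ R).exists_bound_of_continuousOn hc.continuousOn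
  refine (hψ.norm.mul_const B).mono' (hψ.1.mul hc.aestronglyMeasurable) (ae_of_all _ fun x => ?_)
  by_cases hx : R ≤ dist x x₀
  · simp [ho x hx]
  · rw [norm_mul]
    exact mul_le_mul_of_nonneg_left (hB x (not_le.1 hx).le) (norm_nonneg _)

theorem EE_split (hu : Up n C μ) {a b c : ℝ} (ha : 0 < a) (hb : 0 < b) (hc : 0 < c)
    (hf : Continuous f) (hψ : Integrable ψ μ) {x₀ : X d} {R : ℝ} (ho : Off ψ x₀ R) :
    EE n μ a b f ψ + EE n μ b c f ψ = EE n μ a c f ψ := by
  rw [EE, EE, EE, ← integral_add (integrable_EE hu ha hb hf hψ ho) (integrable_EE hu hb hc hf hψ ho)]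
  simp only [← mul_add, LL_split hu ha hb hc hf]

theorem EE_sub_right (hu : Up n C μ) (ht : 0 < t) (hs : 0 < s) (hf : Continuous f)
    (hφ : Integrable φ μ) (hψ : Integrable ψ μ) {x₀ : X d} {R : ℝ} (ho : Off φ x₀ R)
    (ho' : Off ψ x₀ R) :
    EE n μ t s f (fun x => φ x - ψ x) = EE n μ t s f φ - EE n μ t s f ψ := by
  rw [EE, EE, EE, ← integral_sub (integrable_EE hu ht hs hf hφ ho) (integrable_EE hu ht hs hf hψ ho')]
  simp only [sub_mul]

theorem EE_mul_right (a : ℝ) : EE n μ t s f (fun x => a * ψ x) = a * EE n μ t s f ψ := by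
  rw [EE, EE, ← integral_const_mul]
  simp only [mul_assoc]

theorem EE_mul_left (a : ℝ) : EE n μ t s (fun x => a * f x) ψ = a * EE n μ t s f ψ := by
  rw [EE, EE, ← integral_const_mul]
  simp only [LL_const_mul, mul_left_comm]

theorem EE_add_left (hu : Up n C μ) (ht : 0 < t) (hs : 0 < s) (hf : Continuous f)
    (hg : Continuous g) (hψ : Integrable ψ μ) {x₀ : X d} {R : ℝ} (ho : Off ψ x₀ R) :
    EE n μ t s (fun x => f x + g x) ψ = EE n μ t s f ψ + EE n μ t s g ψ := by
  rw [EE, EE, EE, ← integral_add (integrable_EE hu ht hs hf hψ ho) (integrable_EE hu ht hs hg hψ ho)]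
  simp only [LL_add hu ht hs hf hg, mul_add]

theorem EE_sub_left (hu : Up n C μ) (ht : 0 < t) (hs : 0 < s) (hf : Continuous f)
    (hg : Continuous g) (hψ : Integrable ψ μ) {x₀ : X d} {R : ℝ} (ho : Off ψ x₀ R) :
    EE n μ t s (fun x => f x - g x) ψ = EE n μ t s f ψ - EE n μ t s g ψ := by
  rw [EE, EE, EE, ← integral_sub (integrable_EE hu ht hs hf hψ ho) (integrable_EE hu ht hs hg hψ ho)]
  simp only [LL_sub hu ht hs hf hg, mul_sub]

theorem EE_sub_const (a : ℝ) : EE n μ t s (fun y => f y - a) ψ = EE n μ t s f ψ := by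
  simp only [EE, LL_sub_const]

end Crest.Agent.R085
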