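import Crest.Agent.R085.Near

/-! Row 85. Hölder estimate, I: harmonic functions solve a local equation with bounded right hand side. -/

set_option autoImplicit false

open MeasureTheory Set Filter Topology Metric
open scoped ENNReal NNReal

noncomputable section

namespace Crest.Agent.R085

theorem HolA_near (n : ℕ) {d : ℕ} {t ρ : ℝ} (ht : 0 < t) (htρ : t ≤ ρ) (x y : X d) :
    ‖x - y‖ ^ 2 * kk n t ρ (x - y) ≤
      (ball x (2 * ρ)).indicator (fun y => ‖y - x‖ ^ ((1 : ℝ) - n)) y := by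
  by_cases hy : y ∈ ball x (2 * ρ)
  · rw [indicator_of_mem hy, norm_sub_rev y x]
    rcases (norm_nonneg (x - y)).eq_or_lt with h | h
    · rw [← h, zero_pow two_ne_zero, zero_mul]
      positivity
    · refine (mul_le_mul_of_nonneg_left ((le_abs_self _).trans (abs_kk_le t ρ (x - y)))
        (by positivity)).trans (le_of_eq ?_)
      rw [Real.rpow_sub h, Real.rpow_one, Real.rpow_natCast, pow_succ _ n]
      field_simp
  · rw [indicator_of_notMem hy, kk_zero_of_ge ht htρ, mul_zero]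
    rw [mem_ball, dist_comm, dist_eq_norm] at hy
    exact not_lt.1 hy

theorem HolA_tail (n : ℕ) {d : ℕ} {ρ s : ℝ} (hρ : 0 < ρ) (hs : ρ ≤ s) (x y : X d) :
    kk n ρ s (x - y) ≤
      {y | ρ ≤ ‖y - x‖}.indicator (fun y => ‖y - x‖ ^ (-((n : ℝ) + 1))) y := by
  by_cases hy : y ∈ {y | ρ ≤ ‖y - x‖}
  · rw [indicator_of_mem hy, norm_sub_rev y x, Real.rpow_neg (norm_nonneg _), ← Nat.cast_succ,
      Real.rpow_natCast]
    exact (le_abs_self _).trans (abs_kk_le ρ s (x - y))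
  · rw [indicator_of_notMem hy, kk_zero_of_le hρ hs]
    rw [norm_sub_rev]
    exact (not_le.1 hy).le

/-- One-sided bound for the bump (`bmp_semi`, `RB`, `near_int` with `a = 1` on `(t, ρ)`;
`tail_int` with `a = 1` on `(ρ, s)`). -/
theorem LL_bmp_le (n : ℕ) {C C₁ : ℝ} (hC : 1 ≤ C) (hC₁ : 0 ≤ C₁) : ∃ c : ℝ, 0 < c ∧
    ∀ (d : ℕ) (μ : Measure (X d)) (x₁ x : X d) (ρ t s : ℝ), Up n C μ → RB n C₁ μ → 0 < t →
      t ≤ ρ → ρ ≤ s → x ∈ μ.support → LL n μ t s (bmp x₁ ρ) x ≤ c / ρ := by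
  obtain ⟨c₁, hc₁, h₁⟩ := near_int n (zero_le_one.trans hC) one_pos
  obtain ⟨c₂, hc₂, h₂⟩ := tail_int n (zero_le_one.trans hC) one_pos
  refine ⟨2 * C₁ + 2 * c₁ + c₂, by positivity, fun d μ x₁ x ρ t s hu hr ht htρ hρs hx => ?_⟩
  have hρ : 0 < ρ := ht.trans_le htρ
  have hs : 0 < s := hρ.trans_le hρs
  have hb := (bmp_test x₁ hρ).continuous
  obtain ⟨ℓ, hℓ, hsemi⟩ := bmp_semi x₁ hρ x
  obtain ⟨i₁, j₁⟩ := h₁ d μ x (2 * ρ) hu (by positivity)
  obtain ⟨i₂, j₂⟩ := h₂ d μ x ρ hu hρ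
  have m₂ : MeasurableSet {y : X d | ρ ≤ ‖y - x‖} :=
    (isClosed_le continuous_const (by fun_prop)).measurableSet
  have i₁' := (integrable_indicator_iff measurableSet_ball).2 i₁
  have i₂' := (integrable_indicator_iff m₂).2 i₂
  have iℓ := integrable_LL (n := n) hu ht hρ ℓ.continuous x
  have p1 : LL n μ t ρ (bmp x₁ ρ) x ≤ LL n μ t ρ ℓ x + (ρ ^ 2)⁻¹ * (c₁ * (2 * ρ) ^ (1 : ℝ)) := by
    refine le_trans ?_ (add_le_add_right (mul_le_mul_of_nonneg_left j₁ (by positivity)) _)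
    rw [← integral_indicator measurableSet_ball, ← integral_const_mul, LL, LL,
      ← integral_add iℓ (i₁'.const_mul _)]
    refine integral_mono (integrable_LL hu ht hρ hb x) (iℓ.add (i₁'.const_mul _)) fun y => ?_
    have e1 := mul_le_mul_of_nonneg_right (hsemi y) (kk_nonneg (n := n) ht htρ (x - y))
    have e2 := mul_le_mul_of_nonneg_left (HolA_near n ht htρ x y)
      (by positivity : 0 ≤ (ρ ^ 2)⁻¹)
    refine e1.trans ?_
    rw [add_mul, div_eq_inv_mul, mul_assoc]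
    exact add_le_add_right e2 _
  have p2 : LL n μ ρ s (bmp x₁ ρ) x ≤ c₂ * ρ ^ (-(1 : ℝ)) := by
    refine le_trans ?_ j₂
    rw [← integral_indicator m₂, LL]
    refine integral_mono (integrable_LL hu hρ hs hb x) i₂' fun y => ?_
    refine le_trans ?_ (HolA_tail n hρ hρs x y)
    refine mul_le_of_le_one_left (kk_nonneg hρ hρs _) ?_
    linarith [bmp_le_one x₁ ρ x, bmp_nonneg x₁ ρ y]
  have p3 : LL n μ t ρ ℓ x ≤ C₁ * (2 / ρ) :=
    ((le_abs_self _).trans (hr x hx ℓ t ρ ht htρ)).trans (mul_le_mul_of_nonneg_left hℓ hC₁)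
  rw [← LL_split hu ht hρ hs hb]
  rw [Real.rpow_one] at p1
  rw [Real.rpow_neg_one] at p2
  refine (add_le_add (p1.trans (add_le_add_left p3 _)) p2).trans (le_of_eq ?_)
  field_simp

/-- `∫ LL = 0` (`integral_LL`) and the one-sided bound give an `L¹` bound. -/
theorem LL_bmp_l1 (n : ℕ) {C C₁ : ℝ} (hC : 1 ≤ C) (hC₁ : 0 ≤ C₁) : ∃ c : ℝ, 0 < c ∧
    ∀ (d : ℕ) (μ : Measure (X d)) (x₁ : X d) (ρ t : ℝ), Up n C μ → RB n C₁ μ → 0 < t →
      t ≤ ρ → ∫ x, |LL n μ t (8 * ρ) (bmp x₁ ρ) x| ∂μ ≤ c * ρ ^ n / ρ := by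
  obtain ⟨c, hc, h⟩ := LL_bmp_le n hC hC₁
  refine ⟨2 * c * C * 17 ^ n, by positivity, fun d μ x₁ ρ t hu hr ht htρ => ?_⟩
  have hρ : 0 < ρ := ht.trans_le htρ
  have hb := bmp_test x₁ hρ
  set g := LL n μ t (8 * ρ) (bmp x₁ ρ) with hg
  have gc : Continuous g := continuous_LL hu ht (by positivity) hb.continuous
  have go : Off g x₁ (ρ + 2 * (8 * ρ)) := LL_off ht (by linarith) (bmp_off x₁ hρ)
  have gi : Integrable g μ := hu.integrable gc go.hasCompactSupport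
  have g0 : ∫ x, g x ∂μ = 0 := integral_LL hu ht (by positivity) hb.continuous hb.2
  have h1 := hu.integral_abs_le (zero_le_one.trans hC) (ψ := fun x => max (g x) 0) (x := x₁)
    (R := ρ + 2 * (8 * ρ)) (B := c / ρ) (by positivity) (by positivity)
    (fun y hy => by simp only [go y hy, max_self]) fun y hy => by
      rw [abs_of_nonneg (le_max_right _ _)]
      exact max_le (h d μ x₁ y ρ t (8 * ρ) hu hr ht htρ (by linarith) hy) (by positivity)
  have e : ∀ x, |g x| = 2 * |max (g x) 0| - g x := fun x => by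
    rcases le_total (g x) 0 with h | h
    · rw [max_eq_right h, abs_of_nonpos h, abs_zero]
      ring
    · rw [max_eq_left h, abs_of_nonneg h]
      ring
  simp only [e]
  rw [integral_sub ((gi.pos_part.abs).const_mul 2) gi, g0, sub_zero, integral_const_mul]
  refine (mul_le_mul_of_nonneg_left h1 zero_le_two).trans (le_of_eq ?_)
  rw [show ρ + 2 * (8 * ρ) = 17 * ρ by ring, mul_pow]
  ring

/-- Write `ψ = ψ' + a * bmp x₀ ρ` with `ψ'` of mean zero; `EE t (8ρ) f ψ' = EE t s f ψ' -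
EE (8ρ) s f ψ'` (`Harm`, `FF_basis`, `far_bound`); `EE t (8ρ) f bmp = ∫ f * LL bmp` (`EE_adj`,
`LL_off`, `LL_bmp_l1`). -/
theorem local_eq (n : ℕ) {C C₁ : ℝ} (hC : 1 ≤ C) (hC₁ : 0 ≤ C₁) : ∃ c : ℝ, 0 < c ∧
    ∀ (d : ℕ) (μ : Measure (X d)) (f : X d → ℝ) (x₀ : X d) (ρ M : ℝ), Up n C μ →
      (∀ D, Lo n C D μ) → RB n C₁ μ → Continuous f → Harm n μ f → x₀ ∈ μ.support → 0 < ρ →
      0 ≤ M → Gr μ f x₀ ρ M → ∀ ψ : X d → ℝ, Test ψ → Off ψ x₀ (2 * ρ) → ∀ ζ : ℝ, 0 < ζ →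
      ∀ᶠ t in 𝓝[>] (0 : ℝ), |EE n μ t (8 * ρ) f ψ| ≤ c * (M / ρ) * (∫ y, |ψ y| ∂μ) + ζ := by
  obtain ⟨c₁, hc₁, h₁⟩ := LL_bmp_l1 n hC hC₁
  obtain ⟨c₂, hc₂, h₂⟩ := far_bound n hC
  have hw := wt_pos 17
  refine ⟨2 * c₂ + 2 ^ (n + 1) * C * (wt 17 * c₁), by positivity,
    fun d μ f x₀ ρ M hu hl hr hf hh hx hρ hM hG ψ hψ ho ζ hζ => ?_⟩
  have hb := bmp_test x₀ hρ
  obtain ⟨I1, -⟩ := bmp_integral hu (hl ρ) hC hx hρ le_rfl
  set I := ∫ y, bmp x₀ ρ y ∂μ with hI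
  have hI0 : 0 < I := lt_of_lt_of_le (by positivity) I1
  set J := ∫ y, |ψ y| ∂μ with hJ
  have hJ0 : 0 ≤ J := integral_nonneg fun _ => abs_nonneg _
  set a := (∫ y, ψ y ∂μ) / I with ha
  have ha1 : |a| * I ≤ J := by
    rw [ha, abs_div, abs_of_pos hI0, div_mul_cancel₀ _ hI0.ne']
    exact abs_integral_le_integral_abs
  have iψ : Integrable ψ μ := hu.integrable hψ.continuous hψ.2
  have ib : Integrable (bmp x₀ ρ) μ := hu.integrable hb.continuous hb.2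
  have ob : Off (fun y => a * bmp x₀ ρ y) x₀ (2 * ρ) := fun y hy => by
    simp only [bmp_off x₀ hρ y (by linarith), mul_zero]
  have t' : Test fun y => ψ y - a * bmp x₀ ρ y := hψ.sub (hb.const_mul a)
  have i' : Integrable (fun y => ψ y - a * bmp x₀ ρ y) μ := iψ.sub (ib.const_mul a)
  have o' : Off (fun y => ψ y - a * bmp x₀ ρ y) x₀ (2 * ρ) := fun y hy => by
    have := ob y hy
    simp only at this
    simp only [ho y hy, this, sub_zero]
  have z' : ∫ y, (ψ y - a * bmp x₀ ρ y) ∂μ = 0 := by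
    rw [integral_sub iψ (ib.const_mul a), integral_const_mul, ← hI, ha,
      div_mul_cancel₀ _ hI0.ne', sub_self]
  have l' : ∫ y, |ψ y - a * bmp x₀ ρ y| ∂μ ≤ 2 * J := by
    have : ∫ y, |ψ y - a * bmp x₀ ρ y| ∂μ ≤ ∫ y, (|ψ y| + |a| * bmp x₀ ρ y) ∂μ := by
      refine integral_mono i'.abs (iψ.abs.add (ib.const_mul _)) fun y => ?_
      refine (abs_sub _ _).trans (le_of_eq ?_)
      rw [abs_mul, abs_of_nonneg (bmp_nonneg x₀ ρ y)]
    rw [integral_add iψ.abs (ib.const_mul _), integral_const_mul] at this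
    linarith
  obtain ⟨a', b', ha', -, hab⟩ := FF_basis ((hh _ t' z').abs.eventually
    (gt_mem_nhds (by simpa using hζ)))
  have h8 : 0 < 8 * ρ := by positivity
  have hfar := h₂ d μ f _ x₀ ρ M (8 * ρ) (max b' (8 * ρ)) hu hf hρ hM hG le_rfl (le_max_right _ _)
    i' o' z'
  have hsq : √(ρ / (8 * ρ)) ≤ 1 := Real.sqrt_le_one.2 ((div_le_one h8).2 (by linarith))
  have hfar' : |EE n μ (8 * ρ) (max b' (8 * ρ)) f fun y => ψ y - a * bmp x₀ ρ y| ≤
      c₂ * (M / ρ) * 1 * (2 * J) := hfar.trans (by gcongr)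
  filter_upwards [Ioc_mem_nhdsGT (lt_min ha' hρ)] with t ht
  have ht0 := ht.1
  have htρ := ht.2.trans (min_le_right _ _)
  have e1 := hab t (max b' (8 * ρ)) ht0 (ht.2.trans (min_le_left _ _)) (le_max_left _ _)
  have e2 := EE_split hu ht0 h8 (h8.trans_le (le_max_right b' _)) hf i' o'
  have e3 := EE_sub_right hu ht0 h8 hf iψ (ib.const_mul a) ho ob
  rw [EE_mul_right] at e3
  have go : Off (LL n μ t (8 * ρ) (bmp x₀ ρ)) x₀ (ρ + 2 * (8 * ρ)) :=
    LL_off ht0 (by linarith) (bmp_off x₀ hρ)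
  have gi : Integrable (LL n μ t (8 * ρ) (bmp x₀ ρ)) μ :=
    hu.integrable (continuous_LL hu ht0 h8 hb.continuous) go.hasCompactSupport
  have e4 : |EE n μ t (8 * ρ) f (bmp x₀ ρ)| ≤ M * wt 17 * (c₁ * ρ ^ n / ρ) := by
    refine le_trans ?_ (mul_le_mul_of_nonneg_left (h₁ d μ x₀ ρ t hu hr ht0 htρ) (by positivity))
    rw [EE_adj hu ht0 h8 hf hb.continuous hb.2, ← integral_const_mul, ← Real.norm_eq_abs]
    refine norm_integral_le_of_norm_le (gi.abs.const_mul _) ?_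
    filter_upwards [μ.support_mem_ae] with y hy
    rw [Real.norm_eq_abs, abs_mul]
    rcases le_or_gt (ρ + 2 * (8 * ρ)) (dist y x₀) with h | h
    · simp [go y h]
    · refine mul_le_mul_of_nonneg_right ((hG y hy).trans
        (mul_le_mul_of_nonneg_left (wt_mono ?_) hM)) (abs_nonneg _)
      rw [div_le_iff₀ hρ, ← dist_eq_norm]
      linarith
  have e5 : |a| * ρ ^ n ≤ 2 ^ (n + 1) * C * J := by
    rw [div_le_iff₀ (by positivity)] at I1
    have := mul_le_mul_of_nonneg_left I1 (abs_nonneg a)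
    have := mul_le_mul_of_nonneg_left ha1 (by positivity : 0 ≤ 2 ^ (n + 1) * C)
    linarith
  have e6 : |a * EE n μ t (8 * ρ) f (bmp x₀ ρ)| ≤ 2 ^ (n + 1) * C * (wt 17 * c₁) * (M / ρ) * J := by
    rw [abs_mul]
    refine (mul_le_mul_of_nonneg_left e4 (abs_nonneg a)).trans ?_
    have := mul_le_mul_of_nonneg_left e5 (by positivity : 0 ≤ wt 17 * c₁ * (M / ρ))
    calc _ = wt 17 * c₁ * (M / ρ) * (|a| * ρ ^ n) := by ring
      _ ≤ _ := this
      _ = _ := by ring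
  simp only at e1
  have e7 : EE n μ t (8 * ρ) f ψ = (EE n μ t (max b' (8 * ρ)) f fun y => ψ y - a * bmp x₀ ρ y) -
      (EE n μ (8 * ρ) (max b' (8 * ρ)) f fun y => ψ y - a * bmp x₀ ρ y) +
      a * EE n μ t (8 * ρ) f (bmp x₀ ρ) := by linarith
  rw [e7]
  refine (abs_add_le _ _).trans ((add_le_add ((abs_sub _ _).trans (add_le_add e1.le hfar'))
    e6).trans (le_of_eq ?_))
  ring

end Crest.Agent.R085
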