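import Crest.Agent.R085.HolA

/-! Row 85. Hölder estimate, II: decrease of the supremum (Silvestre). -/

set_option autoImplicit false

open MeasureTheory Set Filter Topology Metric
open scoped ENNReal NNReal

noncomputable section

namespace Crest.Agent.R085

private theorem HolB_rpow {u γ : ℝ} (hu : 1 ≤ u) (h0 : 0 ≤ γ) (h1 : γ ≤ 1 / 2) :
    u ^ γ - 1 ≤ 2 * γ * √u := by
  have hs : 1 ≤ √u := Real.one_le_sqrt.2 hu
  have e : u ^ γ = (1 + (√u - 1)) ^ (2 * γ) := by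
    rw [add_sub_cancel, Real.rpow_mul (Real.sqrt_nonneg u), Real.rpow_two,
      Real.sq_sqrt (by linarith)]
  have := rpow_one_add_le_one_add_mul_self (s := √u - 1) (by linarith) (p := 2 * γ)
    (by linarith) (by linarith)
  rw [e]
  nlinarith

private theorem HolB_theta {γ : ℝ} (h0 : 0 < γ) :
    0 < 1 - (2 : ℝ) ^ (-γ) ∧ 1 - (2 : ℝ) ^ (-γ) ≤ γ := by
  constructor
  · have := Real.rpow_lt_one_of_one_lt_of_neg (x := 2) (z := -γ) one_lt_two (by linarith)
    linarith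
  · rw [Real.rpow_def_of_pos two_pos]
    have h1 := Real.add_one_le_exp (Real.log 2 * -γ)
    have h2 := Real.log_two_lt_d9
    nlinarith

private theorem HolB_tail (n : ℕ) {r D : ℝ} (hr : 0 < r) (hD : r ≤ D) :
    √(2 * D / r) * ((D / 4) ^ (n + 1))⁻¹ ≤
      2 * 4 ^ (n + 1) * r ^ (-(1 / 2 : ℝ)) * D ^ (-((n : ℝ) + 1 / 2)) := by
  have hD0 : 0 < D := hr.trans_le hD
  have e1 : D ^ (-((n : ℝ) + 1 / 2)) = √D * (D ^ (n + 1))⁻¹ := by
    rw [Real.sqrt_eq_rpow, ← Real.rpow_natCast, ← Real.rpow_neg hD0.le, ← Real.rpow_add hD0]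
    congr 1
    push_cast
    ring
  have e2 : r ^ (-(1 / 2 : ℝ)) = (√r)⁻¹ := by
    rw [Real.sqrt_eq_rpow, Real.rpow_neg hr.le]
  have e3 : √(2 * D / r) = √2 * √D * (√r)⁻¹ := by
    rw [Real.sqrt_div (by positivity), Real.sqrt_mul (by norm_num), div_eq_mul_inv]
  have h2 : √2 ≤ 2 := Real.sqrt_le_iff.2 ⟨by norm_num, by norm_num⟩
  rw [e1, e2, e3, div_pow, inv_div]
  have : 0 ≤ √D * (√r)⁻¹ * (4 ^ (n + 1) / D ^ (n + 1)) := by positivity
  calc √2 * √D * (√r)⁻¹ * (4 ^ (n + 1) / D ^ (n + 1))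
      = √2 * (√D * (√r)⁻¹ * (4 ^ (n + 1) / D ^ (n + 1))) := by ring
    _ ≤ 2 * (√D * (√r)⁻¹ * (4 ^ (n + 1) / D ^ (n + 1))) := mul_le_mul_of_nonneg_right h2 this
    _ = _ := by rw [div_eq_mul_inv]; ring

private theorem HolB_locLip {d : ℕ} {f b : X d → ℝ} (hf : LocLip f) {Λ : ℝ≥0}
    (hb : LipschitzWith Λ b) (T e : ℝ) :
    LocLip fun y => max (min (f y - T) 0 + e * b y) 0 := by
  intro R
  obtain ⟨L, hL⟩ := hf R
  refine ⟨L + e.nnabs * Λ, LipschitzOnWith.of_dist_le_mul fun x hx y hy => ?_⟩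
  have h1 := hL.dist_le_mul x hx y hy
  have h2 := hb.dist_le_mul x y
  rw [Real.dist_eq] at h1 h2 ⊢
  refine (abs_max_sub_max_le_abs _ _ _).trans ?_
  have h3 : |min (f x - T) 0 - min (f y - T) 0| ≤ |f x - f y| := by
    have := abs_min_sub_min_le_max (f x - T) 0 (f y - T) 0
    simpa using this
  have h4 : |e * b x - e * b y| ≤ |e| * (Λ * dist x y) := by
    rw [← mul_sub, abs_mul]
    exact mul_le_mul_of_nonneg_left h2 (abs_nonneg e)
  have h5 := abs_add_le (min (f x - T) 0 - min (f y - T) 0) (e * b x - e * b y)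
  have e1 : min (f x - T) 0 + e * b x - (min (f y - T) 0 + e * b y) =
      (min (f x - T) 0 - min (f y - T) 0) + (e * b x - e * b y) := by ring
  rw [e1]
  push_cast
  nlinarith

/-- The lower bound for the jumps to the sublevel set. -/
private theorem HolB_lower {n d : ℕ} {C c₁ : ℝ} {μ : Measure (X d)} (hu : Up n C μ) {x₁ x : X d}
    {r ρ t ω γ m : ℝ} (hr : 0 < r) (hρ : r ≤ ρ) (ht : 0 < t) (htρ : t ≤ 8 * ρ) (hω : 0 < ω)
    (hγ0 : 0 ≤ γ) (hγ : γ ≤ 1 / 2) {a : X d → ℝ} (ha : Continuous a) {Z : Set (X d)}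
    (hZ : MeasurableSet Z) (hZb : Z ⊆ ball x₁ r) (hm : m ≤ μ.real Z)
    (hx : dist x x₁ < 3 * r / 4) (h1 : ∀ y ∈ μ.support, dist y x₁ < r → 0 ≤ a y)
    (h2 : ∀ y ∈ μ.support, y ∈ Z → ω / 4 ≤ a y ∧ 2 * t ≤ ‖x - y‖)
    (h3 : ∀ y ∈ μ.support, r ≤ dist y x₁ → dist y x₁ < 17 * ρ →
      -(ω * ((2 * dist y x₁ / r) ^ γ - 1)) ≤ a y)
    (hi : IntegrableOn (fun y => ‖y - x₁‖ ^ (-((n : ℝ) + 1 / 2))) {y | r ≤ ‖y - x₁‖} μ)
    (hc : ∫ y in {y | r ≤ ‖y - x₁‖}, ‖y - x₁‖ ^ (-((n : ℝ) + 1 / 2)) ∂μ ≤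
      c₁ * r ^ (-(1 / 2 : ℝ))) :
    ω / 4 * ((2 * r) ^ (n + 1))⁻¹ * m - ω * γ * (4 * 4 ^ (n + 1) * c₁) / r ≤
      ∫ y, a y * kk n t (8 * ρ) (x - y) ∂μ := by
  have hρ0 : 0 < 8 * ρ := by linarith
  have hO : MeasurableSet {y : X d | r ≤ ‖y - x₁‖} :=
    (isClosed_le continuous_const (by fun_prop)).measurableSet
  have hZf : μ Z ≠ ∞ := hu.ne_top (isBounded_ball.subset hZb)
  set A : ℝ := ω / 4 * ((2 * r) ^ (n + 1))⁻¹ with hA
  set B : ℝ := ω * (2 * γ) * (2 * 4 ^ (n + 1) * r ^ (-(1 / 2 : ℝ))) with hB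
  have hA0 : 0 ≤ A := by positivity
  have hB0 : 0 ≤ B := by positivity
  have i1 : Integrable (Z.indicator fun _ => A) μ :=
    (integrable_indicator_iff hZ).2 (integrableOn_const hZf)
  have i2 : Integrable ({y : X d | r ≤ ‖y - x₁‖}.indicator
      fun y => B * ‖y - x₁‖ ^ (-((n : ℝ) + 1 / 2))) μ :=
    (integrable_indicator_iff hO).2 (hi.const_mul B)
  have key : ∫ y, (Z.indicator (fun _ => A) y - {y : X d | r ≤ ‖y - x₁‖}.indicator
      (fun y => B * ‖y - x₁‖ ^ (-((n : ℝ) + 1 / 2))) y) ∂μ ≤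
      ∫ y, a y * kk n t (8 * ρ) (x - y) ∂μ := by
    refine integral_mono_ae (i1.sub i2) (integrable_kk_mul hu ht hρ0 ha x) ?_
    filter_upwards [Measure.support_mem_ae (μ := μ)] with y hy
    have hk0 := kk_nonneg (n := n) ht htρ (x - y)
    rcases lt_or_ge (dist y x₁) r with hyr | hyr
    · have hyO : y ∉ {y : X d | r ≤ ‖y - x₁‖} := by
        rw [dist_eq_norm] at hyr
        exact not_le.2 hyr
      rw [indicator_of_notMem hyO, sub_zero]
      by_cases hyZ : y ∈ Z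
      · rw [indicator_of_mem hyZ]
        obtain ⟨h4, h5⟩ := h2 y hy hyZ
        have h6 : ‖x - y‖ ≤ 2 * r := by
          have := dist_triangle_right x y x₁
          rw [← dist_eq_norm]
          linarith
        rw [kk_eq ht h5 (by linarith)]
        refine mul_le_mul h4 ?_ (by positivity) (by linarith)
        exact inv_anti₀ (pow_pos (by linarith) _) (pow_le_pow_left₀ (norm_nonneg _) h6 _)
      · rw [indicator_of_notMem hyZ]
        exact mul_nonneg (h1 y hy hyr) hk0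
    · have hyZ : y ∉ Z := fun h => not_lt.2 hyr (hZb h)
      have hyO : y ∈ {y : X d | r ≤ ‖y - x₁‖} := by
        rw [dist_eq_norm] at hyr
        exact hyr
      rw [indicator_of_notMem hyZ, indicator_of_mem hyO, zero_sub, ← dist_eq_norm]
      set D := dist y x₁ with hD
      have hD0 : 0 < D := hr.trans_le hyr
      have htri := dist_triangle_left x x₁ y
      have htri' := dist_triangle y x x₁
      rw [dist_comm y x, dist_eq_norm x y] at htri'
      rcases le_or_gt (2 * (8 * ρ)) ‖x - y‖ with hfar | hfar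
      · rw [kk_zero_of_ge ht htρ hfar, mul_zero]
        have : 0 ≤ B * D ^ (-((n : ℝ) + 1 / 2)) := by positivity
        linarith
      · have h4 := h3 y hy hyr (by linarith)
        have h5 := HolB_rpow (u := 2 * D / r) (by rw [le_div_iff₀ hr]; linarith) hγ0 hγ
        have h6 : kk n t (8 * ρ) (x - y) ≤ ((D / 4) ^ (n + 1))⁻¹ := by
          refine ((le_abs_self _).trans (abs_kk_le _ _ _)).trans ?_
          exact inv_anti₀ (by positivity) (pow_le_pow_left₀ (by positivity) (by linarith) _)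
        have h7 := HolB_tail n hr hyr
        have h8 : -(ω * (2 * γ * √(2 * D / r))) ≤ a y := by
          have := mul_le_mul_of_nonneg_left h5 hω.le
          linarith
        have h9 : 0 ≤ ω * (2 * γ * √(2 * D / r)) := by positivity
        have h10 := mul_le_mul_of_nonneg_right h8 hk0
        have h11 := mul_le_mul_of_nonneg_left h6 h9
        have h12 := mul_le_mul_of_nonneg_left h7 (show 0 ≤ ω * (2 * γ) by positivity)
        rw [hB]
        nlinarith
  rw [integral_sub i1 i2, integral_indicator hZ, integral_indicator hO, setIntegral_const,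
    integral_const_mul, smul_eq_mul] at key
  refine le_trans ?_ key
  have e : r ^ (-(1 / 2 : ℝ)) * r ^ (-(1 / 2 : ℝ)) = r⁻¹ := by
    rw [← Real.rpow_add hr, ← Real.rpow_neg_one]
    norm_num
  have h4 := mul_le_mul_of_nonneg_left hc hB0
  have h5 : B * (c₁ * r ^ (-(1 / 2 : ℝ))) = ω * γ * (4 * 4 ^ (n + 1) * c₁) / r := by
    rw [div_eq_mul_inv _ r, ← e, hB]
    ring
  have h6 := mul_le_mul_of_nonneg_left hm hA0
  linarith

/-- Suppose `f x' > T - ϑ ω` at a point `x'` of the support in `ball x₁ (r / 2)`,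
`ϑ = 1 - 2 ^ (-γ) ≤ γ`.  Put `w = f + 2 ϑ ω * bmp x₁ (3 r / 4)` and
`ψ = max (w - T) 0 * cut x₁ (3 r / 8 ...)`, more precisely any Lipschitz cut-off which is `1` on
`ball x₁ (3 r / 4)` and vanishes outside of `ball x₁ r` (on the support `ψ = max (w - T) 0` in
`ball x₁ r`, and `ψ = 0` outside of `ball x₁ (3 r / 4)`); `∫ ψ > 0`.
Upper bound: `EE w ψ ≤ (G + 2 ϑ ω c / r) ∫ ψ + ζ` (`LL_bmp_le`).
Lower bound: by `EE_symm`, with `S = {ψ > 0}`,
`EE w ψ ≥ ∫_{x ∈ S} ψ x ∫_{y ∉ S} (w x - w y) kk` (on `S × S` the symmetric integrand is a square).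
For `x ∈ S`: points `y ∈ ball x₁ r` contribute `≥ 0`; those with `f y ≤ T - ω / 2` and
`2 t ≤ ‖x - y‖` contribute `≥ (ω / 4) (2 r)^(-n-1)` (`kk_eq`), their measure is at least
`r ^ n / (2 C) - C (2 t)^n`; points outside of the ball lose at most
`ω ((2 ‖y - x₁‖ / r)^γ - 1) (4 / ‖y - x₁‖)^(n+1)`, and `u ^ γ - 1 ≤ 2 γ √u` for `u ≥ 1`,
`γ ≤ 1 / 2` (`Real.rpow_one_add_le_one_add_mul_self`), `tail_int` with `a = 1 / 2`. -/
theorem sup_step (n : ℕ) {C C₁ : ℝ} (hC : 1 ≤ C) (hC₁ : 0 ≤ C₁) : ∃ γ c : ℝ, 0 < γ ∧ γ ≤ 1 / 2 ∧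
    0 < c ∧ ∀ (d : ℕ) (μ : Measure (X d)) (f : X d → ℝ) (x₁ : X d) (r ρ G T ω : ℝ), Up n C μ →
      (∀ D, Lo n C D μ) → RB n C₁ μ → LocLip f → x₁ ∈ μ.support → 0 < r → r ≤ ρ → 0 ≤ G →
      0 < ω → c * G * r ≤ ω →
      (∀ ψ : X d → ℝ, Test ψ → (∀ y, 0 ≤ ψ y) → Off ψ x₁ r → ∀ ζ : ℝ, 0 < ζ →
        ∀ᶠ t in 𝓝[>] (0 : ℝ), EE n μ t (8 * ρ) f ψ ≤ G * (∫ y, ψ y ∂μ) + ζ) →
      (∀ y ∈ μ.support, dist y x₁ < r → f y ≤ T) →
      (∀ y ∈ μ.support, r ≤ dist y x₁ → dist y x₁ < 17 * ρ →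
        f y ≤ T + ω * ((2 * dist y x₁ / r) ^ γ - 1)) →
      μ.real (ball x₁ r) / 2 ≤ μ.real {y | y ∈ ball x₁ r ∧ f y ≤ T - ω / 2} →
      ∀ y ∈ μ.support, dist y x₁ < r / 2 → f y ≤ T - (1 - 2 ^ (-γ)) * ω := by
  obtain ⟨c₀, hc₀, hb⟩ := LL_bmp_le n hC hC₁
  obtain ⟨c₁, hc₁, htail⟩ := tail_int n (C := C) (by linarith) (a := 1 / 2) (by norm_num)
  have hC0 : 0 < C := by linarith
  set κ : ℝ := (2 ^ (n + 4) * C)⁻¹ with hκ
  have hκ0 : 0 < κ := by positivity
  set K : ℝ := 4 * 4 ^ (n + 1) * c₁ + 3 * c₀ with hK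
  have hK0 : 0 < K := by positivity
  obtain ⟨γ, hγ0, hγ8, hγK⟩ : ∃ γ : ℝ, 0 < γ ∧ γ ≤ 1 / 8 ∧ γ * K ≤ κ / 4 :=
    ⟨min (1 / 8) (κ / 4 / K), lt_min (by norm_num) (by positivity), min_le_left _ _,
      (le_div_iff₀ hK0).1 (min_le_right _ _)⟩
  refine ⟨γ, 2 / κ, hγ0, by linarith, by positivity, ?_⟩
  intro d μ f x₁ r ρ G T ω hu hl hR hf hx₁ hr hρ hG hω hGω heq hT hT' hZ x' hx' hx'r
  by_contra hcon
  push Not at hcon
  obtain ⟨hθ0, hθ⟩ := HolB_theta hγ0
  set θ : ℝ := 1 - 2 ^ (-γ) with hθdef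
  have hr' : 0 < 3 * r / 4 := by positivity
  set b : X d → ℝ := bmp x₁ (3 * r / 4) with hbdef
  set ψ : X d → ℝ := fun y => max (min (f y - T) 0 + 2 * θ * ω * b y) 0 with hψ
  have hψ0 : ∀ y, 0 ≤ ψ y := fun y => le_max_right _ _
  have hoff : Off ψ x₁ (3 * r / 4) := fun y hy => by
    have h1 : b y = 0 := bmp_off x₁ hr' y hy
    simp only [hψ, h1, mul_zero, add_zero]
    exact max_eq_right (min_le_right _ _)
  have hoff' : Off ψ x₁ r := hoff.mono (by rw [dist_self]; linarith)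
  have htest : Test ψ := by
    have h1 := (HolB_locLip hf (bmp_lip x₁ hr') T (2 * θ * ω)).mul_test (cut_test x₁ hr)
    have e : ψ = fun y => ψ y * cut x₁ r y := by
      funext y
      rcases le_total (dist y x₁) r with h | h
      · rw [cut_one hr h, mul_one]
      · rw [hoff' y h, zero_mul]
    rw [e]
    exact h1
  have hψc := htest.continuous
  have hbc : Continuous b := (bmp_test x₁ hr').continuous
  have hfc := hf.continuous
  have hψi : Integrable ψ μ := hu.integrable hψc htest.2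
  have hpos : 0 < ∫ y, ψ y ∂μ := by
    refine hu.integral_pos hψc htest.2 hψ0 hx' (lt_max_of_lt_left ?_)
    have h1 : 1 / 2 ≤ b x' := bmp_ge hr' (by linarith)
    have h2 := hT x' hx' (by linarith)
    rw [min_eq_left (by linarith)]
    have h3 := mul_le_mul_of_nonneg_left h1 (show 0 ≤ 2 * θ * ω by positivity)
    linarith
  set a : X d → ℝ := fun y => ψ y - (f y - T) - 2 * θ * ω * b y with hadef
  have hac : Continuous a := by fun_prop
  obtain ⟨Λ, hΛ⟩ := hf (‖x₁‖ + r)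
  have hball : ∀ y, dist y x₁ < r → y ∈ ball (0 : X d) (‖x₁‖ + r) := fun y hy => by
    have := dist_triangle y x₁ 0
    rw [dist_zero_right x₁] at this
    rw [mem_ball]
    linarith
  have hΛ0 : (0 : ℝ) ≤ Λ := Λ.2
  have hev1 : ∀ᶠ t in 𝓝[>] (0 : ℝ), t ∈ Ioo 0 (min (3 * r / 4) (ω / 8 / (Λ + 1))) :=
    Ioo_mem_nhdsGT (lt_min hr' (by positivity))
  obtain ⟨t, ht1, ht2⟩ := (hev1.and (heq ψ htest hψ0 hoff' (κ / 8 * (ω / r) * ∫ y, ψ y ∂μ)
    (by positivity))).exists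
  have ht : 0 < t := ht1.1
  have htr : t ≤ 3 * r / 4 := (ht1.2.trans_le (min_le_left _ _)).le
  have htΛ : t * (Λ + 1) < ω / 8 :=
    (lt_div_iff₀ (by positivity)).1 (ht1.2.trans_le (min_le_right _ _))
  have hρ0 : 0 < 8 * ρ := by linarith
  -- the pointwise lower bound
  have hlow : ∀ x ∈ μ.support, 0 < ψ x → 3 * κ / 4 * (ω / r) ≤
      -LL n μ t (8 * ρ) a x - 2 * θ * ω * LL n μ t (8 * ρ) b x := by
    intro x hx hp
    have hxr : dist x x₁ < 3 * r / 4 := by
      by_contra h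
      exact hp.ne' (hoff x (not_lt.1 h))
    have hxT := hT x hx (by linarith)
    have hψx : ψ x = f x - T + 2 * θ * ω * b x := by
      have h1 : ψ x = max (f x - T + 2 * θ * ω * b x) 0 := by
        simp only [hψ]
        rw [min_eq_left (by linarith)]
      rw [h1] at hp ⊢
      exact max_eq_left ((lt_max_iff.1 hp).resolve_right (lt_irrefl _)).le
    have hax : a x = 0 := by
      simp only [hadef]
      linarith
    have hθω : 2 * θ * ω ≤ ω / 4 := by nlinarith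
    have hbb : ∀ y, 2 * θ * ω * b y ≤ ω / 4 := fun y => by
      have := mul_le_mul_of_nonneg_left (bmp_le_one x₁ (3 * r / 4) y)
        (show 0 ≤ 2 * θ * ω by positivity)
      linarith
    have h1 := HolB_lower (c₁ := c₁) hu (x₁ := x₁) (x := x) (γ := γ) hr hρ ht (by linarith) hω
      hγ0.le (by linarith) hac (Z := {y | y ∈ ball x₁ r ∧ f y ≤ T - ω / 2})
      (measurableSet_ball.inter (isClosed_le hfc continuous_const).measurableSet)
      (fun y hy => hy.1) (m := r ^ n / C / 2)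
      (le_trans (by have := hl r x₁ hx₁ r hr le_rfl; linarith) hZ) hxr
      (fun y hy hyr => by
        have h2 := hT y hy hyr
        have h3 : min (f y - T) 0 + 2 * θ * ω * b y ≤ ψ y := le_max_left _ _
        rw [min_eq_left (by linarith)] at h3
        simp only [hadef]
        linarith)
      (fun y hy hyZ => by
        have h2 := hψ0 y
        have h3 := hbb y
        have h4 := hyZ.2
        refine ⟨by simp only [hadef]; linarith, ?_⟩
        have h5 := hΛ.dist_le_mul x (hball x (by linarith)) y (hball y hyZ.1)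
        rw [Real.dist_eq, dist_eq_norm] at h5
        have h6 := le_abs_self (f x - f y)
        have h7 := hbb x
        by_contra h8
        push Not at h8
        have h9 := mul_le_mul_of_nonneg_left h8.le hΛ0
        nlinarith)
      (fun y hy hyr hyρ => by
        have h2 := hT' y hy hyr hyρ
        have h3 : b y = 0 := bmp_off x₁ hr' y (by linarith)
        have h4 := hψ0 y
        simp only [hadef, h3]
        linarith)
      (htail d μ x₁ r hu hr).1 (htail d μ x₁ r hu hr).2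
    have h2 : -LL n μ t (8 * ρ) a x = ∫ y, a y * kk n t (8 * ρ) (x - y) ∂μ := by
      rw [LL, ← integral_neg]
      congr 1
      funext y
      rw [hax]
      ring
    have h3 := hb d μ x₁ x (3 * r / 4) t (8 * ρ) hu hR ht htr (by linarith) hx
    have h4 := mul_le_mul_of_nonneg_left h3 (show 0 ≤ 2 * θ * ω by positivity)
    have e1 : ω / 4 * ((2 * r) ^ (n + 1))⁻¹ * (r ^ n / C / 2) = κ * (ω / r) := by
      rw [hκ, mul_pow]
      field_simp
      ring
    have e2 : 2 * θ * ω * (c₀ / (3 * r / 4)) = θ * (8 / 3 * c₀) * (ω / r) := by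
      field_simp
      ring
    have e3 : ω * γ * (4 * 4 ^ (n + 1) * c₁) / r = γ * (4 * 4 ^ (n + 1) * c₁) * (ω / r) := by
      ring
    have h5 : θ * (8 / 3 * c₀) ≤ γ * (3 * c₀) := mul_le_mul hθ (by linarith) (by positivity) hγ0.le
    have h6 : γ * (4 * 4 ^ (n + 1) * c₁) + θ * (8 / 3 * c₀) ≤ κ / 4 := by
      rw [hK] at hγK
      linarith
    have h7 := mul_le_mul_of_nonneg_right h6 (show 0 ≤ ω / r by positivity)
    rw [e1, e3] at h1
    rw [e2] at h4
    rw [h2]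
    linarith
  -- the decomposition of the form
  have hsq : 0 ≤ EE n μ t (8 * ρ) ψ ψ := by
    have h1 := (EE_symm hu ht hρ0 hψc hψc htest.2).2
    have h2 : 0 ≤ ∫ p : X d × X d, (ψ p.1 - ψ p.2) * ((ψ p.1 - ψ p.2) *
        kk n t (8 * ρ) (p.1 - p.2)) ∂μ.prod μ := integral_nonneg fun p => by
      rw [← mul_assoc]
      exact mul_nonneg (mul_self_nonneg _) (kk_nonneg ht (by linarith) _)
    linarith
  have hdec : EE n μ t (8 * ρ) f ψ = EE n μ t (8 * ρ) ψ ψ - EE n μ t (8 * ρ) a ψ -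
      2 * θ * ω * EE n μ t (8 * ρ) b ψ := by
    rw [← EE_mul_left, ← EE_sub_left hu ht hρ0 hψc hac hψi hoff,
      ← EE_sub_left hu ht hρ0 (f := fun x => ψ x - a x) (hψc.sub hac) (by fun_prop) hψi hoff,
      ← EE_sub_const T]
    congr 1
    funext y
    simp only [hadef]
    ring
  have ia := integrable_EE hu ht hρ0 hac hψi hoff
  have ib := integrable_EE hu ht hρ0 hbc hψi hoff
  have hint : 3 * κ / 4 * (ω / r) * ∫ y, ψ y ∂μ ≤
      -EE n μ t (8 * ρ) a ψ - 2 * θ * ω * EE n μ t (8 * ρ) b ψ := by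
    have ia' : Integrable (fun x => -(ψ x * LL n μ t (8 * ρ) a x)) μ := ia.neg
    rw [EE, EE, ← integral_neg, ← integral_const_mul, ← integral_const_mul,
      ← integral_sub ia' (ib.const_mul _)]
    refine integral_mono_ae (hψi.const_mul _) (ia'.sub (ib.const_mul _)) ?_
    filter_upwards [Measure.support_mem_ae (μ := μ)] with x hx
    rcases (hψ0 x).eq_or_lt with h | h
    · simp [← h]
    · have := mul_le_mul_of_nonneg_left (hlow x hx h) h.le
      linarith
  have hG' : G ≤ κ / 2 * (ω / r) := by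
    have : 2 / κ * G * r * (κ / 2 / r) ≤ ω * (κ / 2 / r) :=
      mul_le_mul_of_nonneg_right hGω (by positivity)
    have e : 2 / κ * G * r * (κ / 2 / r) = G := by field_simp
    rw [e] at this
    calc G ≤ ω * (κ / 2 / r) := this
      _ = _ := by ring
  have h1 := mul_le_mul_of_nonneg_right hG' hpos.le
  have h2 : 0 < κ * (ω / r) * ∫ y, ψ y ∂μ := by positivity
  linarith

end Crest.Agent.R085
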