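import Crest.Agent.R085.HolB

/-! Row 85. Hölder estimate, III: iteration. -/

set_option autoImplicit false

open MeasureTheory Set Filter Topology Metric
open scoped ENNReal NNReal

noncomputable section

namespace Crest.Agent.R085

/-- the abstract iteration. -/
theorem HolC_iter {α : Type*} (S : Set α) (f δ : α → ℝ) {ρ γ ω₀ : ℝ} (hρ : 0 < ρ) (hγ : 0 < γ)
    (hω₀ : 0 < ω₀) (_hδ : ∀ y, 0 ≤ δ y) (h0 : ∀ y ∈ S, δ y < 17 * ρ → |f y| ≤ ω₀ / 2)
    (hstep : ∀ (i : ℕ) (m ω : ℝ), ω = ω₀ * (2 ^ (-γ)) ^ i →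
      (∀ y ∈ S, δ y < ρ / 2 ^ i → m ≤ f y ∧ f y ≤ m + ω) →
      (∀ y ∈ S, ρ / 2 ^ i ≤ δ y → δ y < 17 * ρ →
        m + ω - ω₀ * (2 * δ y / ρ) ^ γ ≤ f y ∧ f y ≤ m + ω₀ * (2 * δ y / ρ) ^ γ) →
      (∀ y ∈ S, δ y < ρ / 2 ^ i / 2 → f y ≤ m + ω - (1 - 2 ^ (-γ)) * ω) ∨
        (∀ y ∈ S, δ y < ρ / 2 ^ i / 2 → m + (1 - 2 ^ (-γ)) * ω ≤ f y)) (i : ℕ) :
    ∃ m : ℝ, (∀ y ∈ S, δ y < ρ / 2 ^ i → m ≤ f y ∧ f y ≤ m + ω₀ * (2 ^ (-γ)) ^ i) ∧
      (∀ y ∈ S, ρ / 2 ^ i ≤ δ y → δ y < 17 * ρ →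
        m + ω₀ * (2 ^ (-γ)) ^ i - ω₀ * (2 * δ y / ρ) ^ γ ≤ f y ∧
          f y ≤ m + ω₀ * (2 * δ y / ρ) ^ γ) := by
  have hβ0 : (0 : ℝ) < 2 ^ (-γ) := by positivity
  have hβ1 : (2 : ℝ) ^ (-γ) ≤ 1 := Real.rpow_le_one_of_one_le_of_nonpos (by norm_num) (by linarith)
  induction i with
  | zero =>
    refine ⟨-(ω₀ / 2), fun y hy hd => ?_, fun y hy hd hd' => ?_⟩
    · have := abs_le.1 (h0 y hy (by simp at hd; linarith))
      simp only [pow_zero, mul_one]; constructor <;> linarith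
    · have := abs_le.1 (h0 y hy hd')
      have h1 : 1 ≤ (2 * δ y / ρ) ^ γ := by
        refine Real.one_le_rpow ?_ hγ.le
        simp at hd
        rw [le_div_iff₀ hρ]; linarith
      simp only [pow_zero, mul_one]; constructor <;> nlinarith
  | succ i ih =>
    obtain ⟨m, h1, h2⟩ := ih
    set β : ℝ := 2 ^ (-γ) with hβ
    set ω := ω₀ * β ^ i with hω
    have hωpos : 0 < ω := by positivity
    have hω' : ω₀ * β ^ (i + 1) = β * ω := by rw [hω]; ring
    have hr : ρ / 2 ^ (i + 1) = ρ / 2 ^ i / 2 := by rw [pow_succ, div_div]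
    have hri : 0 < ρ / 2 ^ i := by positivity
    have hA : ∀ y, ρ / 2 ^ i / 2 ≤ δ y → ω ≤ ω₀ * (2 * δ y / ρ) ^ γ := by
      intro y hy
      refine mul_le_mul_of_nonneg_left ?_ hω₀.le
      have e : β ^ i = ((1 / 2 : ℝ) ^ i) ^ γ := by
        rw [hβ, ← Real.rpow_natCast, ← Real.rpow_natCast, ← Real.rpow_mul (by norm_num),
          ← Real.rpow_mul (by norm_num), one_div, Real.inv_rpow (by norm_num),
          ← Real.rpow_neg (by norm_num)]
        congr 1; ring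
      rw [e]
      refine Real.rpow_le_rpow (by positivity) ?_ hγ.le
      rw [le_div_iff₀ hρ]
      have : (1 / 2 : ℝ) ^ i * ρ = ρ / 2 ^ i := by rw [one_div, inv_pow]; field_simp
      linarith
    have hout : ∀ m' : ℝ, m ≤ m' → m' + β * ω ≤ m + ω → ∀ y ∈ S, ρ / 2 ^ i / 2 ≤ δ y →
        δ y < 17 * ρ → m' + β * ω - ω₀ * (2 * δ y / ρ) ^ γ ≤ f y ∧
          f y ≤ m' + ω₀ * (2 * δ y / ρ) ^ γ := by
      intro m' hm1 hm2 y hy hd hd'
      rcases lt_or_ge (δ y) (ρ / 2 ^ i) with h | h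
      · have := h1 y hy h
        have := hA y hd
        constructor <;> linarith
      · have := h2 y hy h hd'
        constructor <;> linarith
    rw [hω', hr]
    rcases hstep i m ω rfl h1 h2 with h | h
    · refine ⟨m, fun y hy hd => ⟨(h1 y hy (by linarith)).1, by linarith [h y hy hd]⟩,
        hout m le_rfl (by nlinarith)⟩
    · refine ⟨m + (1 - β) * ω, fun y hy hd => ⟨h y hy hd, by linarith [(h1 y hy (by linarith)).2]⟩,
        hout _ (by nlinarith) (by linarith)⟩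

/-- Fix `x₁ = x`, `r i = ρ / 2 ^ i`, `ω i = ω₀ 2 ^ (-γ i)` with `ω₀ = c' M` so large that
`|f| ≤ ω₀ / 2` on the support in `ball x₀ (18 ρ)` and `c G ρ ≤ ω₀`, `G = c'' M / ρ` (`local_eq`).
Construct nested intervals `[m i, m i + ω i]` containing the values of `f` on the support in
`ball x₁ (r i)`: one of the sets `{f ≤ m + ω / 2}`, `{m + ω / 2 ≤ f}` has half of the measure of
the ball; apply `sup_step` to `f` or to `-f`.  (If `M = 0`, then `f = 0` on the support.) -/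
theorem holder (n : ℕ) {C C₁ : ℝ} (hC : 1 ≤ C) (hC₁ : 0 ≤ C₁) : ∃ γ c : ℝ, 0 < γ ∧ γ ≤ 1 / 2 ∧
    0 < c ∧ ∀ (d : ℕ) (μ : Measure (X d)) (f : X d → ℝ) (x₀ : X d) (ρ M : ℝ), Up n C μ →
      (∀ D, Lo n C D μ) → RB n C₁ μ → LocLip f → Harm n μ f → x₀ ∈ μ.support → 0 < ρ → 0 ≤ M →
      Gr μ f x₀ ρ M → ∀ x ∈ μ.support, ∀ y ∈ μ.support, dist x x₀ < ρ → dist y x₀ < ρ →
      |f x - f y| ≤ c * M * (‖x - y‖ / ρ) ^ γ := by
  obtain ⟨γ, c, hγ, hγ2, hc, Hs⟩ := sup_step n hC hC₁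
  obtain ⟨c', hc', Hl⟩ := local_eq n hC hC₁
  have hw := wt_pos 18
  refine ⟨γ, 2 * (c * c' + 2 * wt 18), hγ, hγ2, by positivity,
    fun d μ f x₀ ρ M hu hlo hrb hf hh hx₀ hρ hM hg x hx y hy hxx hyx => ?_⟩
  rcases hM.eq_or_lt with rfl | hM0
  · have h1 := hg x hx
    have h2 := hg y hy
    rw [zero_mul, abs_nonpos_iff] at h1 h2
    simp [h1, h2]
  rcases eq_or_ne x y with rfl | hne
  · simp only [sub_self, abs_zero]; positivity
  set ω₀ := (c * c' + 2 * wt 18) * M with hω₀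
  have hω0 : 0 < ω₀ := by positivity
  have hβ0 : (0 : ℝ) < 2 ^ (-γ) := by positivity
  have hβh : (1 / 2 : ℝ) ≤ 2 ^ (-γ) := by
    rw [one_div, ← Real.rpow_neg_one]
    exact Real.rpow_le_rpow_of_exponent_le (by norm_num) (by linarith)
  have hfn : LocLip fun z => -1 * f z := fun R => by
    obtain ⟨Λ, hΛ⟩ := hf R
    refine ⟨Λ, LipschitzOnWith.of_dist_le_mul fun a ha b hb => ?_⟩
    have := hΛ.dist_le_mul a ha b hb
    simpa [dist_neg_neg] using this
  have key := HolC_iter μ.support f (fun z => dist z x) hρ hγ hω0 (fun _ => dist_nonneg) ?_ ?_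
  · have hd : 0 < dist y x := dist_pos.2 hne.symm
    obtain ⟨i, hi⟩ := pow_unbounded_of_one_lt (ρ / dist y x) (by norm_num : (1 : ℝ) < 2)
    obtain ⟨m, h1, h2⟩ := key i
    have h3 := h1 x hx (by simp only [dist_self]; positivity)
    have hyx2 : dist y x < 2 * ρ := by
      linarith [dist_triangle_right y x x₀]
    have h4 := h2 y hy (by
      rw [div_le_iff₀ (by positivity)]
      rw [div_lt_iff₀ hd] at hi
      linarith) (by linarith)
    have h5 : (2 * dist y x / ρ) ^ γ ≤ 2 * (‖x - y‖ / ρ) ^ γ := by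
      rw [mul_div_assoc, Real.mul_rpow (by norm_num) (by positivity), dist_comm, dist_eq_norm]
      refine mul_le_mul_of_nonneg_right ?_ (by positivity)
      calc (2 : ℝ) ^ γ ≤ 2 ^ (1 : ℝ) :=
            Real.rpow_le_rpow_of_exponent_le (by norm_num) (by linarith)
        _ = 2 := Real.rpow_one 2
    have h6 := mul_le_mul_of_nonneg_left h5 hω0.le
    have h7 : 2 * (c * c' + 2 * wt 18) * M * (‖x - y‖ / ρ) ^ γ = ω₀ * (2 * (‖x - y‖ / ρ) ^ γ) := by
      rw [hω₀]; ring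
    rw [h7, abs_le]
    constructor <;> linarith [h3.1, h3.2, h4.1, h4.2]
  · intro z hz hd
    have h1 : ‖z - x₀‖ / ρ ≤ 18 := by
      rw [div_le_iff₀ hρ, ← dist_eq_norm]
      linarith [dist_triangle z x x₀]
    have h2 := mul_le_mul_of_nonneg_left (wt_mono h1) hM
    have h3 := hg z hz
    have h4 : 0 < c * c' * M := by positivity
    rw [hω₀]; linarith
  · intro i m ω hω h1 h2
    set r := ρ / 2 ^ i with hr
    have hr0 : 0 < r := by positivity
    have hrρ : r ≤ ρ := div_le_self hρ.le (one_le_pow₀ (by norm_num))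
    have hωpos : 0 < ω := by rw [hω]; positivity
    have hG : c * (c' * (M / ρ)) * r ≤ ω := by
      have e : c * (c' * (M / ρ)) * r = c * c' * M * (1 / 2) ^ i := by
        rw [hr, one_div, inv_pow]; field_simp
      rw [e, hω]
      refine mul_le_mul ?_ (pow_le_pow_left₀ (by norm_num) hβh i) (by positivity) hω0.le
      rw [hω₀]; nlinarith [mul_pos hw hM0]
    have hA : ∀ z, ω * (2 * dist z x / r) ^ γ = ω₀ * (2 * dist z x / ρ) ^ γ := by
      intro z
      have e : 2 * dist z x / r = 2 * dist z x / ρ * 2 ^ i := by rw [hr]; field_simp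
      have e2 : ((2 : ℝ) ^ (-γ)) ^ i * ((2 : ℝ) ^ i) ^ γ = 1 := by
        rw [← Real.rpow_natCast, ← Real.rpow_natCast, ← Real.rpow_mul (by norm_num),
          ← Real.rpow_mul (by norm_num), ← Real.rpow_add (by norm_num)]
        rw [show -γ * i + i * γ = 0 by ring, Real.rpow_zero]
      rw [e, Real.mul_rpow (by positivity) (by positivity), hω]
      linear_combination (ω₀ * (2 * dist z x / ρ) ^ γ) * e2
    have hE : ∀ ψ : X d → ℝ, Test ψ → (∀ y, 0 ≤ ψ y) → Off ψ x r → ∀ ζ : ℝ, 0 < ζ →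
        ∀ᶠ t in 𝓝[>] (0 : ℝ), |EE n μ t (8 * ρ) f ψ| ≤ c' * (M / ρ) * (∫ y, ψ y ∂μ) + ζ := by
      intro ψ hψ h0 ho ζ hζ
      have := Hl d μ f x₀ ρ M hu hlo hrb hf.continuous hh hx₀ hρ hM hg ψ hψ
        (ho.mono (by linarith)) ζ hζ
      simpa only [abs_of_nonneg (h0 _)] using this
    have hcov : μ.real (ball x r) ≤ μ.real {y | y ∈ ball x r ∧ f y ≤ m + ω - ω / 2} +
        μ.real {y | y ∈ ball x r ∧ -1 * f y ≤ -m - ω / 2} := by
      refine le_trans (measureReal_mono ?_ ?_) (measureReal_union_le _ _)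
      · intro z hz
        rcases le_total (f z) (m + ω - ω / 2) with h | h
        · exact Or.inl ⟨hz, h⟩
        · exact Or.inr ⟨hz, by linarith⟩
      · exact hu.ne_top (isBounded_ball.subset (union_subset (fun _ h => h.1) fun _ h => h.1))
    rcases le_total (μ.real (ball x r) / 2)
      (μ.real {y | y ∈ ball x r ∧ f y ≤ m + ω - ω / 2}) with hm | hm
    · left
      refine Hs d μ f x r ρ (c' * (M / ρ)) (m + ω) ω hu hlo hrb hf hx hr0 hrρ (by positivity)
        hωpos hG (fun ψ hψ h0 ho ζ hζ => (hE ψ hψ h0 ho ζ hζ).mono fun t ht => (le_abs_self _).trans ht)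
        (fun z hz hd => (h1 z hz hd).2) (fun z hz hd hd' => ?_) hm
      have := (h2 z hz hd hd').2
      have := hA z
      linarith
    · right
      intro z hz hd
      have := Hs d μ (fun z => -1 * f z) x r ρ (c' * (M / ρ)) (-m) ω hu hlo hrb hfn hx hr0 hrρ
        (by positivity) hωpos hG (fun ψ hψ h0 ho ζ hζ => (hE ψ hψ h0 ho ζ hζ).mono fun t ht => by
          rw [EE_mul_left]; linarith [neg_abs_le (EE n μ t (8 * ρ) f ψ)])
        (fun z hz hd => by linarith [(h1 z hz hd).1]) (fun z hz hd hd' => by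
          have := (h2 z hz hd hd').1
          have := hA z
          linarith) (by linarith) z hz hd
      linarith

end Crest.Agent.R085
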