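import Crest.Agent.R085.VagB
import Crest.Agent.R085.Scale

/-! Row 85. Blow-up of Hölder functions defined on the supports. -/

set_option autoImplicit false

open MeasureTheory Set Filter Topology Metric
open scoped ENNReal NNReal

noncomputable section

namespace Crest.Agent.R085

variable {n d : ℕ} {C : ℝ} {μs : ℕ → Measure (X d)} {μ : Measure (X d)}

/-- `F u` is the limit along `UU` of `fs j (ys j)` for a sequence `ys j → ι u` of points of the
supports (`VL.seq`).  Uniform convergence: otherwise take bad points `y j`, their limit lies in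
the support of `μ` (`VL.mem`). -/
theorem blow_fun (h : VL μs μ) (hC : 1 ≤ C) (hu : Up n C μ) (hus : ∀ j, Up n C (μs j))
    (hl : ∀ j D, Lo n C D (μs j)) {ι : X n →ₗᵢ[ℝ] X d} (h1 : ∀ y ∈ μ.support, ∃ u, ι u = y)
    (h2 : ∀ u, ι u ∈ μ.support) (h0 : ∀ j, (0 : X d) ∈ (μs j).support) {fs : ℕ → X d → ℝ}
    (hf0 : ∀ j, fs j 0 = 0) (hg : ∀ j, Gr (μs j) (fs j) 0 1 1) {γ : ℝ} (hγ : 0 < γ)
    (hH : ∀ R : ℝ, ∃ H : ℝ, 0 ≤ H ∧ ∀ j, ∀ x ∈ (μs j).support, ∀ y ∈ (μs j).support, ‖x‖ < R →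
      ‖y‖ < R → |fs j x - fs j y| ≤ H * ‖x - y‖ ^ γ) :
    ∃ F : X n → ℝ, Continuous F ∧ F 0 = 0 ∧ (∀ u, |F u| ≤ wt ‖u‖) ∧
      ∀ R ζ : ℝ, 0 < ζ → ∀ᶠ j in (UU : Filter ℕ), ∀ y ∈ (μs j).support, ‖y‖ ≤ R →
        |fs j y - F (pr ι y)| ≤ ζ := by
  choose ys hys hlim using fun u => h.seq hu (h2 u)
  have hgr : ∀ u, ∀ᶠ j in (UU : Filter ℕ), |fs j (ys u j)| ≤ wt ‖ys u j‖ := fun u =>
    (hys u).mono fun j hj => by simpa using hg j _ hj
  have hw : ∀ u, Tendsto (fun j => wt ‖ys u j‖) UU (𝓝 (wt ‖u‖)) := fun u => by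
    simpa only [LinearIsometry.norm_map, Function.comp_def] using
      (continuous_wt.tendsto _).comp (hlim u).norm
  have hex : ∀ u, ∃ a : ℝ, Tendsto (fun j => fs j (ys u j)) UU (𝓝 a) := fun u => by
    obtain ⟨a, -, ha⟩ := (isCompact_Icc (a := -(wt ‖u‖ + 1)) (b := wt ‖u‖ + 1)).ultrafilter_le_nhds
      (UU.map fun j => fs j (ys u j)) (le_principal_iff.2 (mem_map.2 (by
        filter_upwards [hgr u, (hw u).eventually (gt_mem_nhds (lt_add_one _))] with j a b
        exact abs_le.1 (a.trans b.le))))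
    exact ⟨a, ha⟩
  choose F hF using hex
  choose H hH0 hH using hH
  have hol : ∀ {R : ℝ} {zs ws : ℕ → X d} {z w : X d}, Tendsto zs UU (𝓝 z) → Tendsto ws UU (𝓝 w) →
      (∀ᶠ j in (UU : Filter ℕ), zs j ∈ (μs j).support) →
      (∀ᶠ j in (UU : Filter ℕ), ws j ∈ (μs j).support) → ‖z‖ < R → ‖w‖ < R →
      (∀ᶠ j in (UU : Filter ℕ), |fs j (zs j) - fs j (ws j)| ≤ H R * ‖zs j - ws j‖ ^ γ) ∧
        Tendsto (fun j => H R * ‖zs j - ws j‖ ^ γ) UU (𝓝 (H R * ‖z - w‖ ^ γ)) := by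
    intro R zs ws z w hz hw hzs hws hzR hwR
    refine ⟨?_, ((hz.sub hw).norm.rpow_const (Or.inr hγ.le)).const_mul _⟩
    filter_upwards [hzs, hws, hz.norm.eventually (gt_mem_nhds hzR),
      hw.norm.eventually (gt_mem_nhds hwR)] with j a b c e
    exact hH R j _ a _ b c e
  have key : ∀ u {zs : ℕ → X d}, Tendsto zs UU (𝓝 (ι u)) →
      (∀ᶠ j in (UU : Filter ℕ), zs j ∈ (μs j).support) →
      Tendsto (fun j => fs j (zs j)) UU (𝓝 (F u)) := by
    intro u zs hz hzs
    obtain ⟨a, b⟩ := hol hz (hlim u) hzs (hys u) (lt_add_one _) (lt_add_one _)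
    rw [sub_self, norm_zero, Real.zero_rpow hγ.ne', mul_zero] at b
    simpa using (squeeze_zero_norm' a b).add (hF u)
  have hc : Continuous F := by
    refine continuous_iff_continuousAt.2 fun u => tendsto_sub_nhds_zero_iff.1
      (squeeze_zero_norm' (a := fun v => H (‖u‖ + 1) * ‖v - u‖ ^ γ) ?_ ?_)
    · filter_upwards [continuous_norm.continuousAt.eventually (gt_mem_nhds (lt_add_one ‖u‖))]
        with v hv
      obtain ⟨a, b⟩ := hol (R := ‖u‖ + 1) (hlim v) (hlim u) (hys v) (hys u) (by simpa using hv)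
        (by simp)
      rw [← map_sub, LinearIsometry.norm_map] at b
      exact le_of_tendsto_of_tendsto ((hF v).sub (hF u)).abs b a
    · simpa [Real.zero_rpow hγ.ne'] using (((tendsto_id.sub_const u).norm.rpow_const
        (Or.inr hγ.le)).const_mul (H (‖u‖ + 1)) : Tendsto _ (𝓝 u) _)
  refine ⟨F, hc, ?_, fun u => le_of_tendsto_of_tendsto (hF u).abs (hw u) (hgr u),
    fun R ζ hζ => ?_⟩
  · have := key 0 (zs := fun _ => 0) (by rw [map_zero]; exact tendsto_const_nhds)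
      (Eventually.of_forall h0)
    simp only [hf0] at this
    exact tendsto_nhds_unique this tendsto_const_nhds
  · by_contra hn
    rw [← Ultrafilter.eventually_not] at hn
    simp only [not_forall, not_le, exists_prop] at hn
    obtain ⟨zs, hzs⟩ := hn.choice
    obtain ⟨y, -, hy⟩ := exists_lim (hzs.mono fun j hj => hj.2.1)
    obtain ⟨u, rfl⟩ := h1 y (h.mem hC hus (Eventually.of_forall fun j => hl j 1)
      (hzs.mono fun j hj => hj.1) hy)
    have a := ((key u hy (hzs.mono fun j hj => hj.1)).sub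
      (((hc.comp (pr ι).continuous).tendsto _).comp hy)).abs
    simp only [Function.comp_apply, pr_iso, sub_self, abs_zero] at a
    exact (ge_of_tendsto a (hzs.mono fun j hj => hj.2.2.le)).not_gt hζ

theorem EE_plane {θ : ℝ≥0} (ι : X n →ₗᵢ[ℝ] X d) (t s : ℝ) {f ψ : X d → ℝ} :
    EE n (θ • (volume : Measure (X n)).map ι) t s f ψ =
      (θ : ℝ) ^ 2 * EE n volume t s (fun u => f (ι u)) fun u => ψ (ι u) := by
  have he := ι.isometry.isClosedEmbedding.measurableEmbedding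
  simp only [EE, LL, integral_smul_nnreal_measure, he.integral_map, ← map_sub, kk_iso,
    NNReal.smul_def, smul_eq_mul]
  simp only [mul_left_comm _ (θ : ℝ), integral_const_mul]
  ring

end Crest.Agent.R085
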