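import Crest.Agent.R085.ImpA

/-! Row 85. The blow-up limit is harmonic. -/

set_option autoImplicit false

open MeasureTheory Set Filter Topology Metric
open scoped ENNReal NNReal

noncomputable section

namespace Crest.Agent.R085

variable {n d : ℕ} {C : ℝ} {μs : ℕ → Measure (X d)}

theorem ImpB_small {μ : Measure (X d)} (hu : Up n C μ) (hC : 0 ≤ C) {t s ρ B ζ : ℝ} (ht : 0 < t)
    (hts : t ≤ s) (hρ : 0 < ρ) (hB : 0 ≤ B) (hζ : 0 ≤ ζ) {g φ : X d → ℝ} (ho : Off φ 0 ρ)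
    (hφ : ∀ y, |φ y| ≤ B) (hg : ∀ y ∈ μ.support, ‖y‖ ≤ ρ + 2 * s → |g y| ≤ ζ) :
    |EE n μ t s g φ| ≤ ζ * (B * (2 * (t ^ (n + 1))⁻¹ * (C * (2 * s) ^ n)) * (C * ρ ^ n)) := by
  have hs : 0 < s := ht.trans_le hts
  have hL : ∀ x ∈ μ.support, ‖x‖ < ρ →
      |LL n μ t s g x| ≤ 2 * ζ * (t ^ (n + 1))⁻¹ * (C * (2 * s) ^ n) := by
    intro x hx hxρ
    refine (abs_integral_le_integral_abs).trans ?_
    refine hu.integral_abs_le hC (x := x) (by positivity) (by positivity) (fun y hy => ?_)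
      (fun y hy => ?_)
    · rw [kk_zero_of_ge ht hts (by rwa [dist_comm, dist_eq_norm] at hy), mul_zero]
    · by_cases hxy : 2 * s ≤ ‖x - y‖
      · rw [kk_zero_of_ge ht hts hxy, mul_zero, abs_zero]; positivity
      · rw [abs_mul]
        refine mul_le_mul ?_ (abs_kk_le' ht hts _) (abs_nonneg _) (by positivity)
        have h1 := hg x hx (by linarith)
        have h2 : ‖y‖ ≤ ‖x‖ + ‖x - y‖ := by
          have := norm_sub_le x (x - y)
          rwa [sub_sub_cancel] at this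
        have h3 := hg y hy (by linarith)
        have := abs_sub (g x) (g y)
        linarith
  refine (abs_integral_le_integral_abs).trans ?_
  refine (hu.integral_abs_le hC (x := 0)
    (B := B * (2 * ζ * (t ^ (n + 1))⁻¹ * (C * (2 * s) ^ n))) hρ (by positivity)
    (fun y hy => by simp only [ho y hy, zero_mul]) (fun y hy => ?_)).trans (le_of_eq (by ring))
  by_cases hy' : ρ ≤ dist y 0
  · simp only [ho y hy', zero_mul, abs_zero]; positivity
  · rw [abs_mul]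
    exact mul_le_mul (hφ y) (hL y hy (by simpa using hy')) (abs_nonneg _) hB

theorem ImpB_unif (n : ℕ) (hC : 1 ≤ C) {γ : ℝ} (hγ : 0 < γ) {R H B : ℝ} (hR : 1 ≤ R) (hH : 0 ≤ H)
    (hB : 0 ≤ B) (Λ : ℝ≥0) : ∃ c₁ c₂ : ℝ, ∀ (μ : Measure (X d)) (f φ : X d → ℝ), Up n C μ →
      Continuous f → Harm n μ f → Gr μ f 0 1 1 →
      (∀ x ∈ μ.support, ∀ y ∈ μ.support, ‖x‖ < 2 * R + 2 → ‖y‖ < 2 * R + 2 →
        |f x - f y| ≤ H * ‖x - y‖ ^ γ) → LipschitzWith Λ φ → Off φ 0 (2 * R) →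
      (∀ y, |φ y| ≤ B) → ∫ y, φ y ∂μ = 0 → ∀ t s : ℝ, 0 < t → t ≤ 1 → 8 * R ≤ s →
      |EE n μ t s f φ| ≤ c₁ * t ^ γ + c₂ / √s := by
  obtain ⟨c, hc, hnear⟩ := near_bound n hC hγ
  obtain ⟨c', hc', hfar⟩ := far_bound n hC
  have hR0 : 0 < R := by linarith
  refine ⟨c * H * Λ * (2 * R + 2) ^ n, c' * R * (B * (C * (2 * R) ^ n)), ?_⟩
  intro μ f φ hu hf hh hg hhol hΛ ho hφ hm t s ht ht1 hs
  have hs0 : 0 < s := by linarith
  have hT : Test φ := ⟨⟨Λ, hΛ⟩, ho.hasCompactSupport⟩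
  have hi : Integrable φ μ := hu.integrable hT.continuous hT.2
  have hg' : Gr μ f 0 R (R * √R) := by
    intro y hy
    have h1 := hg y hy
    have h2 := wt_mul_le (u := ‖y - 0‖ / R) hR
    rw [mul_div_cancel₀ _ hR0.ne'] at h2
    rw [div_one, one_mul] at h1
    exact h1.trans h2
  have hlim := ((hh φ hT hm).abs.add_const
    (c * H * Λ * (2 * R + 2) ^ n * t ^ γ + c' * R * (B * (C * (2 * R) ^ n)) / √s))
  rw [abs_zero, zero_add] at hlim
  refine ge_of_tendsto hlim ?_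
  filter_upwards [FF_ev ht s] with p hp
  obtain ⟨hp0, hp1, hp2⟩ := hp
  have hs' : 0 < p.2 := by linarith
  have e1 := EE_split hu hp0 ht hs' hf hi ho
  have e2 := EE_split hu ht hs0 hs' hf hi ho
  have b1 := hnear d μ f φ 0 (2 * R) H p.1 t Λ hu hf hΛ ho (by linarith) hH hp0 hp1
    (fun x hx y hy h1 h2 => hhol x hx y hy (by rw [dist_zero_right] at h1; linarith)
      (by rw [dist_zero_right] at h2; linarith))
  have b2 := hfar d μ f φ 0 R (R * √R) s p.2 hu hf hR0 (by positivity) hg' hs hp2 hi ho hm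
  have b3 := hu.integral_abs_le (by linarith) (by linarith : 0 < 2 * R) hB ho fun y _ => hφ y
  have b4 : c * H * Λ * t ^ γ * (2 * R + 2 * t) ^ n ≤ c * H * Λ * (2 * R + 2) ^ n * t ^ γ := by
    rw [mul_right_comm]
    gcongr
    linarith
  have b5 : c' * (R * √R / R) * √(R / s) * ∫ y, |φ y| ∂μ
      ≤ c' * R * (B * (C * (2 * R) ^ n)) / √s := by
    have : c' * (R * √R / R) * √(R / s) = c' * R / √s := by
      rw [mul_div_cancel_left₀ _ hR0.ne', Real.sqrt_div hR0.le, mul_assoc, ← mul_div_assoc,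
        Real.mul_self_sqrt hR0.le, mul_div_assoc]
    rw [this, div_mul_eq_mul_div]
    gcongr
  have e3 : EE n μ t s f φ = EE n μ p.1 p.2 f φ - EE n μ p.1 t f φ - EE n μ s p.2 f φ := by
    linarith
  have := abs_sub (EE n μ p.1 p.2 f φ - EE n μ p.1 t f φ) (EE n μ s p.2 f φ)
  have := abs_sub (EE n μ p.1 p.2 f φ) (EE n μ p.1 t f φ)
  rw [e3]
  linarith

/-- Let `ψ'` be a test function on `X n` of mean zero, `ψ y = ψ' (pr ι y) * cut 0 R y` with `R`
large, `ψ j = ψ - a j * bmp 0 1` of mean zero for `μs j`, `a j → 0`.  By `Harm`, `near_bound`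
(`a = γ`) and `far_bound`: `|EE (μs j) t s (fs j) (ψ j)| ≤ c₁ t ^ γ + c₂ / √s` uniformly in `j`.
For fixed `t, s` replace `fs j` by `F ∘ pr ι` (uniform closeness on a ball), let `j → UU`
(`VL.EE`, `EE_plane`), then `FF_err`. -/
theorem blow_harm (hC : 1 ≤ C) {ι : X n →ₗᵢ[ℝ] X d} {θ : ℝ≥0} (hθ : 0 < θ)
    (h : VL μs (θ • (volume : Measure (X n)).map ι))
    (hu : Up n C (θ • (volume : Measure (X n)).map ι)) (hus : ∀ j, Up n C (μs j))
    (hl : ∀ j D, Lo n C D (μs j)) (h0 : ∀ j, (0 : X d) ∈ (μs j).support) {fs : ℕ → X d → ℝ}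
    (hc : ∀ j, Continuous (fs j)) (hh : ∀ j, Harm n (μs j) (fs j))
    (hg : ∀ j, Gr (μs j) (fs j) 0 1 1) {γ : ℝ} (hγ : 0 < γ)
    (hH : ∀ R : ℝ, ∃ H : ℝ, 0 ≤ H ∧ ∀ j, ∀ x ∈ (μs j).support, ∀ y ∈ (μs j).support, ‖x‖ < R →
      ‖y‖ < R → |fs j x - fs j y| ≤ H * ‖x - y‖ ^ γ)
    {F : X n → ℝ} (hF : Continuous F)
    (hcv : ∀ R ζ : ℝ, 0 < ζ → ∀ᶠ j in (UU : Filter ℕ), ∀ y ∈ (μs j).support, ‖y‖ ≤ R →
      |fs j y - F (pr ι y)| ≤ ζ) : Harm n (volume : Measure (X n)) F := by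
  intro ψ' hψ' hm
  have hC0 : 0 ≤ C := by linarith
  obtain ⟨R, hR, ho'⟩ := exists_off hψ'.2 0
  have hR0 : 0 < R := by linarith
  set ψ : X d → ℝ := fun y => ψ' (pr ι y) * cut 0 R y with hψdef
  have hψι : ∀ u, ψ (ι u) = ψ' u := by
    intro u
    simp only [hψdef, pr_iso]
    by_cases hu' : R ≤ dist u 0
    · rw [ho' u hu', zero_mul]
    · rw [cut_one hR0 (by rw [dist_zero_right] at hu' ⊢; rw [ι.norm_map]; linarith), mul_one]
  have hT : Test ψ := by
    refine LocLip.mul_test (fun R' => ?_) (cut_test 0 hR0)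
    obtain ⟨Λ, hΛ⟩ := hψ'.1
    exact ⟨_, (hΛ.comp (pr ι).lipschitz).lipschitzOnWith⟩
  have ho : Off ψ 0 (2 * R) := fun y hy => by
    simp only [hψdef, cut_off 0 hR0 y hy, mul_zero]
  obtain ⟨Λ, hΛ⟩ := hT.1
  obtain ⟨B, hB⟩ := hT.continuous.bounded_above_of_compact_support hT.2
  have hB0 : 0 ≤ B := (norm_nonneg _).trans (hB 0)
  have hm' : ∫ y, ψ y ∂(θ • (volume : Measure (X n)).map ι) = 0 := by
    rw [integral_smul_nnreal_measure, integral_map ι.continuous.aemeasurable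
      hT.continuous.aestronglyMeasurable]
    simp_rw [hψι]
    rw [hm, smul_zero]
  have hb := bmp_test (0 : X d) one_pos
  have hbo : Off (bmp (0 : X d) 1) 0 (2 * R) := (bmp_off 0 one_pos).mono (by simp; linarith)
  set b₀ : ℝ := 1 ^ n / (2 ^ (n + 1) * C) with hb₀
  have hb₀0 : 0 < b₀ := by positivity
  have hbj : ∀ j, b₀ ≤ ∫ y, bmp 0 1 y ∂μs j := fun j =>
    (bmp_integral (hus j) (hl j 1) hC (h0 j) one_pos le_rfl).1
  set a : ℕ → ℝ := fun j => (∫ y, ψ y ∂μs j) / ∫ y, bmp 0 1 y ∂μs j with hadef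
  have ha : Tendsto a UU (𝓝 0) := by
    have h1 := (h ψ hT.continuous hT.2).abs.div_const b₀
    rw [hm', abs_zero, zero_div] at h1
    refine squeeze_zero_norm (fun j => ?_) h1
    rw [hadef, Real.norm_eq_abs, abs_div, abs_of_pos (hb₀0.trans_le (hbj j))]
    exact div_le_div_of_nonneg_left (abs_nonneg _) hb₀0 (hbj j)
  have ha1 : ∀ᶠ j in (UU : Filter ℕ), |a j| ≤ 1 := by
    have := ha.abs.eventually (ge_mem_nhds (show |(0 : ℝ)| < 1 by simp))
    exact this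
  set φ : ℕ → X d → ℝ := fun j y => ψ y - a j * bmp 0 1 y with hφdef
  have hφo : ∀ j, Off (φ j) 0 (2 * R) := fun j y hy => by
    simp only [hφdef, ho y hy, hbo y hy, mul_zero, sub_zero]
  have hφT : ∀ j, Test (φ j) := fun j => hT.sub (hb.const_mul _)
  have hφm : ∀ j, ∫ y, φ j y ∂μs j = 0 := fun j => by
    simp only [hφdef]
    rw [integral_sub ((hus j).integrable hT.continuous hT.2)
      (((hus j).integrable hb.continuous hb.2).const_mul _), integral_const_mul, hadef]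
    rw [div_mul_cancel₀ _ (hb₀0.trans_le (hbj j)).ne', sub_self]
  have hφB : ∀ j, |a j| ≤ 1 → ∀ y, |φ j y| ≤ B + 1 := fun j hj y => by
    refine (abs_sub _ _).trans (add_le_add (hB y) ?_)
    rw [abs_mul, abs_of_nonneg (bmp_nonneg _ _ _)]
    exact mul_le_one₀ hj (bmp_nonneg _ _ _) (bmp_le_one _ _ _)
  have hφL : ∀ j, |a j| ≤ 1 → LipschitzWith (Λ + (2 / 1 : ℝ).toNNReal) (φ j) := fun j hj => by
    refine hΛ.sub (LipschitzWith.of_dist_le_mul fun x y => ?_)
    have h1 := (bmp_lip (0 : X d) one_pos).dist_le_mul x y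
    rw [Real.dist_eq] at h1 ⊢
    rw [← mul_sub, abs_mul]
    exact (mul_le_of_le_one_left (abs_nonneg _) hj).trans h1
  obtain ⟨H, hH0, hH⟩ := hH (2 * R + 2)
  obtain ⟨c₁, c₂, hc₁₂⟩ := ImpB_unif (d := d) n hC hγ hR hH0 (by linarith : 0 ≤ B + 1)
    (Λ + (2 / 1 : ℝ).toNNReal)
  set G : X d → ℝ := fun y => F (pr ι y) with hG
  have hGc : Continuous G := hF.comp (pr ι).continuous
  have key : ∀ t s : ℝ, 0 < t → t ≤ 1 → 8 * R ≤ s →
      |(θ : ℝ) ^ 2 * EE n volume t s F ψ'| ≤ c₁ * t ^ γ + c₂ / √s := by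
    intro t s ht ht1 hs
    have hs0 : 0 < s := by linarith
    have hts : t ≤ s := by linarith
    have e0 : EE n (θ • (volume : Measure (X n)).map ι) t s G ψ
        = (θ : ℝ) ^ 2 * EE n volume t s F ψ' := by
      rw [EE_plane]
      simp only [hG, pr_iso, hψι]
    have l1 := h.EE hC0 hu hus hGc hT.continuous hT.2 ht hs0
    have l2 := ha.mul (h.EE hC0 hu hus hGc hb.continuous hb.2 ht hs0)
    rw [zero_mul] at l2
    have l3 : Tendsto (fun j => EE n (μs j) t s (fun y => fs j y - G y) (φ j)) UU (𝓝 0) := by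
      set K : ℝ := (B + 1) * (2 * (t ^ (n + 1))⁻¹ * (C * (2 * s) ^ n)) * (C * (2 * R) ^ n)
        with hK
      have hK0 : 0 ≤ K := by positivity
      rw [Metric.tendsto_nhds]
      intro ε hε
      filter_upwards [ha1, hcv (2 * R + 2 * s) (ε / (K + 1)) (by positivity)] with j hj hj'
      rw [Real.dist_eq, sub_zero]
      refine (ImpB_small (hus j) hC0 ht hts (by linarith) (by linarith) (by positivity) (hφo j)
        (hφB j hj) hj').trans_lt ?_
      rw [← hK, div_mul_eq_mul_div, div_lt_iff₀ (by positivity)]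
      nlinarith
    have l4 := (l3.add (l1.sub l2)).abs
    rw [zero_add, sub_zero, e0] at l4
    refine le_of_tendsto l4 ?_
    filter_upwards [ha1] with j hj
    have hi := (hus j).integrable (hφT j).continuous (hφT j).2
    rw [EE_sub_left (hus j) ht hs0 (hc j) hGc hi (hφo j), ← EE_mul_right,
      ← EE_sub_right (hus j) ht hs0 hGc ((hus j).integrable hT.continuous hT.2)
        (((hus j).integrable hb.continuous hb.2).const_mul _) ho
        (fun y hy => by simp only [hbo y hy, mul_zero]), sub_add_cancel]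
    exact hc₁₂ (μs j) (fs j) (φ j) (hus j) (hc j) (hh j) (hg j) (hH j) (hφL j hj) (hφo j)
      (hφB j hj) (hφm j) t s ht ht1 hs
  have hθ' : (0 : ℝ) < (θ : ℝ) ^ 2 := by positivity
  have hlim := (FF_err hγ c₁ c₂).div_const ((θ : ℝ) ^ 2)
  rw [zero_div] at hlim
  refine squeeze_zero_norm' ?_ hlim
  filter_upwards [FF_ev one_pos (8 * R)] with p hp
  have := key p.1 p.2 hp.1 hp.2.1 hp.2.2
  rw [abs_mul, abs_of_pos hθ'] at this
  rw [Real.norm_eq_abs, le_div_iff₀ hθ', mul_comm]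
  exact this

end Crest.Agent.R085
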