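import Crest.Agent.R085.Touch0

/-! Row 85. The touching ball; dimension counts. -/

set_option autoImplicit false

open MeasureTheory Set Filter Topology Metric
open scoped ENNReal NNReal

noncomputable section

namespace Crest.Agent.R085

variable {n d : ℕ} {C C₁ : ℝ} {μ : Measure (X d)}

theorem Touch_small {a b : ℕ} (hab : a < b) {c K L : ℝ} (hc : 0 < c) (hK : 0 ≤ K) (hL : 0 ≤ L) :
    ∃ δ : ℝ, 0 < δ ∧ δ ≤ 1 ∧ K * ((L / δ) ^ a * δ ^ b) < c := by
  set Q := K * L ^ a with hQ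
  have hQ0 : 0 ≤ Q := by positivity
  refine ⟨min 1 (c / (2 * (Q + 1))), lt_min one_pos (by positivity), min_le_left _ _, ?_⟩
  set δ := min 1 (c / (2 * (Q + 1))) with hδ
  have h0 : 0 < δ := lt_min one_pos (by positivity)
  have h1 : δ ≤ 1 := min_le_left _ _
  have h2 : δ ≤ c / (2 * (Q + 1)) := min_le_right _ _
  rw [le_div_iff₀ (by positivity)] at h2
  obtain ⟨k, rfl⟩ := Nat.exists_eq_add_of_lt hab
  have e : K * ((L / δ) ^ a * δ ^ (a + k + 1)) = Q * (δ ^ k * δ) := by
    rw [hQ, div_pow, pow_succ, pow_add]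
    field_simp
  have h3 : δ ^ k * δ ≤ δ := mul_le_of_le_one_left h0.le (pow_le_one₀ h0.le h1)
  rw [e]
  nlinarith [mul_le_mul_of_nonneg_left h3 hQ0]

/-- A maximal `δ`-separated subset of `ball 0 (1 / 8) ⊆ X m` has at least `c δ^(-m)` points
(`cover_le` for the Lebesgue measure), at most `C δ^(-n)` by `pack`. -/
theorem dim_hole (hC : 1 ≤ C) (hu : Up n C μ) (hl : ∀ D, Lo n C D μ) {m : ℕ} (hm : n < m)
    (ι : X m →ₗᵢ[ℝ] X d) : ∃ p : X m, ‖p‖ < 1 / 8 ∧ ι p ∉ μ.support := by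
  classical
  by_contra hcon
  push Not at hcon
  obtain ⟨C', hC', hu', hl'⟩ := vol_reg m
  obtain ⟨δ, h0, h1, hδ⟩ := Touch_small hm (c := (1 / 8 : ℝ) ^ m / C') (K := C ^ 2 * C') (L := 4)
    (by positivity) (by positivity) (by norm_num)
  obtain ⟨T, hT, hsep, hcov⟩ := exists_net (ball (0 : X m) (1 / 8)) h0
  have hfin := finite_of_sep (isBounded_ball.subset hT) h0 hsep
  have a1 := hl' 1 0 (by rw [Measure.support_eq_univ]; trivial) (1 / 8) (by norm_num) (by norm_num)
  have a2 := cover_le hu' (by linarith) h0 hfin.toFinset (S := ball (0 : X m) (1 / 8))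
    fun y hy => by
      obtain ⟨q, hq, h⟩ := hcov y hy
      exact ⟨q, hfin.mem_toFinset.2 hq, h⟩
  have a3 := pack hu (hl 1) hC h0 one_pos (by linarith) (x := 0) (hfin.toFinset.image ι)
    (fun y hy => by
      obtain ⟨p, hp, rfl⟩ := Finset.mem_image.1 hy
      have hp' : ‖p‖ < 1 / 8 := mem_ball_zero_iff.1 (hT (hfin.mem_toFinset.1 hp))
      refine ⟨hcon p hp', ?_⟩
      rw [dist_zero_right, ι.norm_map]
      linarith)
    (fun y hy z hz hyz => by
      obtain ⟨p, hp, rfl⟩ := Finset.mem_image.1 hy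
      obtain ⟨q, hq, rfl⟩ := Finset.mem_image.1 hz
      rw [ι.dist_map]
      exact hsep p (hfin.mem_toFinset.1 hp) q (hfin.mem_toFinset.1 hq) fun h => hyz (by rw [h]))
  rw [Finset.card_image_of_injective _ ι.injective] at a3
  have a4 : (2 * (1 + δ) / δ) ^ n ≤ (4 / δ) ^ n := by
    gcongr
    linarith
  have a5 : (hfin.toFinset.card : ℝ) * (C' * δ ^ m) ≤ C ^ 2 * (4 / δ) ^ n * (C' * δ ^ m) := by
    gcongr
    exact a3.trans (by gcongr)
  nlinarith

/-- A maximal `δ r`-separated subset of the support in `ball x r` has at least `c δ^(-n)` points;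
its projection to `X m` is `δ r / 2`-separated (`pack` for the Lebesgue measure of `X m`). -/
theorem dim_low (n m : ℕ) (hm : m < n) {C : ℝ} (hC : 1 ≤ C) : ∃ ε : ℝ, 0 < ε ∧
    ∀ (d : ℕ) (μ : Measure (X d)) (x : X d) (r : ℝ), Up n C μ → (∀ D, Lo n C D μ) →
      x ∈ μ.support → 0 < r → ¬Flat m μ x r ε := by
  classical
  obtain ⟨C', hC', hu', hl'⟩ := vol_reg m
  obtain ⟨δ, h0, h1, hδ⟩ := Touch_small hm (c := 1 / C) (K := C' ^ 2 * C) (L := 6)
    (by positivity) (by positivity) (by norm_num)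
  refine ⟨δ / 4, by positivity, fun d μ x r hu hl hx hr ⟨ι, hι⟩ => ?_⟩
  have hδr : 0 < δ * r := by positivity
  obtain ⟨T, hT, hsep, hcov⟩ := exists_net (ball x r ∩ μ.support) hδr
  have hfin := finite_of_sep ((isBounded_ball.subset inter_subset_left).subset hT) hδr hsep
  have a1 := hl r x hx r hr le_rfl
  have a0 : μ.real (ball x r) = μ.real (ball x r ∩ μ.support) := by
    unfold Measure.real
    rw [measure_inter_conull Measure.measure_compl_support]
  have a2 := cover_le hu (by linarith) hδr hfin.toFinset (S := ball x r ∩ μ.support)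
    fun y hy => by
      obtain ⟨q, hq, h⟩ := hcov y hy
      exact ⟨q, hfin.mem_toFinset.2 hq, h⟩
  have hnear : ∀ y ∈ T, ‖y - x - ι (pr ι (y - x))‖ ≤ δ / 4 * r := by
    intro y hy
    obtain ⟨u, hu⟩ := hι y (hT hy).2
    have : ‖y - x‖ / r ≤ 1 := by
      rw [div_le_one hr, ← dist_eq_norm]
      exact (mem_ball.1 (hT hy).1).le
    rw [wt_of_le this, mul_one] at hu
    exact (norm_sub_pr_le ι _ u).trans hu
  have hsep' : ∀ y ∈ T, ∀ z ∈ T, y ≠ z → δ * r / 2 ≤ dist (pr ι (y - x)) (pr ι (z - x)) := by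
    intro y hy z hz hyz
    have b1 := hsep y hy z hz hyz
    have b2 := hnear y hy
    have b3 := hnear z hz
    rw [← ι.dist_map, dist_eq_norm]
    rw [dist_eq_norm] at b1
    have e : y - z = (y - x - ι (pr ι (y - x))) + (ι (pr ι (y - x)) - ι (pr ι (z - x))) -
        (z - x - ι (pr ι (z - x))) := by abel
    have b4 := (norm_sub_le _ _).trans (add_le_add_left (norm_add_le (y - x - ι (pr ι (y - x)))
      (ι (pr ι (y - x)) - ι (pr ι (z - x)))) ‖z - x - ι (pr ι (z - x))‖)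
    rw [← e] at b4
    linarith
  have a3 := pack hu' (hl' r) hC' (r := δ * r / 2) (by positivity) hr (by nlinarith) (x := 0)
    (hfin.toFinset.image fun y => pr ι (y - x))
    (fun y hy => by
      obtain ⟨p, hp, rfl⟩ := Finset.mem_image.1 hy
      refine ⟨by rw [Measure.support_eq_univ]; trivial, ?_⟩
      rw [dist_zero_right]
      refine (norm_pr_le ι _).trans ?_
      rw [← dist_eq_norm]
      exact (mem_ball.1 (hT (hfin.mem_toFinset.1 hp)).1).le)
    (fun y hy z hz hyz => by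
      obtain ⟨p, hp, rfl⟩ := Finset.mem_image.1 hy
      obtain ⟨q, hq, rfl⟩ := Finset.mem_image.1 hz
      exact hsep' p (hfin.mem_toFinset.1 hp) q (hfin.mem_toFinset.1 hq) fun h => hyz (by rw [h]))
  rw [Finset.card_image_of_injOn fun y hy z hz h => by
    by_contra hyz
    have := hsep' y (hfin.mem_toFinset.1 hy) z (hfin.mem_toFinset.1 hz) hyz
    rw [h, dist_self] at this
    linarith] at a3
  have a4 : (2 * (r + δ * r / 2) / (δ * r / 2)) ^ m ≤ (6 / δ) ^ m := by
    gcongr ?_ ^ m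
    rw [div_le_div_iff₀ (by positivity) h0]
    nlinarith [mul_pos hδr h0, mul_le_mul_of_nonneg_left h1 hδr.le]
  have a5 : (hfin.toFinset.card : ℝ) * (C * (δ * r) ^ n) ≤
      C' ^ 2 * (6 / δ) ^ m * (C * (δ * r) ^ n) := by
    gcongr
    exact a3.trans (by gcongr)
  have a6 : r ^ n / C ≤ C' ^ 2 * C * ((6 / δ) ^ m * δ ^ n) * r ^ n := by
    calc r ^ n / C ≤ C' ^ 2 * (6 / δ) ^ m * (C * (δ * r) ^ n) := by linarith
      _ = _ := by rw [mul_pow]; ring
  have a7 : C' ^ 2 * C * ((6 / δ) ^ m * δ ^ n) * r ^ n < 1 / C * r ^ n := by gcongr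
  have a8 : 1 / C * r ^ n = r ^ n / C := by ring
  linarith

end Crest.Agent.R085
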