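import Crest.Agent.R085.PlaC
import Crest.Agent.R085.Touch

/-! Row 85. Classification of the reflectionless measures carried by an `n`-plane. -/

set_option autoImplicit false

open MeasureTheory Set Filter Topology Metric
open scoped ENNReal NNReal

noncomputable section

namespace Crest.Agent.R085

/-- `KK.proj`; the support of the projection is everything (`touch` with the identity of `X n`,
`n = m + 1`, and `dim_low`); `full_vol`; the bounds for `θ` come from the unit ball. -/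
theorem plane (n : ℕ) (hn : 1 ≤ n) {C : ℝ} (hC : 1 ≤ C) : ∃ C₂ : ℝ, 1 ≤ C₂ ∧
    ∀ (d : ℕ) (μ : Measure (X d)) (ι : X n →ₗᵢ[ℝ] X d), KK n C μ → 0 ∈ μ.support →
      (∀ y ∈ μ.support, ∃ u, ι u = y) → ∃ θ : ℝ≥0, 1 / C₂ ≤ (θ : ℝ) ∧ (θ : ℝ) ≤ C₂ ∧
        μ = θ • (volume : Measure (X n)).map ι ∧ ∀ u, ι u ∈ μ.support := by
  obtain ⟨m, rfl⟩ : ∃ m, n = m + 1 := ⟨n - 1, by omega⟩
  obtain ⟨C₁, -, hrb⟩ := KK.rb (m + 1) hC
  obtain ⟨ε, hε, hlow⟩ := dim_low (m + 1) m (Nat.lt_succ_self m) hC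
  obtain ⟨Cv, hCv, hvu, hvl⟩ := vol_reg (m + 1)
  refine ⟨C * Cv, by nlinarith, fun d μ ι h h0 hs => ?_⟩
  have hall : ∀ u, ι u ∈ μ.support := by
    intro u
    by_contra hp
    obtain ⟨x, hx, -, r, hr, -, hf⟩ := touch hC h.up h.lo (hrb d μ h) ι hs hp h0 hε
    exact hlow d μ x r h.up h.lo hx hr hf
  obtain ⟨hK, hμ, hsup⟩ := h.proj hC ι hs
  have hfull : (μ.map (pr ι)).support = univ := eq_univ_of_forall fun u => (hsup u).2 (hall u)
  obtain ⟨θ, hθ⟩ := full_vol hC hK hfull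
  have hC0 : 0 < C := by linarith
  have hCv0 : 0 < Cv := by linarith
  have h1 : (μ.map (pr ι)).real (ball 0 1) ≤ C * 1 ^ (m + 1) :=
    hK.up.real_le hC0.le one_pos subset_rfl
  have h2 : 1 ^ (m + 1) / C ≤ (μ.map (pr ι)).real (ball 0 1) :=
    hK.lo 1 0 (by rw [hfull]; trivial) 1 one_pos le_rfl
  have h3 : (volume : Measure (X (m + 1))).real (ball 0 1) ≤ Cv * 1 ^ (m + 1) :=
    hvu.real_le hCv0.le one_pos subset_rfl
  have h4 : 1 ^ (m + 1) / Cv ≤ (volume : Measure (X (m + 1))).real (ball 0 1) :=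
    hvl 1 0 (by rw [Measure.support_eq_univ]; trivial) 1 one_pos le_rfl
  rw [hθ, measureReal_nnreal_smul_apply] at h1 h2
  rw [one_pow] at h1 h2 h3 h4
  set v := (volume : Measure (X (m + 1))).real (ball 0 1) with hv
  have hθ0 : (0 : ℝ) ≤ θ := θ.coe_nonneg
  rw [div_le_iff₀ hCv0] at h4
  rw [div_le_iff₀ hC0] at h2
  refine ⟨θ, ?_, ?_, ?_, hall⟩
  · rw [div_le_iff₀ (by positivity)]
    have : (θ : ℝ) * v * C ≤ θ * (Cv * 1) * C :=
      mul_le_mul_of_nonneg_right (mul_le_mul_of_nonneg_left h3 hθ0) hC0.le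
    nlinarith
  · have : (θ : ℝ) * 1 ≤ θ * (v * Cv) := mul_le_mul_of_nonneg_left h4 hθ0
    have : (θ : ℝ) * v * Cv ≤ C * 1 * Cv := mul_le_mul_of_nonneg_right h1 hCv0.le
    nlinarith
  · rw [hμ, hθ, Measure.map_smul]

end Crest.Agent.R085
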