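import Crest.Agent.R085.ImpB
import Crest.Agent.R085.Plane

/-! Row 85. Improvement of flatness for reflectionless measures. -/

set_option autoImplicit false

open MeasureTheory Set Filter Topology Metric
open scoped ENNReal NNReal

noncomputable section

namespace Crest.Agent.R085

theorem ImpC_norm {d : ℕ} {v : X d} {ζ : ℝ} (h : ∀ i, |v i| ≤ ζ) : ‖v‖ ≤ d * ζ := by
  refine le_trans (le_of_eq (congrArg norm ((EuclideanSpace.basisFun (Fin d) ℝ).sum_repr v).symm))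
    ((norm_sum_le _ _).trans ((Finset.sum_le_card_nsmul _ _ ζ fun i _ => ?_).trans (by simp)))
  simpa [norm_smul] using h i

/-- The blow-up limit of the normal parts is a linear map. -/
theorem ImpC_lim {n d : ℕ} (hn : 1 ≤ n) {C : ℝ} (hC : 1 ≤ C) {μs : ℕ → Measure (X d)}
    {εs : ℕ → ℝ} {ιs : ℕ → X n →ₗᵢ[ℝ] X d} (hk : ∀ j, KK n C (μs j))
    (h0 : ∀ j, (0 : X d) ∈ (μs j).support) (hε : ∀ j, 0 < εs j)
    (hε' : ∀ j : ℕ, εs j ≤ 1 / (j + 1)) (hf : ∀ j, Fl (μs j) 0 1 (εs j) (ιs j))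
    {ι : X n →ₗᵢ[ℝ] X d}
    (hι : ∀ ζ : ℝ, 0 < ζ → ∀ᶠ j in (UU : Filter ℕ), ∀ u, ‖ιs j u - ι u‖ ≤ ζ * ‖u‖) (i : Fin d) :
    ∃ ℓ : X n →L[ℝ] ℝ, ∀ R ζ : ℝ, 0 < ζ → ∀ᶠ j in (UU : Filter ℕ), ∀ y ∈ (μs j).support,
      ‖y‖ ≤ R → |(εs j)⁻¹ * (y - ιs j (pr (ιs j) y)) i - ℓ (pr ι y)| ≤ ζ := by
  obtain ⟨μ, hv, hK, hμ0, -⟩ := exists_kk_lim hC (fun j => (hk j).up) (fun j => (hk j).lo _) h0
    fun j => (hk j).good 0 _ one_pos (by positivity)
  have h1 : ∀ y ∈ μ.support, ∃ u, ι u = y := fun y hy => Fl.range (fun ε hε0 =>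
    hv.fl_lim hK.up one_pos hι (by
      filter_upwards [UU_le ((tendsto_one_div_add_atTop_nhds_zero_nat (𝕜 := ℝ)).eventually
        (ge_mem_nhds hε0))] with j hj
      exact (hf j).mono one_pos ((hε' j).trans hj))) hy
  obtain ⟨C₂, hC₂, hp⟩ := plane n hn hC
  obtain ⟨θ, hθ, -, rfl, h2⟩ := hp d μ ι hK hμ0 h1
  obtain ⟨C₁, hC₁, hrb⟩ := KK.rb n hC
  obtain ⟨γ, c, hγ, -, hc, hh⟩ := holder n hC hC₁.le
  let fs : ℕ → X d →L[ℝ] ℝ := fun j => (εs j)⁻¹ • (EuclideanSpace.proj i).comp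
    (ContinuousLinearMap.id ℝ _ - (ιs j).toContinuousLinearMap.comp (pr (ιs j)))
  have hg : ∀ j, Gr (μs j) (fs j) 0 1 1 := fun j y hy => by
    have h3 := (hf j).pr hy
    rw [sub_zero, mul_one] at h3
    change |(εs j)⁻¹ * (y - ιs j (pr (ιs j) y)) i| ≤ _
    rw [sub_zero, one_mul, abs_mul, abs_of_pos (inv_pos.2 (hε j)), inv_mul_le_iff₀ (hε j)]
    exact (PiLp.norm_apply_le _ i).trans h3
  have hH : ∀ R : ℝ, ∃ H : ℝ, 0 ≤ H ∧ ∀ j, ∀ x ∈ (μs j).support, ∀ y ∈ (μs j).support, ‖x‖ < R →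
      ‖y‖ < R → |fs j x - fs j y| ≤ H * ‖x - y‖ ^ γ := fun R => by
    have h3 : 1 ≤ max 1 R := le_max_left _ _
    have h4 : R ≤ max 1 R := le_max_right _ _
    generalize max 1 R = ρ at h3 h4
    have h5 : 0 < ρ := by linarith
    refine ⟨c * (ρ * √ρ), by positivity, fun j x hx y hy hxR hyR => (hh d (μs j) (fs j) 0 ρ (ρ * √ρ)
      (hk j).up (hk j).lo (hrb d _ (hk j)) (by simpa using locLip_clm (fs j) 0) ((hk j).refl _)
      (h0 j) h5 (by positivity) (fun z hz => (hg j z hz).trans ?_) x hx y hy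
      (by rw [dist_zero_right]; linarith) (by rw [dist_zero_right]; linarith)).trans ?_⟩
    · refine le_trans (le_of_eq ?_) (wt_mul_le h3)
      rw [one_mul, div_one, mul_div_cancel₀ _ h5.ne']
    · gcongr
      exact div_le_self (norm_nonneg _) h3
  obtain ⟨F, hF, hF0, hFg, hcv⟩ := blow_fun hv hC hK.up (fun j => (hk j).up) (fun j => (hk j).lo)
    h1 h2 h0 (fs := fun j => fs j) (fun j => map_zero _) hg hγ hH
  obtain ⟨ℓ, hℓ⟩ := liouville hF (blow_harm hC (NNReal.coe_pos.1 (lt_of_lt_of_le (by positivity) hθ))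
    hv hK.up (fun j => (hk j).up) (fun j => (hk j).lo) h0 (fun j => (fs j).continuous)
    (fun j => (hk j).refl _) hg hγ hH hF hcv) (M := 1) (by simpa using hFg)
  refine ⟨ℓ, fun R ζ hζ => (hcv R ζ hζ).mono fun j hj y hy hR => ?_⟩
  have := hj y hy hR
  rwa [hℓ, hF0, zero_add] at this

/-- Otherwise there are `μs j`, `ιs j`, `ε j ≤ 1 / (j + 1)`.  Take limits `μ` (`exists_kk_lim`,
`KK.good`), `ι` (`iso_lim`); the support of `μ` lies in the range of `ι` (`VL.fl_lim`, `Fl.range`),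
so `plane` applies.  For every coordinate `i` the linear functionals
`fs j y = (y - ιs j (pr (ιs j) y)) i / ε j` are harmonic, satisfy `Gr _ _ 0 1 1` (`Fl.pr`) and are
uniformly Hölder on balls (`holder` at the scale `R ≥ 1`, `KK.rb`); `blow_fun`, `blow_harm`,
`liouville` give a linear `B : X n → X d` with `‖B u‖ ≤ ‖u‖` (test the closeness on points of
the supports near `ι u`, `‖u‖ = 1`; the bound `√d ‖u‖` from the coordinates would not be enough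
for the constant `1 / 32`, but `‖y - ιs j (pr (ιs j) y)‖ ≤ ε j * wt ‖y‖` gives it) and
`‖y - ιs j (pr y) - ε j • B (pr y)‖ = o(ε j)` on the unit ball.  A plane containing the range of
`ιs j + ε j • B` (`exists_iso_range`) gives the improved flatness: for `‖y‖ ≥ 1` the distance is at
most `2 ε j * wt ‖y‖` and `wt (32 ‖y‖) = 32 √32 wt ‖y‖`. -/
theorem improve (n d : ℕ) (hn : 1 ≤ n) {C : ℝ} (hC : 1 ≤ C) : ∃ ε₀ : ℝ, 0 < ε₀ ∧
    ∀ (μ : Measure (X d)) (ε : ℝ), KK n C μ → (0 : X d) ∈ μ.support → 0 < ε → ε ≤ ε₀ →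
      Flat n μ 0 1 ε → Flat n μ 0 (1 / 32) (ε / 2) := by
  by_contra! h
  choose μs εs hk h0 hε hε' hf hnf using fun j : ℕ => h (1 / (j + 1)) (by positivity)
  choose ιs hf using hf
  obtain ⟨ι, hι⟩ := iso_lim ιs
  choose ℓ hℓ using ImpC_lim hn hC hk h0 hε hε' hf fun ζ hζ => (hι ζ hζ).mono fun _ h => h.1
  let B : X n →L[ℝ] X d :=
    (EuclideanSpace.equiv (Fin d) ℝ).symm.toContinuousLinearMap.comp (ContinuousLinearMap.pi ℓ)
  have hB : ∀ u i, B u i = ℓ i u := fun _ _ => rfl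
  clear_value B
  obtain ⟨R, hR⟩ : ∃ R, R = 1 + ‖B‖ ^ 2 := ⟨_, rfl⟩
  have hR1 : 1 ≤ R := by linarith [sq_nonneg ‖B‖]
  obtain ⟨ζ, hζ⟩ : ∃ ζ, ζ = 1 / (64 * (d + ‖B‖ * R + 1)) := ⟨_, rfl⟩
  have hζ0 : 0 < ζ := by rw [hζ]; positivity
  have hζ1 : d * ζ + ‖B‖ * (ζ * R) + ζ = 1 / 64 := by rw [hζ]; field_simp
  obtain ⟨j, h1, -, h2⟩ := ((eventually_all.2 fun i => hℓ i R ζ hζ0).and (hι ζ hζ0)).exists
  obtain ⟨ι', hι'⟩ := exists_iso_range ((ιs j).toLinearMap + εs j • (B : X n →ₗ[ℝ] X d)) (iso_le ι)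
  refine hnf j ⟨ι', fun y hy => ?_⟩
  obtain ⟨u, hu⟩ := hι' (pr (ιs j) y)
  refine ⟨u, ?_⟩
  have e0 := hε j
  rw [hu, sub_zero]
  change ‖y - (ιs j (pr (ιs j) y) + εs j • B (pr (ιs j) y))‖ ≤ _
  rcases le_total ‖y‖ R with hy' | hy'
  · have e : y - (ιs j (pr (ιs j) y) + εs j • B (pr (ιs j) y)) =
        εs j • (((εs j)⁻¹ • (y - ιs j (pr (ιs j) y)) - B (pr ι y)) - B (pr (ιs j) y - pr ι y)) := by
      rw [map_sub, sub_sub_sub_cancel_right, smul_sub, smul_inv_smul₀ e0.ne', sub_sub]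
    have b1 : ‖(εs j)⁻¹ • (y - ιs j (pr (ιs j) y)) - B (pr ι y)‖ ≤ d * ζ :=
      ImpC_norm fun i => by
        rw [PiLp.sub_apply, hB]
        exact h1 i y hy hy'
    have b2 : ‖B (pr (ιs j) y - pr ι y)‖ ≤ ‖B‖ * (ζ * R) := B.le_opNorm_of_le
      ((h2 y).trans (mul_le_mul_of_nonneg_left hy' hζ0.le))
    rw [e, norm_smul, Real.norm_of_nonneg e0.le]
    refine (mul_le_mul_of_nonneg_left ((norm_sub_le _ _).trans (add_le_add b1 b2)) e0.le).trans ?_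
    refine le_trans ?_ (le_mul_of_one_le_right (by positivity) (one_le_wt _))
    nlinarith
  · have b1 := (hf j).pr hy
    rw [sub_zero, mul_one, div_one, wt_of_ge (hR1.trans hy')] at b1
    have b2 : ‖B (pr (ιs j) y)‖ ≤ √‖y‖ * ‖y‖ := (B.le_opNorm_of_le (norm_pr_le _ _)).trans
      (mul_le_mul_of_nonneg_right (Real.le_sqrt_of_sq_le (by linarith)) (norm_nonneg _))
    have b3 : 4 * √‖y‖ ≤ √(‖y‖ / (1 / 32)) := Real.le_sqrt_of_sq_le (by
      rw [mul_pow, Real.sq_sqrt (norm_nonneg _)]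
      linarith)
    rw [← sub_sub, wt_of_ge (by linarith)]
    refine (norm_sub_le _ _).trans ?_
    rw [norm_smul, Real.norm_of_nonneg e0.le]
    have b4 := mul_le_mul_of_nonneg_left b2 e0.le
    have b5 := mul_le_mul_of_nonneg_left b3 (mul_nonneg e0.le (norm_nonneg y))
    linarith

end Crest.Agent.R085
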