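import Crest.Agent.R085.Ker

/-! Row 85. Linear isometries, projections, elementary properties of flatness. -/

set_option autoImplicit false

open MeasureTheory Set Filter Topology Metric
open scoped ENNReal NNReal

noncomputable section

namespace Crest.Agent.R085

variable {m d : ℕ}

theorem Iso0_inner (ι : X m →ₗᵢ[ℝ] X d) (y : X d) (u : X m) :
    inner ℝ (pr ι y) u = inner ℝ y (ι u) :=
  ContinuousLinearMap.adjoint_inner_left ι.toContinuousLinearMap u y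

theorem Iso0_sup (W : Submodule ℝ (X d)) (k : ℕ) (hk : Module.finrank ℝ W + k ≤ d) :
    ∃ W' : Submodule ℝ (X d), W ≤ W' ∧ Module.finrank ℝ W' = Module.finrank ℝ W + k := by
  induction k with
  | zero => exact ⟨W, le_rfl, rfl⟩
  | succ k ih =>
    obtain ⟨W', h1, h2⟩ := ih (by omega)
    obtain ⟨v, hv⟩ := W'.exists_of_finrank_lt (by rw [finrank_euclideanSpace_fin]; omega)
    refine ⟨W' ⊔ Submodule.span ℝ {v}, le_sup_of_le_left h1, ?_⟩
    rw [Submodule.finrank_sup_span_singleton (by simpa using hv 1 one_ne_zero), h2, add_assoc]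

theorem Iso0_lim {Y : Type*} [NormedAddCommGroup Y] [ProperSpace Y] {ys : ℕ → Y} {R : ℝ}
    (h : ∀ᶠ j in (UU : Filter ℕ), ‖ys j‖ ≤ R) : ∃ y : Y, ‖y‖ ≤ R ∧ Tendsto ys UU (𝓝 y) := by
  obtain ⟨y, hy, h'⟩ := (isCompact_closedBall (0 : Y) R).ultrafilter_le_nhds (UU.map ys) (by
    rw [Ultrafilter.coe_map, le_principal_iff, mem_map]
    exact h.mono fun j hj => mem_closedBall_zero_iff.2 hj)
  exact ⟨y, mem_closedBall_zero_iff.1 hy, h'⟩

@[simp] theorem pr_iso (ι : X m →ₗᵢ[ℝ] X d) (u : X m) : pr ι (ι u) = u := by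
  refine ext_inner_right ℝ fun v => ?_
  rw [Iso0_inner, ι.inner_map_map]

theorem inner_pr (ι : X m →ₗᵢ[ℝ] X d) (y : X d) (u : X m) :
    inner ℝ (pr ι y) u = inner ℝ y (ι u) := by
  exact Iso0_inner ι y u

theorem norm_pr_le (ι : X m →ₗᵢ[ℝ] X d) (y : X d) : ‖pr ι y‖ ≤ ‖y‖ := by
  have h := real_inner_le_norm y (ι (pr ι y))
  rw [← inner_pr, real_inner_self_eq_norm_mul_norm, ι.norm_map] at h
  rcases (norm_nonneg (pr ι y)).eq_or_lt with h0 | h0
  · rw [← h0]; exact norm_nonneg _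
  · exact le_of_mul_le_mul_right h h0

theorem norm_sub_pr_le (ι : X m →ₗᵢ[ℝ] X d) (y : X d) (u : X m) : ‖y - ι (pr ι y)‖ ≤ ‖y - ι u‖ := by
  have h0 : inner ℝ (y - ι (pr ι y)) (ι (pr ι y - u)) = 0 := by
    rw [inner_sub_left, ι.inner_map_map, inner_pr, sub_self]
  have e : y - ι u = (y - ι (pr ι y)) + ι (pr ι y - u) := by rw [map_sub]; abel
  refine abs_le_of_sq_le_sq' ?_ (norm_nonneg _) |>.2
  rw [e, norm_add_sq_real, h0]
  nlinarith [sq_nonneg ‖ι (pr ι y - u)‖]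

theorem coL_self (ι : X m →ₗᵢ[ℝ] X d) : CoL ι ι := by
  intro u
  rw [pr_iso]
  exact half_le_self (norm_nonneg u)

/-- A subspace of dimension at most `m ≤ d` is contained in the range of an isometry. -/
theorem exists_iso (W : Submodule ℝ (X d)) (hW : Module.finrank ℝ W ≤ m) (hm : m ≤ d) :
    ∃ ι : X m →ₗᵢ[ℝ] X d, ∀ w ∈ W, ∃ u, ι u = w := by
  obtain ⟨W', h1, h2⟩ := Iso0_sup W (m - Module.finrank ℝ W) (by omega)
  obtain rfl : Module.finrank ℝ W' = m := by omega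
  refine ⟨W'.subtypeₗᵢ.comp (stdOrthonormalBasis ℝ W').repr.symm.toLinearIsometry, fun w hw =>
    ⟨(stdOrthonormalBasis ℝ W').repr ⟨w, h1 hw⟩, by simp⟩⟩

theorem exists_iso_range (T : X m →ₗ[ℝ] X d) (hm : m ≤ d) :
    ∃ ι : X m →ₗᵢ[ℝ] X d, ∀ u, ∃ u', ι u' = T u := by
  obtain ⟨ι, h⟩ := exists_iso (LinearMap.range T)
    (T.finrank_range_le.trans_eq finrank_euclideanSpace_fin) hm
  exact ⟨ι, fun u => h _ ⟨u, rfl⟩⟩

/-- A hyperplane of the range. -/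
theorem exists_iso_hyper (ι : X (m + 1) →ₗᵢ[ℝ] X d) {e : X (m + 1)} (he : ‖e‖ = 1) :
    ∃ ι' : X m →ₗᵢ[ℝ] X d, ∀ u : X (m + 1), ∃ u', ι u = inner ℝ e u • ι e + ι' u' := by
  have : Fact (Module.finrank ℝ (X (m + 1)) = m + 1) := ⟨finrank_euclideanSpace_fin⟩
  have he0 : e ≠ 0 := norm_ne_zero_iff.1 (by rw [he]; exact one_ne_zero)
  set b := OrthonormalBasis.fromOrthogonalSpanSingleton (𝕜 := ℝ) m he0
  refine ⟨ι.comp ((ℝ ∙ e)ᗮ.subtypeₗᵢ.comp b.repr.symm.toLinearIsometry), fun u =>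
    ⟨b.repr ⟨u - inner ℝ e u • e, ?_⟩, by simp⟩⟩
  rw [Submodule.mem_orthogonal_singleton_iff_inner_right, inner_sub_right, inner_smul_right,
    real_inner_self_eq_norm_mul_norm, he]
  ring

theorem iso_le (ι : X m →ₗᵢ[ℝ] X d) : m ≤ d := by
  simpa using LinearMap.finrank_le_finrank_of_injective (f := ι.toLinearMap) ι.injective

/-- Compactness of the set of isometries. -/
theorem iso_lim (ιs : ℕ → X m →ₗᵢ[ℝ] X d) : ∃ ι : X m →ₗᵢ[ℝ] X d, ∀ ζ : ℝ, 0 < ζ →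
    ∀ᶠ j in (UU : Filter ℕ), (∀ u, ‖ιs j u - ι u‖ ≤ ζ * ‖u‖) ∧
      ∀ y, ‖pr (ιs j) y - pr ι y‖ ≤ ζ * ‖y‖ := by
  have : ProperSpace (X m →L[ℝ] X d) := FiniteDimensional.proper ℝ _
  obtain ⟨L, -, hL⟩ := Iso0_lim (ys := fun j => (ιs j).toContinuousLinearMap)
    (Eventually.of_forall fun j => (ιs j).norm_toContinuousLinearMap_le)
  have hn : ∀ u, ‖L u‖ = ‖u‖ := fun u =>
    tendsto_nhds_unique (((ContinuousLinearMap.apply ℝ (X d) u).continuous.tendsto L).comp hL).norm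
      (tendsto_const_nhds.congr fun j => ((ιs j).norm_map u).symm)
  refine ⟨⟨L.toLinearMap, hn⟩, fun ζ hζ => ?_⟩
  filter_upwards [Metric.tendsto_nhds.1 hL ζ hζ] with j hj
  rw [dist_eq_norm] at hj
  refine ⟨fun u => (((ιs j).toContinuousLinearMap - L).le_of_opNorm_le hj.le u), fun y => ?_⟩
  refine (ContinuousLinearMap.adjoint ((ιs j).toContinuousLinearMap - L)).le_of_opNorm_le
    (c := ζ) ?_ y |>.trans_eq' ?_
  · rw [LinearIsometryEquiv.norm_map]; exact hj.le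
  · rw [map_sub]; rfl

/-- Bounded sequences converge along the ultrafilter. -/
theorem exists_lim {ys : ℕ → X d} {R : ℝ} (h : ∀ᶠ j in (UU : Filter ℕ), ‖ys j‖ ≤ R) :
    ∃ y : X d, ‖y‖ ≤ R ∧ Tendsto ys UU (𝓝 y) := by
  exact Iso0_lim h

end Crest.Agent.R085
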