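import Crest.Agent.R085.Ker1

/-! Row 85. The kernel, the weight `wt`, the filter `FF`, bumps and cut-offs. -/

set_option autoImplicit false

open MeasureTheory Set Filter Topology Metric
open scoped ENNReal NNReal

noncomputable section

namespace Crest.Agent.R085

variable {n d : ℕ}

theorem Off.mono {ψ : X d → ℝ} {x x' : X d} {R R' : ℝ} (h : Off ψ x R) (hR : dist x x' + R ≤ R') :
    Off ψ x' R' := by
  intro y hy
  refine h y ?_
  have := dist_triangle y x x'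
  linarith

theorem Off.hasCompactSupport {ψ : X d → ℝ} {x : X d} {R : ℝ} (h : Off ψ x R) :
    HasCompactSupport ψ := by
  exact HasCompactSupport.intro (isCompact_closedBall x R) fun y hy => h y (le_of_lt (not_le.1 hy))

theorem exists_off {ψ : X d → ℝ} (h : HasCompactSupport ψ) (x : X d) :
    ∃ R : ℝ, 1 ≤ R ∧ Off ψ x R := by
  obtain ⟨r, hr⟩ := (h.isCompact.isBounded).subset_ball x
  refine ⟨max 1 r, le_max_left _ _, fun y hy => ?_⟩
  by_contra h0
  exact absurd (hr (subset_tsupport _ h0)) (not_lt.2 ((le_max_right _ _).trans hy))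

theorem Off.abs_le {ψ : X d → ℝ} {x : X d} {R : ℝ} {Λ : ℝ≥0} (h : Off ψ x R) (hd : 0 < d)
    (hR : 0 < R) (hΛ : LipschitzWith Λ ψ) (y : X d) : |ψ y| ≤ Λ * R := by
  rcases le_or_gt R (dist y x) with hy | hy
  · rw [h y hy, abs_zero]
    positivity
  obtain ⟨u, hu, e⟩ : ∃ u : X d, ‖u‖ = 1 ∧ y - x = ‖y - x‖ • u := by
    rcases eq_or_ne (y - x) 0 with h0 | h0
    · exact ⟨EuclideanSpace.single ⟨0, hd⟩ 1, by simp, by simp [h0]⟩
    · have := norm_ne_zero_iff.2 h0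
      exact ⟨‖y - x‖⁻¹ • (y - x), by rw [norm_smul, norm_inv, norm_norm, inv_mul_cancel₀ this],
        by rw [smul_smul, mul_inv_cancel₀ this, one_smul]⟩
  have h1 : ψ (x + R • u) = 0 := h _ (by
    rw [dist_eq_norm, add_sub_cancel_left, norm_smul, hu, mul_one, Real.norm_of_nonneg hR.le])
  have h2 := hΛ.dist_le_mul y (x + R • u)
  rw [h1, Real.dist_eq, sub_zero] at h2
  refine h2.trans (mul_le_mul_of_nonneg_left ?_ Λ.2)
  rw [dist_eq_norm] at hy
  rw [dist_eq_norm, ← sub_sub, e, ← sub_smul, norm_smul, hu, mul_one, Real.norm_eq_abs,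
    _root_.abs_le]
  constructor <;> linarith [norm_nonneg (y - x)]

/-- A version without `0 < d` for functions with a zero. -/
theorem Off.abs_le' {ψ : X d → ℝ} {x : X d} {R : ℝ} {Λ : ℝ≥0} (h : Off ψ x R)
    (hΛ : LipschitzWith Λ ψ) {y₀ : X d} (h0 : ψ y₀ = 0) (hy₀ : dist y₀ x ≤ R) (y : X d) :
    |ψ y| ≤ Λ * (2 * R) := by
  have hR : 0 ≤ R := dist_nonneg.trans hy₀
  rcases le_or_gt R (dist y x) with hy | hy
  · rw [h y hy, abs_zero]
    positivity
  have h2 := hΛ.dist_le_mul y y₀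
  rw [h0, Real.dist_eq, sub_zero] at h2
  refine h2.trans (mul_le_mul_of_nonneg_left ?_ Λ.2)
  have := dist_triangle_right y y₀ x
  linarith

theorem Test.continuous {ψ : X d → ℝ} (h : Test ψ) : Continuous ψ := by
  obtain ⟨⟨_, h⟩, -⟩ := h
  exact h.continuous

theorem Test.sub {φ ψ : X d → ℝ} (h : Test φ) (h' : Test ψ) : Test fun x => φ x - ψ x := by
  obtain ⟨R, -, hR⟩ := exists_off h.2 0
  obtain ⟨R', -, hR'⟩ := exists_off h'.2 0
  obtain ⟨⟨_, h⟩, -⟩ := h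
  obtain ⟨⟨_, h'⟩, -⟩ := h'
  refine ⟨⟨_, h.sub h'⟩, Off.hasCompactSupport (x := 0) (R := max R R') fun y hy => ?_⟩
  rw [hR y ((le_max_left _ _).trans hy), hR' y ((le_max_right _ _).trans hy), sub_zero]

theorem Test.const_mul {ψ : X d → ℝ} (h : Test ψ) (a : ℝ) : Test fun x => a * ψ x := by
  obtain ⟨⟨_, h⟩, h'⟩ := h
  exact ⟨⟨_, (lipschitzWith_smul a).comp h⟩, h'.mul_left⟩

theorem Test.comp_add {ψ : X d → ℝ} (h : Test ψ) (v : X d) : Test fun x => ψ (x + v) := by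
  obtain ⟨⟨_, h⟩, h'⟩ := h
  exact ⟨⟨_, h.comp (isometry_add_right v).lipschitz⟩, h'.comp_homeomorph (Homeomorph.addRight v)⟩

theorem LocLip.continuous {f : X d → ℝ} (h : LocLip f) : Continuous f := by
  refine continuous_iff_continuousAt.2 fun x => ?_
  obtain ⟨_, h⟩ := h (‖x‖ + 1)
  exact h.continuousOn.continuousAt (isOpen_ball.mem_nhds (by simp))

theorem LocLip.mul_test {f ψ : X d → ℝ} (h : LocLip f) (h' : Test ψ) :
    Test fun x => f x * ψ x := by
  refine ⟨?_, h'.2.mul_left⟩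
  obtain ⟨R, -, hR⟩ := exists_off h'.2 0
  obtain ⟨Λ, hΛ⟩ := h R
  obtain ⟨M, hM⟩ := (isCompact_closedBall (0 : X d) R).exists_bound_of_continuousOn
    h.continuous.continuousOn
  obtain ⟨B, hB⟩ := h'.continuous.bounded_above_of_compact_support h'.2
  obtain ⟨⟨Λ', h'⟩, -⟩ := h'
  set M' := max M 0
  have hM0 : 0 ≤ M' := le_max_right _ _
  have hB0 : 0 ≤ B := (norm_nonneg _).trans (hB 0)
  have hM' : ∀ x ∈ ball (0 : X d) R, |f x| ≤ M' := fun x hx =>
    (hM x (ball_subset_closedBall hx)).trans (le_max_left _ _)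
  have key : ∀ x y, ψ x = 0 → |f y * ψ y| ≤ M' * (Λ' * dist y x) := fun x y hx => by
    by_cases hy : y ∈ ball (0 : X d) R
    · have h2 := h'.dist_le_mul y x
      rw [hx, Real.dist_eq, sub_zero] at h2
      rw [abs_mul]
      exact mul_le_mul (hM' y hy) h2 (abs_nonneg _) hM0
    · rw [hR y (not_lt.1 hy), mul_zero, abs_zero]
      positivity
  refine ⟨(M' * Λ' + Λ * B).toNNReal, LipschitzWith.of_dist_le' fun x y => ?_⟩
  have h0 : 0 ≤ (Λ : ℝ) * B * dist x y := by positivity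
  rw [Real.dist_eq]
  by_cases hx : x ∈ ball (0 : X d) R
  · by_cases hy : y ∈ ball (0 : X d) R
    · have h1 := h'.dist_le_mul x y
      have h2 := hΛ.dist_le_mul x hx y hy
      rw [Real.dist_eq] at h1 h2
      calc |f x * ψ x - f y * ψ y| = |f x * (ψ x - ψ y) + (f x - f y) * ψ y| := by ring_nf
        _ ≤ |f x| * |ψ x - ψ y| + |f x - f y| * |ψ y| := by
          rw [← abs_mul, ← abs_mul]
          exact abs_add_le _ _
        _ ≤ M' * (Λ' * dist x y) + Λ * dist x y * B :=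
          add_le_add (mul_le_mul (hM' x hx) h1 (abs_nonneg _) hM0)
            (mul_le_mul h2 (hB y) (abs_nonneg _) (by positivity))
        _ = _ := by ring
    · have h1 := hR y (not_lt.1 hy)
      have h2 := key y x h1
      rw [h1, mul_zero, sub_zero]
      linarith
  · have h1 := hR x (not_lt.1 hx)
    have h2 := key x y h1
    rw [h1, mul_zero, zero_sub, abs_neg, dist_comm]
    rw [dist_comm] at h0
    linarith

theorem locLip_clm (ℓ : X d →L[ℝ] ℝ) (a : ℝ) : LocLip fun y => ℓ y - a := by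
  exact fun R => ⟨_, (ℓ.lipschitz.sub (LipschitzWith.const a)).lipschitzOnWith⟩

theorem bmp_nonneg (x : X d) (ρ : ℝ) (y : X d) : 0 ≤ bmp x ρ y := by
  exact le_max_left _ _

theorem bmp_le_one (x : X d) (ρ : ℝ) (y : X d) : bmp x ρ y ≤ 1 := by
  exact max_le zero_le_one (sub_le_self _ (by positivity))

theorem bmp_off (x : X d) {ρ : ℝ} (hρ : 0 < ρ) : Off (bmp x ρ) x ρ := by
  intro y hy
  rw [dist_eq_norm] at hy
  refine max_eq_left (sub_nonpos.2 ((one_le_div (by positivity)).2 ?_))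
  gcongr

theorem bmp_ge {x y : X d} {ρ : ℝ} (hρ : 0 < ρ) (h : dist y x ≤ 2 / 3 * ρ) : 1 / 2 ≤ bmp x ρ y := by
  rw [dist_eq_norm] at h
  refine le_max_of_le_right ?_
  have : ‖y - x‖ ^ 2 / ρ ^ 2 ≤ 1 / 2 := by
    rw [div_le_iff₀ (by positivity)]
    nlinarith [norm_nonneg (y - x)]
  linarith

theorem bmp_lip (x : X d) {ρ : ℝ} (hρ : 0 < ρ) : LipschitzWith (2 / ρ).toNNReal (bmp x ρ) := by
  have e : ∀ y, bmp x ρ y = 1 - min ‖y - x‖ ρ ^ 2 / ρ ^ 2 := fun y => by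
    rcases le_total ‖y - x‖ ρ with h | h
    · rw [min_eq_left h]
      refine max_eq_right (sub_nonneg.2 ((div_le_one (by positivity)).2 ?_))
      gcongr
    · rw [min_eq_right h, div_self (by positivity), sub_self]
      exact bmp_off x hρ y (by rwa [dist_eq_norm])
  refine LipschitzWith.of_dist_le' fun y z => ?_
  have h1 : |min ‖z - x‖ ρ - min ‖y - x‖ ρ| ≤ dist y z := by
    refine (abs_min_sub_min_le_max _ _ _ _).trans (max_le ?_ (by simp))
    refine (abs_norm_sub_norm_le _ _).trans (le_of_eq ?_)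
    rw [sub_sub_sub_cancel_right, dist_comm, dist_eq_norm]
  have h2 : |min ‖z - x‖ ρ + min ‖y - x‖ ρ| ≤ 2 * ρ := by
    rw [abs_of_nonneg (by positivity)]
    linarith [min_le_right ‖z - x‖ ρ, min_le_right ‖y - x‖ ρ]
  rw [e, e, Real.dist_eq, sub_sub_sub_cancel_left, ← sub_div, sq_sub_sq, abs_div, abs_mul,
    abs_of_pos (by positivity : 0 < ρ ^ 2), div_le_iff₀ (by positivity)]
  calc _ ≤ 2 * ρ * dist y z := mul_le_mul h2 h1 (abs_nonneg _) (by positivity)
    _ = _ := by field_simp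

theorem bmp_test (x : X d) {ρ : ℝ} (hρ : 0 < ρ) : Test (bmp x ρ) := by
  exact ⟨⟨_, bmp_lip x hρ⟩, (bmp_off x hρ).hasCompactSupport⟩

/-- Semiconvexity. -/
theorem bmp_semi (x : X d) {ρ : ℝ} (hρ : 0 < ρ) (y : X d) : ∃ ℓ : X d →L[ℝ] ℝ, ‖ℓ‖ ≤ 2 / ρ ∧
    ∀ z, bmp x ρ y - bmp x ρ z ≤ (ℓ y - ℓ z) + ‖y - z‖ ^ 2 / ρ ^ 2 := by
  rcases le_total ‖y - x‖ ρ with h | h
  · refine ⟨(-(2 / ρ ^ 2)) • innerSL ℝ (y - x), ?_, fun z => ?_⟩
    · rw [norm_smul, innerSL_apply_norm, norm_neg, Real.norm_of_nonneg (by positivity)]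
      calc 2 / ρ ^ 2 * ‖y - x‖ ≤ 2 / ρ ^ 2 * ρ := by gcongr
        _ = 2 / ρ := by field_simp
    · have h1 : bmp x ρ y = 1 - ‖y - x‖ ^ 2 / ρ ^ 2 := by
        refine max_eq_right (sub_nonneg.2 ((div_le_one (by positivity)).2 ?_))
        gcongr
      have h2 : 1 - ‖z - x‖ ^ 2 / ρ ^ 2 ≤ bmp x ρ z := le_max_right _ _
      have h3 : ‖z - x‖ ^ 2 = ‖y - x‖ ^ 2 - 2 * inner ℝ (y - x) (y - z) + ‖y - z‖ ^ 2 := by
        rw [← norm_sub_sq_real, sub_sub_sub_cancel_left]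
      rw [← map_sub, h1]
      have h4 : ((-(2 / ρ ^ 2)) • innerSL ℝ (y - x)) (y - z) =
        -(2 / ρ ^ 2) * inner ℝ (y - x) (y - z) := rfl
      rw [h4]
      rw [h3] at h2
      have h5 : (‖y - x‖ ^ 2 - 2 * inner ℝ (y - x) (y - z) + ‖y - z‖ ^ 2) / ρ ^ 2 =
        ‖y - x‖ ^ 2 / ρ ^ 2 + (-(2 / ρ ^ 2) * inner ℝ (y - x) (y - z) + ‖y - z‖ ^ 2 / ρ ^ 2) := by
        ring
      linarith
  · refine ⟨0, by rw [norm_zero]; positivity, fun z => ?_⟩
    rw [bmp_off x hρ y (by rwa [dist_eq_norm])]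
    have h1 := bmp_nonneg x ρ z
    have h2 : 0 ≤ ‖y - z‖ ^ 2 / ρ ^ 2 := by positivity
    simp only [zero_apply]
    linarith

theorem cut_nonneg (x : X d) (R : ℝ) (y : X d) : 0 ≤ cut x R y := by
  exact le_max_left _ _

theorem cut_le_one (x : X d) (R : ℝ) (y : X d) : cut x R y ≤ 1 := by
  exact max_le zero_le_one (min_le_left _ _)

theorem cut_one {x y : X d} {R : ℝ} (hR : 0 < R) (h : dist y x ≤ R) : cut x R y = 1 := by
  rw [dist_eq_norm] at h
  have : ‖y - x‖ / R ≤ 1 := (div_le_one hR).2 h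
  unfold cut
  rw [min_eq_left (by linarith), max_eq_right zero_le_one]

theorem cut_off (x : X d) {R : ℝ} (hR : 0 < R) : Off (cut x R) x (2 * R) := by
  intro y hy
  rw [dist_eq_norm] at hy
  have : 2 ≤ ‖y - x‖ / R := (le_div_iff₀ hR).2 hy
  exact max_eq_left (min_le_of_right_le (by linarith))

theorem cut_lip (x : X d) {R : ℝ} (hR : 0 < R) : LipschitzWith (1 / R).toNNReal (cut x R) := by
  have h : LipschitzWith (1 / R).toNNReal fun y : X d => 2 - ‖y - x‖ / R := by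
    refine LipschitzWith.of_dist_le' fun y z => ?_
    rw [Real.dist_eq, sub_sub_sub_cancel_left, ← sub_div, abs_div, abs_of_pos hR, one_div_mul_eq_div]
    refine div_le_div_of_nonneg_right ((abs_norm_sub_norm_le _ _).trans (le_of_eq ?_)) hR.le
    rw [sub_sub_sub_cancel_right, dist_comm, dist_eq_norm]
  exact (h.const_min 1).const_max 0

theorem cut_test (x : X d) {R : ℝ} (hR : 0 < R) : Test (cut x R) := by
  exact ⟨⟨_, cut_lip x hR⟩, (cut_off x hR).hasCompactSupport⟩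

theorem rr_pos {r₀ : ℝ} (h : 0 < r₀) (j : ℕ) : 0 < rr r₀ j := by
  unfold rr
  positivity

theorem rr_zero (r₀ : ℝ) : rr r₀ 0 = r₀ := by
  simp [rr]

theorem rr_succ (r₀ : ℝ) (j : ℕ) : rr r₀ (j + 1) = rr r₀ j / 32 := by
  unfold rr
  ring

theorem rr_add (r₀ : ℝ) (j i : ℕ) : rr r₀ (j + i) = rr r₀ j * (1 / 32) ^ i := by
  unfold rr
  ring

theorem rr_anti {r₀ : ℝ} (h : 0 < r₀) : Antitone (rr r₀) := by
  intro i j hij
  exact mul_le_mul_of_nonneg_left (pow_le_pow_of_le_one (by norm_num) (by norm_num) hij) h.le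

end Crest.Agent.R085
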