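import Crest.Agent.R085.Defs

/-! Row 85. The kernel, the weight `wt`, the filter `FF`, bumps and cut-offs. -/

set_option autoImplicit false

open MeasureTheory Set Filter Topology Metric
open scoped ENNReal NNReal

noncomputable section

namespace Crest.Agent.R085

variable {n d : ℕ}

theorem chi_nonneg (u : ℝ) : 0 ≤ chi u := by
  exact le_max_left _ _

theorem chi_le_one (u : ℝ) : chi u ≤ 1 := by
  exact max_le zero_le_one (min_le_left _ _)

theorem chi_mono : Monotone chi := by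
  intro u v h
  unfold chi
  gcongr

theorem chi_lip (u v : ℝ) : |chi u - chi v| ≤ |u - v| := by
  unfold chi
  refine (abs_max_sub_max_le_max _ _ _ _).trans (max_le (by simp) ?_)
  refine (abs_min_sub_min_le_max _ _ _ _).trans (max_le (by simp) ?_)
  rw [sub_sub_sub_cancel_right]

theorem chi_zero {u : ℝ} (h : u ≤ 1) : chi u = 0 := by
  exact max_eq_left ((min_le_right _ _).trans (by linarith))

theorem chi_one {u : ℝ} (h : 2 ≤ u) : chi u = 1 := by
  unfold chi
  rw [min_eq_left (by linarith), max_eq_right zero_le_one]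

theorem continuous_chi : Continuous chi := by
  unfold chi
  fun_prop

theorem kk_neg (t s : ℝ) (z : X d) : kk n t s (-z) = kk n t s z := by
  simp only [kk, norm_neg]

theorem kk_comm (t s : ℝ) (x y : X d) : kk n t s (x - y) = kk n t s (y - x) := by
  rw [← kk_neg, neg_sub]

theorem kk_add (a b c : ℝ) (z : X d) : kk n a b z + kk n b c z = kk n a c z := by
  unfold kk
  ring

theorem kk_nonneg {t s : ℝ} (ht : 0 < t) (hts : t ≤ s) (z : X d) : 0 ≤ kk n t s z := by
  refine div_nonneg (sub_nonneg.2 (chi_mono ?_)) (by positivity)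
  gcongr

theorem abs_kk_le (t s : ℝ) (z : X d) : |kk n t s z| ≤ (‖z‖ ^ (n + 1))⁻¹ := by
  unfold kk
  rw [abs_div, abs_of_nonneg (by positivity : (0 : ℝ) ≤ ‖z‖ ^ (n + 1)), ← one_div]
  gcongr
  have := chi_nonneg (‖z‖ / t)
  have := chi_nonneg (‖z‖ / s)
  have := chi_le_one (‖z‖ / t)
  have := chi_le_one (‖z‖ / s)
  rw [abs_le]
  constructor <;> linarith

theorem kk_zero_of_le {t s : ℝ} (ht : 0 < t) (hts : t ≤ s) {z : X d} (hz : ‖z‖ ≤ t) :
    kk n t s z = 0 := by
  unfold kk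
  rw [chi_zero ((div_le_one ht).2 hz), chi_zero ((div_le_one (ht.trans_le hts)).2 (hz.trans hts))]
  simp

theorem kk_zero_of_ge {t s : ℝ} (ht : 0 < t) (hts : t ≤ s) {z : X d} (hz : 2 * s ≤ ‖z‖) :
    kk n t s z = 0 := by
  unfold kk
  rw [chi_one ((le_div_iff₀ ht).2 (by linarith)), chi_one ((le_div_iff₀ (ht.trans_le hts)).2 hz)]
  simp

theorem kk_eq {t s : ℝ} (ht : 0 < t) {z : X d} (h1 : 2 * t ≤ ‖z‖) (h2 : ‖z‖ ≤ s) :
    kk n t s z = (‖z‖ ^ (n + 1))⁻¹ := by
  unfold kk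
  rw [chi_one ((le_div_iff₀ ht).2 h1), chi_zero ((div_le_one (by linarith)).2 h2)]
  simp

theorem abs_kk_le' {t s : ℝ} (ht : 0 < t) (hts : t ≤ s) (z : X d) :
    |kk n t s z| ≤ (t ^ (n + 1))⁻¹ := by
  by_cases hz : ‖z‖ ≤ t
  · rw [kk_zero_of_le ht hts hz, abs_zero]
    positivity
  · refine (abs_kk_le t s z).trans ?_
    gcongr
    exact (not_le.1 hz).le

theorem continuous_kk {t s : ℝ} (ht : 0 < t) (hs : 0 < s) : Continuous (kk n t s : X d → ℝ) := by
  have h : (kk n t s : X d → ℝ) =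
      fun z => (chi (‖z‖ / t) - chi (‖z‖ / s)) / (max (min t s) ‖z‖) ^ (n + 1) := by
    funext z
    by_cases hz : ‖z‖ ≤ min t s
    · unfold kk
      rw [chi_zero ((div_le_one ht).2 (hz.trans (min_le_left _ _))),
        chi_zero ((div_le_one hs).2 (hz.trans (min_le_right _ _)))]
      simp
    · rw [max_eq_right (not_le.1 hz).le]
      rfl
  rw [h]
  have := continuous_chi
  refine Continuous.div (by fun_prop) (by fun_prop) fun z => ?_
  exact (pow_pos (lt_max_of_lt_left (lt_min ht hs)) _).ne'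

theorem kk_zero_of_ge' {t s : ℝ} (ht : 0 < t) (hs : 0 < s) {z : X d} (hz : 2 * max t s ≤ ‖z‖) :
    kk n t s z = 0 := by
  unfold kk
  have h1 := le_max_left t s
  have h2 := le_max_right t s
  rw [chi_one ((le_div_iff₀ ht).2 (by linarith)), chi_one ((le_div_iff₀ hs).2 (by linarith))]
  simp

theorem hasCompactSupport_kk {t s : ℝ} (ht : 0 < t) (hs : 0 < s) :
    HasCompactSupport (kk n t s : X d → ℝ) := by
  refine HasCompactSupport.intro (isCompact_closedBall (0 : X d) (2 * max t s)) fun z hz => ?_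
  rw [mem_closedBall, dist_zero_right, not_le] at hz
  exact kk_zero_of_ge' ht hs hz.le

private theorem Ker0_aux (n : ℕ) {t a b δ : ℝ} (ht : 0 < t) (ha : 0 < a) (hab : |a - b| ≤ δ)
    (hδ : δ ≤ a / 2) : |chi (a / t) / a ^ (n + 1) - chi (b / t) / b ^ (n + 1)| ≤
      (4 + (n + 1) * 2 ^ n * 2 ^ (n + 1)) * δ / a ^ (n + 2) := by
  have hδ0 : 0 ≤ δ := (abs_nonneg _).trans hab
  obtain ⟨h1, h2⟩ := abs_le.1 hab
  have hb : a / 2 ≤ b := by linarith
  have hb0 : 0 < b := by linarith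
  have h3 : |chi (a / t) - chi (b / t)| ≤ 4 * δ / a := by
    by_cases h : 4 * t ≤ a
    · rw [chi_one ((le_div_iff₀ ht).2 (by linarith)), chi_one ((le_div_iff₀ ht).2 (by linarith)),
        sub_self, abs_zero]
      positivity
    · refine (chi_lip _ _).trans ?_
      rw [← sub_div, abs_div, abs_of_pos ht, div_le_div_iff₀ ht ha]
      have : |a - b| * a ≤ δ * (4 * t) := by gcongr; exact (not_le.1 h).le
      linarith
  have h4 : |1 / a ^ (n + 1) - 1 / b ^ (n + 1)| ≤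
      (n + 1) * 2 ^ n * 2 ^ (n + 1) * δ / a ^ (n + 2) := by
    have h5 : |b ^ (n + 1) - a ^ (n + 1)| ≤ δ * (n + 1) * (2 * a) ^ n := by
      refine (abs_pow_sub_pow_le b a (n + 1)).trans ?_
      rw [abs_sub_comm, abs_of_pos ha, abs_of_pos hb0, Nat.add_sub_cancel]
      push_cast
      gcongr
      exact max_le (by linarith) (by linarith)
    rw [div_sub_div _ _ (by positivity) (by positivity), one_mul, mul_one, abs_div,
      abs_of_pos (by positivity : 0 < a ^ (n + 1) * b ^ (n + 1))]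
    calc |b ^ (n + 1) - a ^ (n + 1)| / (a ^ (n + 1) * b ^ (n + 1))
        ≤ δ * (n + 1) * (2 * a) ^ n / (a ^ (n + 1) * (a / 2) ^ (n + 1)) := by gcongr
      _ = _ := by
        rw [mul_pow, div_pow]
        field_simp
        ring
  have h5 : chi (a / t) / a ^ (n + 1) - chi (b / t) / b ^ (n + 1) =
      (chi (a / t) - chi (b / t)) / a ^ (n + 1) +
        chi (b / t) * (1 / a ^ (n + 1) - 1 / b ^ (n + 1)) := by ring
  rw [h5]
  refine (abs_add_le _ _).trans ?_
  rw [abs_div, abs_mul, abs_of_pos (by positivity : 0 < a ^ (n + 1)),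
    abs_of_nonneg (chi_nonneg _)]
  calc |chi (a / t) - chi (b / t)| / a ^ (n + 1) +
        chi (b / t) * |1 / a ^ (n + 1) - 1 / b ^ (n + 1)|
      ≤ 4 * δ / a / a ^ (n + 1) + 1 * ((n + 1) * 2 ^ n * 2 ^ (n + 1) * δ / a ^ (n + 2)) := by
        gcongr
        exact chi_le_one _
    _ = _ := by
        field_simp
        ring

/-- `chi (‖z‖ / t) ≠ chi (‖z'‖ / t)` forces `‖z‖ ≤ 4 t`. -/
theorem kk_lip (n : ℕ) : ∃ c : ℝ, 0 < c ∧ ∀ (d : ℕ) (t s : ℝ) (z z' : X d), 0 < t → 0 < s →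
    ‖z - z'‖ ≤ ‖z‖ / 2 → |kk n t s z - kk n t s z'| ≤ c * ‖z - z'‖ / ‖z‖ ^ (n + 2) := by
  refine ⟨2 * (4 + (n + 1) * 2 ^ n * 2 ^ (n + 1)), by positivity, fun d t s z z' ht hs hz => ?_⟩
  rcases (norm_nonneg z).eq_or_lt with h0 | h0
  · have h1 : z = z' := sub_eq_zero.1 (norm_le_zero_iff.1 (by linarith))
    simp [h1]
  have h1 := abs_norm_sub_norm_le z z'
  have h2 := Ker0_aux n ht h0 h1 hz
  have h3 := Ker0_aux n hs h0 h1 hz
  have h4 : kk n t s z - kk n t s z' =
      (chi (‖z‖ / t) / ‖z‖ ^ (n + 1) - chi (‖z'‖ / t) / ‖z'‖ ^ (n + 1)) -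
        (chi (‖z‖ / s) / ‖z‖ ^ (n + 1) - chi (‖z'‖ / s) / ‖z'‖ ^ (n + 1)) := by
    unfold kk
    ring
  rw [h4]
  refine (abs_sub _ _).trans ((add_le_add h2 h3).trans_eq ?_)
  ring

theorem kk_smul {r : ℝ} (hr : 0 < r) (t s : ℝ) (z : X d) :
    kk n (r * t) (r * s) (r • z) = (r ^ (n + 1))⁻¹ * kk n t s z := by
  unfold kk
  rw [norm_smul, Real.norm_of_nonneg hr.le, mul_div_mul_left _ _ hr.ne',
    mul_div_mul_left _ _ hr.ne', mul_pow]
  ring

theorem kk_iso {m : ℕ} (ι : X m →ₗᵢ[ℝ] X d) (t s : ℝ) (z : X m) :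
    kk n t s (ι z) = kk n t s z := by
  simp only [kk, LinearIsometry.norm_map]

end Crest.Agent.R085
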