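import Crest.Agent.R085.Ker0

/-! Row 85. The kernel, the weight `wt`, the filter `FF`, bumps and cut-offs. -/

set_option autoImplicit false

open MeasureTheory Set Filter Topology Metric
open scoped ENNReal NNReal

noncomputable section

namespace Crest.Agent.R085

variable {n d : ℕ}

theorem Ker1_pow {v : ℝ} (hv : 0 ≤ v) : v ^ (3 / 2 : ℝ) = v * √v := by
  rw [Real.sqrt_eq_rpow, show (3 / 2 : ℝ) = 1 + 1 / 2 by norm_num,
    Real.rpow_add' hv (by norm_num), Real.rpow_one]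

theorem Ker1_le {a u v : ℝ} (ha : 0 ≤ a) (h : max 1 v ≤ a * max 1 u) :
    wt v ≤ a * √a * wt u := by
  unfold wt
  rw [← Ker1_pow ha, ← Real.mul_rpow ha (zero_le_one.trans (le_max_left _ _))]
  exact Real.rpow_le_rpow (zero_le_one.trans (le_max_left _ _)) h (by norm_num)

theorem one_le_wt (u : ℝ) : 1 ≤ wt u := by
  exact Real.one_le_rpow (le_max_left _ _) (by norm_num)

theorem wt_pos (u : ℝ) : 0 < wt u := by
  exact zero_lt_one.trans_le (one_le_wt u)

theorem wt_mono : Monotone wt := by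
  intro u v h
  exact Real.rpow_le_rpow (zero_le_one.trans (le_max_left _ _)) (max_le_max_left 1 h) (by norm_num)

theorem continuous_wt : Continuous wt := by
  exact (continuous_const.max continuous_id).rpow_const fun _ => Or.inr (by norm_num)

theorem wt_of_le {u : ℝ} (h : u ≤ 1) : wt u = 1 := by
  unfold wt
  rw [max_eq_left h, Real.one_rpow]

theorem wt_of_ge {u : ℝ} (h : 1 ≤ u) : wt u = u * √u := by
  unfold wt
  rw [max_eq_right h, Ker1_pow (zero_le_one.trans h)]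

theorem le_wt (u : ℝ) : u ≤ wt u := by
  rcases le_total u 1 with h | h
  · exact h.trans (one_le_wt u)
  · rw [wt_of_ge h]
    exact le_mul_of_one_le_right (zero_le_one.trans h) (Real.one_le_sqrt.2 h)

theorem wt_mul_le {a u : ℝ} (ha : 1 ≤ a) : wt (a * u) ≤ a * √a * wt u := by
  refine Ker1_le (zero_le_one.trans ha) (max_le ?_ ?_)
  · exact one_le_mul_of_one_le_of_one_le ha (le_max_left _ _)
  · exact mul_le_mul_of_nonneg_left (le_max_right _ _) (zero_le_one.trans ha)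

theorem wt_add_le {a u : ℝ} (ha : 0 ≤ a) : wt (u + a) ≤ (1 + a) * √(1 + a) * wt u := by
  have h1 := le_max_left 1 u
  have h2 := le_max_right 1 u
  refine Ker1_le (by linarith) (max_le ?_ ?_) <;> nlinarith

theorem le_mul_wt {ε u : ℝ} (hε : 0 < ε) (h : 1 / ε ^ 2 ≤ u) : u ≤ ε * wt u := by
  have h0 : 0 ≤ u := le_trans (by positivity) h
  have h1 : 1 / ε ≤ √u := Real.le_sqrt_of_sq_le (by rwa [div_pow, one_pow])
  rw [div_le_iff₀ hε] at h1
  have h2 : u * √u ≤ wt u := by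
    rw [← Ker1_pow h0]
    exact Real.rpow_le_rpow h0 (le_max_right _ _) (by norm_num)
  calc u ≤ u * (√u * ε) := le_mul_of_one_le_right h0 h1
    _ = ε * (u * √u) := by ring
    _ ≤ ε * wt u := mul_le_mul_of_nonneg_left h2 hε.le

instance FF_neBot : FF.NeBot := by
  unfold FF
  infer_instance

theorem FF_ev {a : ℝ} (ha : 0 < a) (b : ℝ) :
    ∀ᶠ p : ℝ × ℝ in FF, 0 < p.1 ∧ p.1 ≤ a ∧ b ≤ p.2 := by
  unfold FF
  filter_upwards [prod_mem_prod (Ioc_mem_nhdsGT ha) (Ici_mem_atTop b)] with p hp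
  exact ⟨hp.1.1, hp.1.2, hp.2⟩

theorem FF_basis {P : ℝ × ℝ → Prop} (h : ∀ᶠ p in FF, P p) :
    ∃ a b : ℝ, 0 < a ∧ a ≤ b ∧ ∀ t s : ℝ, 0 < t → t ≤ a → b ≤ s → P (t, s) := by
  unfold FF at h
  obtain ⟨pa, hpa, pb, hpb, H⟩ := eventually_prod_iff.1 h
  obtain ⟨a, ha, hsub⟩ := mem_nhdsGT_iff_exists_Ioc_subset.1 hpa
  obtain ⟨b, hb⟩ := eventually_atTop.1 hpb
  exact ⟨a, max a b, ha, le_max_left _ _, fun t s ht hta hs =>
    H (hsub ⟨ht, hta⟩) (hb s ((le_max_right _ _).trans hs))⟩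

theorem FF_smul {r : ℝ} (hr : 0 < r) : Tendsto (fun p : ℝ × ℝ => (r * p.1, r * p.2)) FF FF := by
  unfold FF
  have h1 : Tendsto (fun t : ℝ => r * t) (𝓝[>] 0) (𝓝[>] 0) := by
    refine tendsto_nhdsWithin_iff.2 ⟨?_, ?_⟩
    · have : Tendsto (fun t : ℝ => r * t) (𝓝 0) (𝓝 (r * 0)) :=
        (continuous_const.mul continuous_id).tendsto 0
      rw [mul_zero] at this
      exact this.mono_left nhdsWithin_le_nhds
    · filter_upwards [self_mem_nhdsWithin] with t ht
      exact mul_pos hr ht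
  exact (h1.comp tendsto_fst).prodMk ((tendsto_id.const_mul_atTop hr).comp tendsto_snd)

theorem FF_fst : Tendsto (fun p : ℝ × ℝ => p.1) FF (𝓝[>] 0) := by
  exact tendsto_fst

theorem FF_snd : Tendsto (fun p : ℝ × ℝ => p.2) FF atTop := by
  exact tendsto_snd

/-- The usual error term tends to zero. -/
theorem FF_err {a : ℝ} (ha : 0 < a) (c₁ c₂ : ℝ) :
    Tendsto (fun p : ℝ × ℝ => c₁ * p.1 ^ a + c₂ / √p.2) FF (𝓝 0) := by
  have h1 : Tendsto (fun t : ℝ => t ^ a) (𝓝 0) (𝓝 0) := by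
    have := (Real.continuous_rpow_const ha.le).tendsto 0
    rwa [Real.zero_rpow ha.ne'] at this
  have h2 := (h1.comp (FF_fst.mono_right nhdsWithin_le_nhds)).const_mul c₁
  have h3 := (Real.tendsto_sqrt_atTop.comp FF_snd).const_div_atTop c₂
  simpa using h2.add h3

theorem UU_le : (UU : Filter ℕ) ≤ atTop := by
  rw [← Nat.cofinite_eq_atTop]
  exact hyperfilter_le_cofinite

end Crest.Agent.R085
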