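import Crest.Agent.R085.Liou1

/-! Row 85. Liouville theorem on `ℝⁿ`. -/

set_option autoImplicit false

open MeasureTheory Set Filter Topology Metric
open scoped ENNReal NNReal

noncomputable section

namespace Crest.Agent.R085

variable {n : ℕ}

theorem Liou_le {G : X n → ℝ} (hG : Continuous G)
    (h : ∀ ε : ℝ, 0 < ε → ∫ z, bmp 0 ε z * G z = 0) : G 0 ≤ 0 := by
  by_contra h0
  rw [not_le] at h0
  obtain ⟨ε, hε, hb⟩ := Metric.eventually_nhds_iff.1 (hG.continuousAt.eventually (lt_mem_nhds h0))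
  have hT := bmp_test (0 : X n) hε
  refine (Continuous.integral_pos_of_hasCompactSupport_nonneg_nonzero (μ := volume) (x := 0)
    (hT.continuous.mul hG) hT.2.mul_right (fun z => ?_) ?_).ne' (h ε hε)
  · rcases lt_or_ge (dist z 0) ε with hz | hz
    · exact mul_nonneg (bmp_nonneg _ _ _) (hb hz).le
    · simp [bmp_off 0 hε z hz]
  · have := bmp_ge (x := (0 : X n)) (y := 0) hε (by rw [dist_self]; positivity)
    exact mul_ne_zero (by linarith) h0.ne'

theorem Liou_harm {f φ : X n → ℝ} (hf : Continuous f) (h : Harm n (volume : Measure (X n)) f)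
    (hφ : Test φ) : Harm n (volume : Measure (X n)) fun x => ∫ y, φ (x - y) * f y := by
  obtain ⟨C, -, hu, -⟩ := vol_reg n
  intro ψ hψ h0
  obtain ⟨h1, h2⟩ := test_moll hφ hψ
  rw [h0, mul_zero] at h2
  refine (h _ h1 h2).congr' ?_
  filter_upwards [FF_ev one_pos 1] with p hp
  have hs : 0 < p.2 := one_pos.trans_le hp.2.2
  rw [EE_moll hf hφ.continuous hφ.2 hψ.continuous hψ.2 hp.1 hs,
    EE_adj hu hp.1 hs hf h1.continuous h1.2]

theorem Liou_growth {f : X n → ℝ} {M : ℝ} (hg : ∀ y, |f y| ≤ M * wt ‖y‖) {ε : ℝ} (hε : 0 < ε)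
    (x : X n) : |∫ y, bmp 0 ε (x - y) * f y| ≤
      (∫ z : X n, bmp 0 ε z) * (M * ((1 + ε) * √(1 + ε))) * (1 + ‖x‖) ^ (3 / 2 : ℝ) := by
  have hT := bmp_test (0 : X n) hε
  have hM : 0 ≤ M := nonneg_of_mul_nonneg_left ((abs_nonneg _).trans (hg 0)) (wt_pos _)
  have hi : Integrable (bmp (0 : X n) ε) := hT.continuous.integrable_of_hasCompactSupport hT.2
  rw [mul_assoc, ← integral_sub_left_eq_self (bmp (0 : X n) ε) volume x, ← integral_mul_const]
  refine norm_integral_le_of_norm_le (f := fun y => bmp 0 ε (x - y) * f y)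
    ((hi.comp_sub_left x).mul_const _) (ae_of_all _ fun y => ?_)
  rw [norm_mul, Real.norm_of_nonneg (bmp_nonneg _ _ _)]
  rcases lt_or_ge (dist (x - y) 0) ε with hz | hz
  · refine mul_le_mul_of_nonneg_left ((hg y).trans ?_) (bmp_nonneg _ _ _)
    rw [mul_assoc]
    refine mul_le_mul_of_nonneg_left ?_ hM
    have h1 : ‖y‖ ≤ ‖x‖ + ε := by
      rw [dist_zero_right] at hz
      linarith [norm_sub_norm_le y x, norm_sub_rev x y]
    refine ((wt_mono h1).trans (wt_add_le hε.le)).trans
      (mul_le_mul_of_nonneg_left ?_ (by positivity))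
    exact Real.rpow_le_rpow (by positivity) (max_le (by simp) (by simp)) (by norm_num)
  · simp [bmp_off 0 hε _ hz]

/-- Mollify with normalised bumps `bmp 0 ε / ∫ bmp 0 ε` (`EE_moll`, `EE_adj`), apply `liou_lip`,
let `ε → 0`; a continuous additive map is linear. -/
theorem liouville {f : X n → ℝ} (hf : Continuous f) (h : Harm n (volume : Measure (X n)) f)
    {M : ℝ} (hg : ∀ y, |f y| ≤ M * wt ‖y‖) : ∃ ℓ : X n →L[ℝ] ℝ, ∀ y, f y = f 0 + ℓ y := by
  have key : ∀ x v, f (x + v) - f x = f v - f 0 := by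
    intro x v
    have hG : Continuous fun z => (f (x + v - z) - f (x - z)) - (f (v - z) - f (0 - z)) := by
      fun_prop
    have h1 : ∀ ε : ℝ, 0 < ε →
        ∫ z, bmp 0 ε z * ((f (x + v - z) - f (x - z)) - (f (v - z) - f (0 - z))) = 0 := by
      intro ε hε
      have hT := bmp_test (0 : X n) hε
      have h2 := liou_lip (locLip_moll hf hT) (Liou_harm hf h hT) (by norm_num) le_rfl
        (Liou_growth hg hε) x v
      have e : ∀ a : X n, ∫ y, bmp 0 ε (a - y) * f y = ∫ z, bmp 0 ε z * f (a - z) := fun a => by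
        rw [← integral_sub_left_eq_self _ volume a]
        simp only [sub_sub_cancel]
      have hi : ∀ a : X n, Integrable fun z => bmp 0 ε z * f (a - z) := fun a =>
        (hT.continuous.mul (by fun_prop)).integrable_of_hasCompactSupport hT.2.mul_right
      simp only [e] at h2
      simp only [mul_sub]
      have hi' : ∀ a b : X n, Integrable fun z => bmp 0 ε z * f (a - z) - bmp 0 ε z * f (b - z) :=
        fun a b => (hi a).sub (hi b)
      rw [integral_sub (hi' _ _) (hi' _ _), integral_sub (hi _) (hi _),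
        integral_sub (hi _) (hi _), h2, sub_self]
    have h3 := Liou_le hG h1
    have h4 := Liou_le hG.neg fun ε hε => by
      simp only [Pi.neg_apply, mul_neg, integral_neg, h1 ε hε, neg_zero]
    simp only [Pi.neg_apply, sub_zero] at h3 h4
    linarith
  let a : X n →+ ℝ := AddMonoidHom.mk' (fun y => f y - f 0) fun x v => by linarith [key x v]
  exact ⟨a.toRealLinearMap (hf.sub continuous_const), fun y => by
    change _ = f 0 + (f y - f 0)
    ring⟩

end Crest.Agent.R085
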