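import Crest.Agent.R085.HolC

/-! Row 85. Liouville theorem on `ℝⁿ`. -/

set_option autoImplicit false

open MeasureTheory Set Filter Topology Metric
open scoped ENNReal NNReal

noncomputable section

namespace Crest.Agent.R085

variable {n : ℕ}

private theorem h93_zero {a K e : ℝ} (he : 0 < e)
    (h : ∀ᶠ k : ℕ in atTop, |a| ≤ K * (k : ℝ) ^ (-e)) : a = 0 := by
  have h1 : Tendsto (fun k : ℕ => K * (k : ℝ) ^ (-e)) atTop (𝓝 (K * 0)) :=
    ((tendsto_rpow_neg_atTop he).comp tendsto_natCast_atTop_atTop).const_mul K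
  rw [mul_zero] at h1
  exact abs_nonpos_iff.1 (ge_of_tendsto h1 h)

private theorem h93_locLip {f : X n → ℝ} (hf : LocLip f) (v : X n) :
    LocLip fun x => f (x + v) - f x := by
  intro R
  obtain ⟨Λ, hΛ⟩ := hf (R + ‖v‖)
  refine ⟨Λ + Λ, LipschitzOnWith.of_dist_le_mul fun x hx y hy => ?_⟩
  rw [mem_ball_zero_iff] at hx hy
  have hv := norm_nonneg v
  have h1 := hΛ.dist_le_mul (x + v) (by
    rw [mem_ball_zero_iff]; linarith [norm_add_le x v]) (y + v) (by
    rw [mem_ball_zero_iff]; linarith [norm_add_le y v])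
  have h2 := hΛ.dist_le_mul x (by rw [mem_ball_zero_iff]; linarith) y (by
    rw [mem_ball_zero_iff]; linarith)
  rw [dist_add_right] at h1
  rw [Real.dist_eq] at h1 h2 ⊢
  have h3 : f (x + v) - f x - (f (y + v) - f y) = (f (x + v) - f (y + v)) - (f x - f y) := by ring
  rw [h3]
  refine (abs_sub _ _).trans ?_
  push_cast
  linarith

private theorem h93_hol (n : ℕ) : ∃ γ c : ℝ, 0 < γ ∧ 0 < c ∧ ∀ (f : X n → ℝ) (σ M : ℝ),
    LocLip f → Harm n (volume : Measure (X n)) f → 0 ≤ σ → σ ≤ 3 / 2 →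
    (∀ y, |f y| ≤ M * (1 + ‖y‖) ^ σ) → ∀ ρ : ℝ, 1 ≤ ρ → ∀ x y : X n, ‖x‖ < ρ → ‖y‖ < ρ →
      |f x - f y| ≤ c * M * 2 ^ σ * ‖x - y‖ ^ γ * ρ ^ (σ - γ) := by
  obtain ⟨C, hC, hU, hL⟩ := vol_reg n
  obtain ⟨γ, c, hγ, -, hc, H⟩ := holder n hC (le_refl (0 : ℝ))
  refine ⟨γ, c, hγ, hc, fun f σ M hf h hσ0 hσ hg ρ hρ x y hx hy => ?_⟩
  have hM : 0 ≤ M := by
    have := hg 0
    rw [norm_zero, add_zero, Real.one_rpow, mul_one] at this
    exact (abs_nonneg _).trans this
  have hρ0 : 0 < ρ := by linarith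
  have hs : ∀ z : X n, z ∈ (volume : Measure (X n)).support := fun z => by
    rw [Measure.support_eq_univ]; trivial
  have hG : Gr (volume : Measure (X n)) f 0 ρ (M * (2 * ρ) ^ σ) := by
    intro z _
    refine (hg z).trans ?_
    rw [mul_assoc, sub_zero]
    refine mul_le_mul_of_nonneg_left ?_ hM
    have h1 : (1 : ℝ) ≤ max 1 (‖z‖ / ρ) := le_max_left _ _
    have h2 : ‖z‖ ≤ ρ * max 1 (‖z‖ / ρ) := by
      have := le_max_right 1 (‖z‖ / ρ)
      rw [div_le_iff₀ hρ0] at this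
      linarith
    have h3 : 1 + ‖z‖ ≤ (2 * ρ) * max 1 (‖z‖ / ρ) := by nlinarith
    calc (1 + ‖z‖) ^ σ ≤ ((2 * ρ) * max 1 (‖z‖ / ρ)) ^ σ :=
          Real.rpow_le_rpow (by positivity) h3 hσ0
      _ = (2 * ρ) ^ σ * (max 1 (‖z‖ / ρ)) ^ σ := Real.mul_rpow (by positivity) (by positivity)
      _ ≤ (2 * ρ) ^ σ * wt (‖z‖ / ρ) :=
          mul_le_mul_of_nonneg_left (Real.rpow_le_rpow_of_exponent_le h1 hσ) (by positivity)
  have := H n volume f 0 ρ _ hU hL (RB_vol n) hf h (hs 0) hρ0 (by positivity) hG x (hs x) y (hs y)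
    (by rwa [dist_zero_right]) (by rwa [dist_zero_right])
  refine this.trans (le_of_eq ?_)
  rw [Real.mul_rpow (by norm_num) hρ0.le, Real.div_rpow (norm_nonneg _) hρ0.le,
    Real.rpow_sub hρ0]
  ring

private theorem h93_quad {f : X n → ℝ} {v w : X n} {B : ℝ}
    (h : ∀ x, (f (x + v + w) - f (x + v)) - (f (x + w) - f x) = B) (k j : ℕ) :
    f ((k : ℝ) • v + (j : ℝ) • w) - f ((k : ℝ) • v) - f ((j : ℝ) • w) + f 0 = k * j * B := by
  have h1 : ∀ (k : ℕ) (x : X n), f ((k : ℝ) • v + x + w) - f ((k : ℝ) • v + x) =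
      f (x + w) - f x + k * B := by
    intro k x
    induction k with
    | zero => simp
    | succ k ih =>
      have := h ((k : ℝ) • v + x)
      have e : ((k + 1 : ℕ) : ℝ) • v + x = (k : ℝ) • v + x + v := by
        push_cast; rw [add_smul, one_smul]; abel
      rw [e]
      push_cast
      linarith
  induction j with
  | zero => simp
  | succ j ih =>
    have := h1 k ((j : ℝ) • w)
    have e : ((j + 1 : ℕ) : ℝ) • w = (j : ℝ) • w + w := by
      push_cast; rw [add_smul, one_smul]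
    rw [e, ← add_assoc]
    push_cast
    linarith

private theorem h93_B {f : X n → ℝ} {v w : X n} {B σ M : ℝ} (hσ0 : 0 ≤ σ) (hσ : σ ≤ 3 / 2)
    (hg : ∀ y, |f y| ≤ M * (1 + ‖y‖) ^ σ)
    (h : ∀ x, (f (x + v + w) - f (x + v)) - (f (x + w) - f x) = B) : B = 0 := by
  have hM : 0 ≤ M := by
    have := hg 0
    rw [norm_zero, add_zero, Real.one_rpow, mul_one] at this
    exact (abs_nonneg _).trans this
  have hv := norm_nonneg v
  have hw := norm_nonneg w
  refine h93_zero (K := 4 * (M * (1 + ‖v‖ + ‖w‖) ^ (3 / 2 : ℝ))) (e := 1 / 2) (by norm_num) ?_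
  filter_upwards [eventually_ge_atTop 1] with k hk
  have hk1 : (1 : ℝ) ≤ k := by exact_mod_cast hk
  have hk0 : (0 : ℝ) < k := by linarith
  have key : ∀ y : X n, ‖y‖ ≤ k * (‖v‖ + ‖w‖) →
      |f y| ≤ M * (1 + ‖v‖ + ‖w‖) ^ (3 / 2 : ℝ) * (k : ℝ) ^ (3 / 2 : ℝ) := by
    intro y hy
    refine (hg y).trans ?_
    rw [mul_assoc, ← Real.mul_rpow (by positivity) hk0.le]
    refine mul_le_mul_of_nonneg_left ?_ hM
    have hy0 := norm_nonneg y
    calc (1 + ‖y‖) ^ σ ≤ (1 + ‖y‖) ^ (3 / 2 : ℝ) :=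
          Real.rpow_le_rpow_of_exponent_le (by linarith) hσ
      _ ≤ _ := Real.rpow_le_rpow (by positivity) (by nlinarith) (by norm_num)
  have nv : ‖(k : ℝ) • v‖ = k * ‖v‖ := by rw [norm_smul, Real.norm_natCast]
  have nw : ‖(k : ℝ) • w‖ = k * ‖w‖ := by rw [norm_smul, Real.norm_natCast]
  have a1 := key ((k : ℝ) • v + (k : ℝ) • w) (by
    refine (norm_add_le _ _).trans ?_; rw [nv, nw]; linarith)
  have a2 := key ((k : ℝ) • v) (by rw [nv]; nlinarith)
  have a3 := key ((k : ℝ) • w) (by rw [nw]; nlinarith)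
  have a4 := key 0 (by rw [norm_zero]; positivity)
  have q := h93_quad h k k
  have b : (k : ℝ) * k * |B| ≤ 4 * (M * (1 + ‖v‖ + ‖w‖) ^ (3 / 2 : ℝ)) * (k : ℝ) ^ (3 / 2 : ℝ) := by
    have : (k : ℝ) * k * |B| = |(k : ℝ) * k * B| := by
      rw [abs_mul _ B, abs_of_nonneg (by positivity : (0 : ℝ) ≤ k * k)]
    rw [this, ← q]
    rw [abs_le] at a1 a2 a3 a4 ⊢
    constructor <;> linarith [a1.1, a1.2, a2.1, a2.2, a3.1, a3.2, a4.1, a4.2]
  have e : (k : ℝ) ^ (3 / 2 : ℝ) = k * k * (k : ℝ) ^ (-(1 / 2) : ℝ) := by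
    rw [show (3 / 2 : ℝ) = 1 + 1 + -(1 / 2) by norm_num, Real.rpow_add hk0, Real.rpow_add hk0,
      Real.rpow_one]
  rw [e] at b
  have hkk : (0 : ℝ) < k * k := by positivity
  refine le_of_mul_le_mul_left ?_ hkk
  linarith

/-- Induction on `k` with `σ ≤ k γ`.  `holder` at the scale `ρ ≥ 1` gives
`|f x - f y| ≤ c M' ρ^(σ - γ) ‖x - y‖^γ` on `ball 0 ρ`.  If `σ < γ`, then `f` is constant.
Otherwise the differences `x ↦ f (x + h) - f x` have growth `σ - γ`, so (induction)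
`B x h = f (x + h) - f x - f h + f 0` is additive in `x`, symmetric, hence biadditive; then
`f (k • x) = k² B x x / 2 + O(k)` (`f ((k+1) • x) = f (k • x) + f x - f 0 + k B x x`), the growth
forces `B x x = 0`, and polarisation gives `B = 0`. -/
theorem liou_lip {f : X n → ℝ} (hf : LocLip f) (h : Harm n (volume : Measure (X n)) f) {σ M : ℝ}
    (hσ0 : 0 ≤ σ) (hσ : σ ≤ 3 / 2) (hg : ∀ y, |f y| ≤ M * (1 + ‖y‖) ^ σ) (x v : X n) :
    f (x + v) - f x = f v - f 0 := by
  obtain ⟨γ, c, hγ, hc, H⟩ := h93_hol n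
  obtain ⟨C, -, hU, -⟩ := vol_reg n
  have base : ∀ (f : X n → ℝ) (σ M : ℝ), LocLip f → Harm n (volume : Measure (X n)) f → 0 ≤ σ →
      σ ≤ 3 / 2 → (∀ y, |f y| ≤ M * (1 + ‖y‖) ^ σ) → σ < γ → ∀ x y, f x - f y = 0 := by
    intro f σ M hf h hσ0 hσ hg hlt x y
    refine h93_zero (K := c * M * 2 ^ σ * ‖x - y‖ ^ γ) (e := γ - σ) (by linarith) ?_
    filter_upwards [tendsto_natCast_atTop_atTop.eventually_gt_atTop (1 + ‖x‖ + ‖y‖)] with k hk
    have hx := norm_nonneg x
    have hy := norm_nonneg y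
    rw [neg_sub]
    exact H f σ M hf h hσ0 hσ hg k (by linarith) x y (by linarith) (by linarith)
  have main : ∀ (k : ℕ) (f : X n → ℝ) (σ M : ℝ), LocLip f → Harm n (volume : Measure (X n)) f →
      0 ≤ σ → σ ≤ 3 / 2 → (∀ y, |f y| ≤ M * (1 + ‖y‖) ^ σ) → σ < k * γ →
      ∀ x v, f (x + v) - f x = f v - f 0 := by
    intro k
    induction k with
    | zero =>
      intro f σ M _ _ hσ0 _ _ hlt
      rw [Nat.cast_zero, zero_mul] at hlt
      exact absurd hlt (not_lt.2 hσ0)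
    | succ k ih =>
      intro f σ M hf h hσ0 hσ hg hlt x v
      rcases lt_or_ge σ γ with h1 | h1
      · rw [base f σ M hf h hσ0 hσ hg h1, base f σ M hf h hσ0 hσ hg h1]
      have hM : 0 ≤ M := by
        have := hg 0
        rw [norm_zero, add_zero, Real.one_rpow, mul_one] at this
        exact (abs_nonneg _).trans this
      have hv := norm_nonneg v
      have hc' := hf.continuous
      have hg' : ∀ y, |f (y + v) - f y| ≤
          (c * M * 2 ^ σ * ‖v‖ ^ γ * (1 + ‖v‖) ^ (σ - γ) * 2 ^ (σ - γ)) * (1 + ‖y‖) ^ (σ - γ) := by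
        intro y
        have hy := norm_nonneg y
        have := H f σ M hf h hσ0 hσ hg ((1 + ‖v‖) * 2 * (1 + ‖y‖)) (by nlinarith) (y + v) y
          (by nlinarith [norm_add_le y v, mul_nonneg hv hy]) (by nlinarith [mul_nonneg hv hy])
        rw [add_sub_cancel_left, Real.mul_rpow (by positivity) (by positivity),
          Real.mul_rpow (x := 1 + ‖v‖) (by positivity) (by positivity)] at this
        refine this.trans (le_of_eq ?_)
        ring
      have I := ih (fun y => f (y + v) - f y) (σ - γ) _ (h93_locLip hf v)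
        (Harm.sub hU (hc'.comp (continuous_id.add continuous_const)) hc' (h.comp_add v) h)
        (by linarith) (by linarith) hg' (by push_cast at hlt; linarith)
      have hB := h93_B (v := x) (w := v) hσ0 hσ hg fun y => I y x
      simp only [zero_add] at hB
      linarith
  obtain ⟨k, hk⟩ := exists_nat_gt (σ / γ)
  rw [div_lt_iff₀ hγ] at hk
  exact main k f σ M hf h hσ0 hσ hg hk x v

end Crest.Agent.R085
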