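import Crest.Agent.R085.Liou0

/-! Row 85. Liouville theorem on `ℝⁿ`. -/

set_option autoImplicit false

open MeasureTheory Set Filter Topology Metric
open scoped ENNReal NNReal

noncomputable section

namespace Crest.Agent.R085

variable {n : ℕ}

private theorem int_prod {μ ν : Measure (X n)} [IsLocallyFiniteMeasure μ] [IsLocallyFiniteMeasure ν]
    {H : X n × X n → ℝ} (hH : Continuous H) (R : ℝ)
    (h : ∀ p, H p ≠ 0 → ‖p.1‖ ≤ R ∧ ‖p.2‖ ≤ R) : Integrable H (μ.prod ν) := by
  refine hH.integrable_of_hasCompactSupport (HasCompactSupport.intro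
    ((isCompact_closedBall (0 : X n) R).prod (isCompact_closedBall (0 : X n) R)) fun p hp => ?_)
  by_contra h0
  exact hp ⟨mem_closedBall_zero_iff.2 (h p h0).1, mem_closedBall_zero_iff.2 (h p h0).2⟩

private theorem off_lt {ψ : X n → ℝ} {R : ℝ} (h : Off ψ 0 R) {y : X n} (hy : ψ y ≠ 0) :
    ‖y‖ < R := by
  by_contra h0
  exact hy (h y (by simpa using h0))

private theorem int_shift {m : Measure (X n)} [IsLocallyFiniteMeasure m] {g φ : X n → ℝ}
    (hg : Continuous g) (hφ : Continuous φ) (hφc : HasCompactSupport φ) (x : X n) :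
    Integrable (fun y => φ (x - y) * g y) m :=
  ((hφ.comp (continuous_const.sub continuous_id)).mul hg).integrable_of_hasCompactSupport
    (hφc.comp_homeomorph (Homeomorph.subLeft x)).mul_right

/-- Mollification: Fubini and the translation invariance of the Lebesgue measure. -/
theorem EE_moll {m : Measure (X n)} [IsLocallyFiniteMeasure m] {g φ ψ : X n → ℝ}
    (hg : Continuous g) (hφ : Continuous φ) (hφc : HasCompactSupport φ) (hψ : Continuous ψ)
    (hψc : HasCompactSupport ψ) {t s : ℝ} (ht : 0 < t) (hs : 0 < s) :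
    EE n volume t s (fun x => ∫ y, φ (x - y) * g y ∂m) ψ =
      ∫ y, g y * LL n volume t s (fun y' => ∫ x, φ (x - y') * ψ x) y ∂m := by
  obtain ⟨C, -, hu, -⟩ := vol_reg n
  obtain ⟨R, hR, ho⟩ := exists_off hφc 0
  obtain ⟨R', hR', ho'⟩ := exists_off hψc 0
  have hk := continuous_kk (n := n) (d := n) ht hs
  have hm : 0 < max t s := lt_max_of_lt_left ht
  have hF : Continuous fun x => ∫ y, φ (x - y) * g y ∂m := by
    have h := hφc.continuous_convolution_right (ContinuousLinearMap.mul ℝ ℝ)
      (hg.locallyIntegrable (μ := m)) hφ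
    refine h.congr fun x => ?_
    simp [convolution_def, mul_comm]
  have hL := continuous_LL hu ht hs hψ
  have hL0 : ∀ x, LL n volume t s ψ x ≠ 0 → ‖x‖ ≤ R' + 2 * max t s := fun x hx => by
    by_contra h0
    apply hx
    rw [not_le] at h0
    have h1 : ψ x = 0 := ho' x (by simp only [dist_zero_right]; linarith)
    refine integral_eq_zero_of_ae (ae_of_all _ fun y => ?_)
    by_cases h2 : ψ y = 0
    · simp [h1, h2]
    · have h3 := off_lt ho' h2
      have h4 := norm_sub_norm_le x y
      simp [kk_zero_of_ge' (n := n) ht hs (z := x - y) (by linarith)]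
  have key : ∀ y, LL n volume t s (fun y' => ∫ x, φ (x - y') * ψ x) y =
      ∫ x, φ (x - y) * LL n volume t s ψ x := fun y => by
    have e1 : ∀ w, ∫ x, φ (x - w) * ψ x = ∫ u, φ u * ψ (w + u) := fun w => by
      rw [← integral_add_left_eq_self _ w]
      simp
    have i1 : ∀ w, Integrable fun u => φ u * ψ (w + u) := fun w =>
      (hφ.mul (hψ.comp (continuous_const.add continuous_id))).integrable_of_hasCompactSupport
        hφc.mul_right
    have i2 : Integrable (Function.uncurry fun w u : X n =>
        φ u * ((ψ (y + u) - ψ (w + u)) * kk n t s (y - w))) (volume.prod volume) := by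
      refine int_prod (by unfold Function.uncurry; fun_prop) (R + ‖y‖ + 2 * max t s)
        fun p hp => ?_
      have h1 := off_lt ho (left_ne_zero_of_mul hp)
      have h2 : ‖y - p.1‖ < 2 * max t s := by
        by_contra h0
        exact right_ne_zero_of_mul (right_ne_zero_of_mul hp) (kk_zero_of_ge' ht hs (not_lt.1 h0))
      have h3 := norm_sub_norm_le p.1 y
      rw [norm_sub_rev] at h3
      constructor <;> linarith [norm_nonneg y]
    calc _ = ∫ w, ∫ u, φ u * ((ψ (y + u) - ψ (w + u)) * kk n t s (y - w)) := by
          refine integral_congr_ae (ae_of_all _ fun w => ?_)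
          simp only [e1]
          rw [← integral_sub (i1 y) (i1 w), ← integral_mul_const]
          exact integral_congr_ae (ae_of_all _ fun u => by ring)
      _ = ∫ u, φ u * LL n volume t s ψ (y + u) := by
          rw [integral_integral_swap i2]
          refine integral_congr_ae (ae_of_all _ fun u => ?_)
          simp only
          rw [integral_const_mul, ← LL_vol_add]
          rfl
      _ = _ := by
          rw [← integral_add_left_eq_self (fun x => φ (x - y) * LL n volume t s ψ x) y]
          simp
  have i3 : Integrable (Function.uncurry fun x y : X n =>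
      φ (x - y) * g y * LL n volume t s ψ x) (volume.prod m) := by
    refine int_prod (by unfold Function.uncurry; fun_prop) (R + (R' + 2 * max t s)) fun p hp => ?_
    have h1 := off_lt ho (left_ne_zero_of_mul (left_ne_zero_of_mul hp))
    have h2 := hL0 _ (right_ne_zero_of_mul hp)
    have h3 := norm_sub_norm_le p.2 p.1
    rw [norm_sub_rev] at h3
    constructor <;> linarith
  rw [EE_adj hu ht hs hF hψ hψc]
  simp only [← integral_mul_const, key]
  rw [integral_integral_swap i3]
  refine integral_congr_ae (ae_of_all _ fun y => ?_)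
  simp only
  rw [← integral_const_mul]
  exact integral_congr_ae (ae_of_all _ fun x => by ring)

theorem locLip_moll {m : Measure (X n)} [IsLocallyFiniteMeasure m] {g φ : X n → ℝ}
    (hg : Continuous g) (hφ : Test φ) : LocLip fun x => ∫ y, φ (x - y) * g y ∂m := by
  intro R
  obtain ⟨R', -, ho⟩ := exists_off hφ.2 0
  obtain ⟨Λ, hΛ⟩ := hφ.1
  have hi : Integrable ((closedBall (0 : X n) (R + R')).indicator fun y => ‖g y‖) m :=
    (integrable_indicator_iff measurableSet_closedBall).2
      (hg.norm.continuousOn.integrableOn_compact (isCompact_closedBall _ _))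
  refine ⟨(Λ * ∫ y, (closedBall (0 : X n) (R + R')).indicator (fun y => ‖g y‖) y ∂m).toNNReal,
    LipschitzOnWith.of_dist_le' fun x hx x' hx' => ?_⟩
  rw [dist_eq_norm, ← integral_sub (int_shift hg hφ.continuous hφ.2 x)
    (int_shift hg hφ.continuous hφ.2 x'), mul_right_comm, ← integral_const_mul]
  refine norm_integral_le_of_norm_le (hi.const_mul _) (ae_of_all _ fun y => ?_)
  by_cases hy : y ∈ closedBall (0 : X n) (R + R')
  · rw [indicator_of_mem hy, ← sub_mul, norm_mul]
    refine mul_le_mul_of_nonneg_right ?_ (norm_nonneg _)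
    simpa [dist_eq_norm] using hΛ.dist_le_mul (x - y) (x' - y)
  · have h0 : ∀ z ∈ ball (0 : X n) R, φ (z - y) = 0 := fun z hz => by
      by_contra h1
      have h2 := off_lt ho h1
      have h3 := norm_sub_norm_le y z
      rw [norm_sub_rev] at h3
      rw [mem_ball_zero_iff] at hz
      exact hy (mem_closedBall_zero_iff.2 (by linarith))
    simp [h0 x hx, h0 x' hx', indicator_of_notMem hy]

theorem test_moll {φ ψ : X n → ℝ} (hφ : Test φ) (hψ : Test ψ) :
    Test (fun y' => ∫ x, φ (x - y') * ψ x) ∧
      ∫ y', (∫ x, φ (x - y') * ψ x) = (∫ x, φ x) * ∫ x, ψ x := by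
  obtain ⟨R, hR, ho⟩ := exists_off hφ.2 0
  obtain ⟨R', hR', ho'⟩ := exists_off hψ.2 0
  obtain ⟨Λ, hΛ⟩ := hφ.1
  have hφc := hφ.continuous
  have hψc := hψ.continuous
  have hs : ∀ y x, φ (x - y) * ψ x ≠ 0 → ‖y‖ < R + R' ∧ ‖x‖ < R + R' := fun y x h => by
    have h1 := off_lt ho (left_ne_zero_of_mul h)
    have h2 := off_lt ho' (right_ne_zero_of_mul h)
    have h3 := norm_sub_norm_le y x
    rw [norm_sub_rev] at h3
    constructor <;> linarith
  have i0 : Integrable ψ := hψc.integrable_of_hasCompactSupport hψ.2
  have i1 : ∀ y, Integrable fun x => φ (x - y) * ψ x := fun y =>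
    ((hφc.comp (continuous_id.sub continuous_const)).mul hψc).integrable_of_hasCompactSupport
      hψ.2.mul_left
  refine ⟨⟨⟨(Λ * ∫ x, ‖ψ x‖).toNNReal, LipschitzWith.of_dist_le' fun y y' => ?_⟩,
    Off.hasCompactSupport (x := 0) (R := R + R') fun y hy => ?_⟩, ?_⟩
  · rw [dist_eq_norm, ← integral_sub (i1 y) (i1 y'), mul_right_comm, ← integral_const_mul]
    refine norm_integral_le_of_norm_le (i0.norm.const_mul _) (ae_of_all _ fun x => ?_)
    rw [← sub_mul, norm_mul]
    refine mul_le_mul_of_nonneg_right ?_ (norm_nonneg _)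
    have := hΛ.dist_le_mul (x - y) (x - y')
    rwa [dist_sub_left] at this
  · refine integral_eq_zero_of_ae (ae_of_all _ fun x => ?_)
    by_contra h
    have := (hs y x h).1
    rw [dist_zero_right] at hy
    linarith
  · have i2 : Integrable (Function.uncurry fun y x : X n => φ (x - y) * ψ x)
        (volume.prod volume) :=
      int_prod (by unfold Function.uncurry; fun_prop) (R + R')
        fun p hp => ⟨(hs _ _ hp).1.le, (hs _ _ hp).2.le⟩
    rw [integral_integral_swap i2, ← integral_const_mul]
    refine integral_congr_ae (ae_of_all _ fun x => ?_)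
    simp only
    rw [integral_mul_const, integral_sub_left_eq_self]

end Crest.Agent.R085
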