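import Crest.Agent.R085.Near2

/-! Row 85. The small jumps and the large jumps. -/

set_option autoImplicit false

open MeasureTheory Set Filter Topology Metric
open scoped ENNReal NNReal

noncomputable section

namespace Crest.Agent.R085

/-- The pairing with a bump at the scale `t / 8`. -/
theorem Near_bump (n : ℕ) {C : ℝ} (hC : 1 ≤ C) : ∃ c : ℝ, 0 < c ∧
    ∀ (d : ℕ) (μ : Measure (X d)), KK n C μ → ∀ x ∈ μ.support, ∀ (ℓ : X d →L[ℝ] ℝ) (t' t s' : ℝ),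
      0 < t' → t' ≤ t → t ≤ s' →
      |EE n μ t' s' ℓ (fun y => (∫ z, bmp x (t / 8) z ∂μ)⁻¹ * bmp x (t / 8) y) -
        LL n μ t s' ℓ x| ≤ c * ‖ℓ‖ := by
  obtain ⟨c₁, hc₁, h₁⟩ := near_bound n hC one_pos
  obtain ⟨c₂, hc₂, h₂⟩ := far_point n hC
  refine ⟨c₁ * 16 * 17 ^ n * (2 ^ (n + 1) * C) + 2 * c₂, by positivity,
    fun d μ hμ x hx ℓ t' t s' ht' htt hts => ?_⟩
  have ht : 0 < t := ht'.trans_le htt
  have hs' : 0 < s' := ht.trans_le hts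
  obtain ⟨ρ, rfl⟩ : ∃ ρ, t = 8 * ρ := ⟨t / 8, by ring⟩
  have hρ : 0 < ρ := by linarith
  rw [show 8 * ρ / 8 = ρ by ring]
  obtain ⟨hI, -⟩ := bmp_integral hμ.up (hμ.lo ρ) hC hx hρ le_rfl
  have hI0 : 0 < ∫ z, bmp x ρ z ∂μ := lt_of_lt_of_le (by positivity) hI
  have hb := bmp_test x hρ
  have hbi : Integrable (bmp x ρ) μ := hμ.up.integrable hb.continuous hb.2
  have e1 := h₁ d μ ℓ (bmp x ρ) x ρ ‖ℓ‖ t' (8 * ρ) _ hμ.up ℓ.continuous (bmp_lip x hρ)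
    (bmp_off x hρ) hρ (norm_nonneg _) ht' htt fun y _ z _ _ _ => by
      rw [Real.rpow_one, ← map_sub]
      exact ℓ.le_opNorm _
  rw [Real.rpow_one, Real.coe_toNNReal _ (by positivity)] at e1
  have e1' : |EE n μ t' (8 * ρ) ℓ (bmp x ρ)| ≤
      c₁ * 16 * 17 ^ n * (2 ^ (n + 1) * C) * ‖ℓ‖ * ∫ z, bmp x ρ z ∂μ := by
    refine e1.trans ?_
    calc c₁ * ‖ℓ‖ * (2 / ρ) * (8 * ρ) * (ρ + 2 * (8 * ρ)) ^ n
        = c₁ * 16 * 17 ^ n * (2 ^ (n + 1) * C) * ‖ℓ‖ * (ρ ^ n / (2 ^ (n + 1) * C)) := by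
          rw [show ρ + 2 * (8 * ρ) = 17 * ρ by ring, mul_pow]
          field_simp
          ring
      _ ≤ _ := by gcongr
  have hfar : ∀ z ∈ μ.support, dist z x ≤ 2 * ρ →
      |LL n μ (8 * ρ) s' ℓ z + ∫ y, (ℓ y - ℓ x) * kk n (8 * ρ) s' (x - y) ∂μ| ≤ c₂ * ‖ℓ‖ := by
    intro z hz hd
    have h := h₂ d μ (fun y => ℓ y - ℓ x) x z ρ (‖ℓ‖ * ρ) (8 * ρ) s' hμ.up
      (ℓ.continuous.sub continuous_const) hρ (by positivity) (gr_clm μ ℓ x hρ) le_rfl hts hz hd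
    rw [LL_sub_const, mul_div_assoc, div_self hρ.ne', mul_one] at h
    refine h.trans (mul_le_of_le_one_right (by positivity) (Real.sqrt_le_one.2 ?_))
    rw [div_le_one ht]
    linarith
  have e2 : |EE n μ (8 * ρ) s' ℓ (bmp x ρ) - (∫ z, bmp x ρ z ∂μ) * LL n μ (8 * ρ) s' ℓ x| ≤
      2 * c₂ * ‖ℓ‖ * ∫ z, bmp x ρ z ∂μ := by
    rw [EE, ← integral_mul_const, ← integral_sub
      (integrable_EE hμ.up ht hs' ℓ.continuous hbi (bmp_off x hρ)) (hbi.mul_const _),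
      ← integral_const_mul, ← Real.norm_eq_abs]
    refine norm_integral_le_of_norm_le (hbi.const_mul _) ?_
    filter_upwards [Measure.support_mem_ae (μ := μ)] with z hz
    rw [← mul_sub, Real.norm_eq_abs, abs_mul, abs_of_nonneg (bmp_nonneg _ _ _), mul_comm]
    rcases le_or_gt ρ (dist z x) with h | h
    · rw [bmp_off x hρ z h, mul_zero, mul_zero]
    · refine mul_le_mul_of_nonneg_right ?_ (bmp_nonneg _ _ _)
      have a1 := abs_le.1 (hfar z hz (by linarith))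
      have a2 := abs_le.1 (hfar x hx (by rw [dist_self]; positivity))
      rw [abs_le]
      constructor <;> linarith [a1.1, a1.2, a2.1, a2.2]
  rw [EE_mul_right, ← EE_split hμ.up ht' ht hs' ℓ.continuous hbi (bmp_off x hρ)]
  have e3 : (∫ z, bmp x ρ z ∂μ)⁻¹ * (EE n μ t' (8 * ρ) ℓ (bmp x ρ) + EE n μ (8 * ρ) s' ℓ (bmp x ρ))
      - LL n μ (8 * ρ) s' ℓ x = (EE n μ t' (8 * ρ) ℓ (bmp x ρ) + (EE n μ (8 * ρ) s' ℓ (bmp x ρ)
        - (∫ z, bmp x ρ z ∂μ) * LL n μ (8 * ρ) s' ℓ x)) / ∫ z, bmp x ρ z ∂μ := by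
    field_simp
    ring
  rw [e3, abs_div, abs_of_pos hI0, div_le_iff₀ hI0]
  refine (abs_add_le _ _).trans ?_
  linarith

/-- Reflectionless measures have bounded truncated Riesz transforms.  Test `Harm` with the
difference of the normalised bumps `bmp x (t / 8)` and `bmp x (s / 8)`; for the bump at the scale
`t / 8` split `(t', s')` at `t`, use `near_bound` on `(t', t)` and `far_point` (twice) on
`(t, s')`: its pairing is `LL t s' ℓ x + O(1)`; the same at `s`; subtract (`LL_split`). -/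
theorem KK.rb (n : ℕ) {C : ℝ} (hC : 1 ≤ C) : ∃ C₁ : ℝ, 0 < C₁ ∧
    ∀ (d : ℕ) (μ : Measure (X d)), KK n C μ → RB n C₁ μ := by
  obtain ⟨c, hc, h⟩ := Near_bump n hC
  refine ⟨2 * c, by positivity, fun d μ hμ x hx ℓ t s ht hts => ?_⟩
  have hs : 0 < s := ht.trans_le hts
  have key : ∀ ρ : ℝ, 0 < ρ → Test (fun y => (∫ z, bmp x ρ z ∂μ)⁻¹ * bmp x ρ y) ∧
      Integrable (fun y => (∫ z, bmp x ρ z ∂μ)⁻¹ * bmp x ρ y) μ ∧
      ∫ y, (∫ z, bmp x ρ z ∂μ)⁻¹ * bmp x ρ y ∂μ = 1 ∧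
      ∀ R, ρ ≤ R → Off (fun y => (∫ z, bmp x ρ z ∂μ)⁻¹ * bmp x ρ y) x R := by
    intro ρ hρ
    have hb := (bmp_test x hρ).const_mul (∫ z, bmp x ρ z ∂μ)⁻¹
    have hI0 : 0 < ∫ z, bmp x ρ z ∂μ :=
      lt_of_lt_of_le (by positivity) (bmp_integral hμ.up (hμ.lo ρ) hC hx hρ le_rfl).1
    refine ⟨hb, hμ.up.integrable hb.continuous hb.2, ?_, fun R hR y hy => ?_⟩
    · rw [integral_const_mul, inv_mul_cancel₀ hI0.ne']
    · simp only [bmp_off x hρ y (hR.trans hy), mul_zero]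
  obtain ⟨a1, a2, a3, a4⟩ := key (t / 8) (by positivity)
  obtain ⟨b1, b2, b3, b4⟩ := key (s / 8) (by positivity)
  have hT := (hμ.refl ℓ _ (a1.sub b1) (by rw [integral_sub a2 b2, a3, b3, sub_self])).abs.add_const
    (2 * c * ‖ℓ‖)
  rw [abs_zero, zero_add] at hT
  refine ge_of_tendsto hT ?_
  filter_upwards [FF_ev ht s] with p hp
  obtain ⟨p1, p2, p3⟩ := hp
  have hp2 : 0 < p.2 := hs.trans_le p3
  rw [EE_sub_right hμ.up p1 hp2 ℓ.continuous a2 b2 (a4 (s / 8) (by linarith)) (b4 _ le_rfl)]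
  have e1 := abs_le.1 (h d μ hμ x hx ℓ p.1 t p.2 p1 p2 (hts.trans p3))
  have e2 := abs_le.1 (h d μ hμ x hx ℓ p.1 s p.2 p1 (p2.trans hts) p3)
  have e3 := LL_split hμ.up ht hs hp2 ℓ.continuous x
  have e4 := le_abs_self
    (EE n μ p.1 p.2 ℓ (fun y => (∫ z, bmp x (t / 8) z ∂μ)⁻¹ * bmp x (t / 8) y) -
      EE n μ p.1 p.2 ℓ fun y => (∫ z, bmp x (s / 8) z ∂μ)⁻¹ * bmp x (s / 8) y)
  have e5 := neg_abs_le
    (EE n μ p.1 p.2 ℓ (fun y => (∫ z, bmp x (t / 8) z ∂μ)⁻¹ * bmp x (t / 8) y) -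
      EE n μ p.1 p.2 ℓ fun y => (∫ z, bmp x (s / 8) z ∂μ)⁻¹ * bmp x (s / 8) y)
  refine abs_le.2 ⟨?_, ?_⟩ <;> linarith [e1.1, e1.2, e2.1, e2.2]

end Crest.Agent.R085
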