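import Crest.Agent.R085.Form

/-! Row 85. The small jumps and the large jumps. -/

set_option autoImplicit false

open MeasureTheory Set Filter Topology Metric
open scoped ENNReal NNReal

noncomputable section

namespace Crest.Agent.R085

private theorem Near0_pt {n d : ℕ} {f ψ : X d → ℝ} {x₀ x y : X d} {ρ H t' t a : ℝ} {Λ : ℝ≥0}
    (hψ : LipschitzWith Λ ψ) (ho : Off ψ x₀ ρ) (hH : 0 ≤ H) (ht' : 0 < t') (ht : t' ≤ t)
    (hf : dist x x₀ < ρ + 2 * t → dist y x₀ < ρ + 2 * t → |f x - f y| ≤ H * ‖x - y‖ ^ a) :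
    ‖(ψ x - ψ y) * ((f x - f y) * kk n t' t (x - y))‖ ≤
      (ball x (2 * t)).indicator (fun y => Λ * H * ‖y - x‖ ^ (a - n)) y := by
  have h0 : 0 ≤ (ball x (2 * t)).indicator (fun y => Λ * H * ‖y - x‖ ^ (a - n)) y :=
    indicator_nonneg (fun y _ => by positivity) y
  by_cases h1 : 2 * t ≤ ‖x - y‖
  · rwa [kk_zero_of_ge ht' ht h1, mul_zero, mul_zero, norm_zero]
  by_cases h2 : ψ x = ψ y
  · rwa [h2, sub_self, zero_mul, norm_zero]
  have h1' : dist x y < 2 * t := by rw [dist_eq_norm]; exact not_le.1 h1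
  have ht0 : 0 < t := ht'.trans_le ht
  have h3 : dist x x₀ < ρ ∨ dist y x₀ < ρ := by
    by_contra h
    rw [not_or, not_lt, not_lt] at h
    exact h2 ((ho x h.1).trans (ho y h.2).symm)
  have a1 := dist_triangle x y x₀
  have a2 := dist_triangle y x x₀
  rw [dist_comm y x] at a2
  have h4 := hf (by rcases h3 with h | h <;> linarith) (by rcases h3 with h | h <;> linarith)
  have h5 : 0 < ‖x - y‖ := norm_pos_iff.2 (sub_ne_zero.2 fun h => h2 (by rw [h]))
  have h6 : |ψ x - ψ y| ≤ Λ * ‖x - y‖ := by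
    have := hψ.dist_le_mul x y
    rwa [Real.dist_eq, dist_eq_norm] at this
  rw [indicator_of_mem (mem_ball'.2 h1'), Real.norm_eq_abs, abs_mul, abs_mul, norm_sub_rev y x]
  refine (mul_le_mul h6 (mul_le_mul h4 (abs_kk_le t' t (x - y)) (abs_nonneg _) (by positivity))
    (by positivity) (by positivity)).trans (le_of_eq ?_)
  rw [Real.rpow_sub h5, Real.rpow_natCast]
  field_simp
  ring

/-- Small jumps: `EE_symm`; only pairs with `‖x - y‖ < 2 t` and both points in
`ball x₀ (ρ + 2 t)` contribute; `near_int`. -/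
theorem near_bound (n : ℕ) {C : ℝ} (hC : 1 ≤ C) {a : ℝ} (ha : 0 < a) : ∃ c : ℝ, 0 < c ∧
    ∀ (d : ℕ) (μ : Measure (X d)) (f ψ : X d → ℝ) (x₀ : X d) (ρ H t' t : ℝ) (Λ : ℝ≥0), Up n C μ →
      Continuous f → LipschitzWith Λ ψ → Off ψ x₀ ρ → 0 < ρ → 0 ≤ H → 0 < t' → t' ≤ t →
      (∀ x ∈ μ.support, ∀ y ∈ μ.support, dist x x₀ < ρ + 2 * t → dist y x₀ < ρ + 2 * t →
        |f x - f y| ≤ H * ‖x - y‖ ^ a) →
      |EE n μ t' t f ψ| ≤ c * H * Λ * t ^ a * (ρ + 2 * t) ^ n := by
  have hC0 : 0 ≤ C := zero_le_one.trans hC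
  obtain ⟨c, hc, hn⟩ := near_int n hC0 ha
  refine ⟨c * 2 ^ a * C, by positivity, fun d μ f ψ x₀ ρ H t' t Λ hu hf hψ ho hρ hH ht' ht h => ?_⟩
  have ht0 : 0 < t := ht'.trans_le ht
  haveI := hu.locFin
  obtain ⟨hi, he⟩ := EE_symm hu ht' ht0 hf hψ.continuous ho.hasCompactSupport
  rw [integral_prod _ hi] at he
  have o : Off (fun x => ∫ y, (ψ x - ψ y) * ((f x - f y) * kk n t' t (x - y)) ∂μ) x₀
      (ρ + 2 * t) := by
    intro x hx
    refine integral_eq_zero_of_ae (Eventually.of_forall fun y => ?_)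
    by_cases h1 : 2 * t ≤ ‖x - y‖
    · simp only [kk_zero_of_ge ht' ht h1, mul_zero, Pi.zero_apply]
    · have h1' : dist x y < 2 * t := by rw [dist_eq_norm]; exact not_le.1 h1
      have a1 := dist_triangle x y x₀
      simp only [ho x (by linarith), ho y (by linarith), sub_self, zero_mul, Pi.zero_apply]
  have b : ∀ x ∈ μ.support, |∫ y, (ψ x - ψ y) * ((f x - f y) * kk n t' t (x - y)) ∂μ| ≤
      Λ * H * (c * (2 * t) ^ a) := by
    intro x hx
    obtain ⟨i1, i2⟩ := hn d μ x (2 * t) hu (by positivity)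
    have := norm_integral_le_of_norm_le
      ((integrable_indicator_iff measurableSet_ball).2 (i1.const_mul (Λ * H)))
      (f := fun y => (ψ x - ψ y) * ((f x - f y) * kk n t' t (x - y)))
      (by
        filter_upwards [Measure.support_mem_ae (μ := μ)] with y hy
        exact Near0_pt hψ ho hH ht' ht (h x hx y hy))
    rw [integral_indicator measurableSet_ball, integral_const_mul, Real.norm_eq_abs] at this
    exact this.trans (mul_le_mul_of_nonneg_left i2 (by positivity))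
  have k := hu.integral_abs_le hC0 (by positivity) (by positivity) o b
  have k2 := (abs_integral_le_integral_abs.trans k)
  rw [← he, abs_mul, abs_two, Real.mul_rpow zero_le_two ht0.le] at k2
  have := abs_nonneg (EE n μ t' t f ψ)
  linarith

end Crest.Agent.R085
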