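import Crest.Agent.R085.Near0

/-! Row 85. The small jumps and the large jumps. -/

set_option autoImplicit false

open MeasureTheory Set Filter Topology Metric
open scoped ENNReal NNReal

noncomputable section

namespace Crest.Agent.R085

/-- Large jumps, pointwise: `f x * ∫ kk` is bounded by `tail_int` with `a = 1`, and
`∫ f y * (kk (x - y) - kk (x₀ - y))` by `kk_lip` and `tail_int` with `a = 1 / 2`
(the integrand vanishes unless `3 s / 4 ≤ ‖y - x₀‖`). -/
theorem far_point (n : ℕ) {C : ℝ} (hC : 1 ≤ C) : ∃ c : ℝ, 0 < c ∧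
    ∀ (d : ℕ) (μ : Measure (X d)) (f : X d → ℝ) (x₀ x : X d) (ρ M s s' : ℝ), Up n C μ →
      Continuous f → 0 < ρ → 0 ≤ M → Gr μ f x₀ ρ M → 8 * ρ ≤ s → s ≤ s' → x ∈ μ.support →
      dist x x₀ ≤ 2 * ρ →
      |LL n μ s s' f x + ∫ y, f y * kk n s s' (x₀ - y) ∂μ| ≤ c * (M / ρ) * √(ρ / s) := by
  obtain ⟨c₀, hc₀, hlip⟩ := kk_lip n
  obtain ⟨c₁, hc₁, htail⟩ := tail_int n (C := C) (by linarith) (a := 1 / 2) (by norm_num)
  set K : ℝ := 3 * 2 ^ (n + 1) + 2 * c₀ with hK
  have hK0 : 0 < K := by positivity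
  refine ⟨2 * K * c₁, by positivity, fun d μ f x₀ x ρ M s s' hu hf hρ hM hG hs hss' hx hxx => ?_⟩
  have hs0 : 0 < s := by linarith
  have hs'0 : 0 < s' := by linarith
  obtain ⟨hI, hT⟩ := htail d μ x₀ (s / 4) hu (by positivity)
  have hS : MeasurableSet {y : X d | s / 4 ≤ ‖y - x₀‖} :=
    (isClosed_le continuous_const (by fun_prop)).measurableSet
  rw [dist_eq_norm] at hxx
  have hfx : |f x| ≤ 3 * M := by
    refine (hG x hx).trans ?_
    have h1 : wt (‖x - x₀‖ / ρ) ≤ wt 2 := wt_mono ((div_le_iff₀ hρ).2 hxx)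
    rw [wt_of_ge (by norm_num : (1 : ℝ) ≤ 2)] at h1
    have h2 : √2 ≤ 3 / 2 := Real.sqrt_le_iff.2 ⟨by norm_num, by norm_num⟩
    nlinarith
  have hρ2 : 0 < √ρ := Real.sqrt_pos.2 hρ
  have key : ∀ y ∈ μ.support,
      ‖(f x - f y) * kk n s s' (x - y) + f y * kk n s s' (x₀ - y)‖ ≤
        K * M / √ρ * {y : X d | s / 4 ≤ ‖y - x₀‖}.indicator
          (fun y => ‖y - x₀‖ ^ (-((n : ℝ) + 1 / 2))) y := by
    intro y hy
    have htri : ‖y - x₀‖ ≤ ‖x - y‖ + ‖x - x₀‖ := by
      have := norm_add_le (y - x) (x - x₀)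
      rwa [sub_add_sub_cancel, norm_sub_rev y x] at this
    have htri' : ‖x - y‖ ≤ ‖y - x₀‖ + ‖x - x₀‖ := by
      have := norm_sub_le (x - x₀) (y - x₀)
      rw [sub_sub_sub_cancel_right] at this
      linarith
    set u := ‖y - x₀‖ with hudef
    have hu' : ‖x₀ - y‖ = u := norm_sub_rev _ _
    by_cases h : u < 3 * s / 4
    · rw [kk_zero_of_le hs0 hss' (z := x - y) (by linarith),
        kk_zero_of_le hs0 hss' (z := x₀ - y) (by linarith), mul_zero, mul_zero, add_zero, norm_zero]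
      exact mul_nonneg (by positivity) (indicator_nonneg (fun z _ => by positivity) _)
    rw [not_lt] at h
    have hu0 : 0 < u := by linarith
    have hur : 1 ≤ u / ρ := (one_le_div hρ).2 (by linarith)
    have hsq : 1 ≤ √(u / ρ) := Real.one_le_sqrt.2 hur
    rw [indicator_of_mem (show y ∈ {y : X d | s / 4 ≤ ‖y - x₀‖} by
      simp only [mem_ofPred_eq]; linarith), ← hudef]
    have e1 : K * M / √ρ * u ^ (-((n : ℝ) + 1 / 2)) = K * (M * √(u / ρ) / u ^ (n + 1)) := by
      have e2 : u ^ (-((n : ℝ) + 1 / 2)) = √u / u ^ (n + 1) := by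
        rw [Real.sqrt_eq_rpow, ← Real.rpow_natCast, ← Real.rpow_sub hu0]
        congr 1
        push_cast
        ring
      rw [e2, Real.sqrt_div hu0.le]
      ring
    have b1 : |kk n s s' (x - y)| ≤ 2 ^ (n + 1) / u ^ (n + 1) := by
      refine (abs_kk_le s s' _).trans ?_
      rw [← div_pow, ← inv_pow]
      refine pow_le_pow_left₀ (by positivity) ?_ _
      rw [inv_le_comm₀ (by linarith) (by positivity), inv_div]
      linarith
    have b2 : |kk n s s' (x₀ - y) - kk n s s' (x - y)| ≤ c₀ * (2 * ρ) / u ^ (n + 2) := by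
      have e3 : ‖x₀ - y - (x - y)‖ = ‖x - x₀‖ := by
        rw [sub_sub_sub_cancel_right, norm_sub_rev]
      have h1 := hlip d s s' (x₀ - y) (x - y) hs0 hs'0 (by rw [e3, hu']; linarith)
      rw [e3, hu'] at h1
      refine h1.trans ?_
      gcongr
    have b3 : |f y| ≤ M * (u / ρ * √(u / ρ)) := by
      have := hG y hy
      rwa [wt_of_ge hur] at this
    have e4 : (f x - f y) * kk n s s' (x - y) + f y * kk n s s' (x₀ - y) =
        f x * kk n s s' (x - y) + f y * (kk n s s' (x₀ - y) - kk n s s' (x - y)) := by ring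
    rw [e1, e4, Real.norm_eq_abs]
    refine (abs_add_le _ _).trans ?_
    rw [abs_mul, abs_mul, hK, add_mul]
    refine add_le_add ?_ ?_
    · refine (mul_le_mul hfx b1 (abs_nonneg _) (by positivity)).trans ?_
      have : M ≤ M * √(u / ρ) := le_mul_of_one_le_right hM hsq
      calc 3 * M * (2 ^ (n + 1) / u ^ (n + 1)) = 3 * 2 ^ (n + 1) * (M / u ^ (n + 1)) := by ring
        _ ≤ _ := by gcongr
    · refine (mul_le_mul b3 b2 (abs_nonneg _) (by positivity)).trans (le_of_eq ?_)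
      field_simp
      ring
  rw [LL, ← integral_add (integrable_LL hu hs0 hs'0 hf x) (integrable_kk_mul hu hs0 hs'0 hf x₀),
    ← Real.norm_eq_abs]
  refine (norm_integral_le_of_norm_le
    (((integrable_indicator_iff hS).2 hI).const_mul (K * M / √ρ)) ?_).trans ?_
  · filter_upwards [μ.support_mem_ae] with y hy using key y hy
  rw [integral_const_mul, integral_indicator hS]
  refine (mul_le_mul_of_nonneg_left hT (by positivity)).trans (le_of_eq ?_)
  have hs2 : 0 < √s := Real.sqrt_pos.2 hs0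
  have e5 : (s / 4) ^ (-(1 / 2 : ℝ)) = 2 / √s := by
    rw [Real.rpow_neg (by positivity), ← Real.sqrt_eq_rpow, Real.sqrt_div hs0.le, inv_div,
      show (4 : ℝ) = 2 ^ 2 by norm_num, Real.sqrt_sq (by norm_num)]
  rw [e5, Real.sqrt_div hρ.le]
  have e6 : ρ = √ρ * √ρ := (Real.mul_self_sqrt hρ.le).symm
  generalize √ρ = r at *
  subst e6
  field_simp

/-- Large jumps against a function of mean zero. -/
theorem far_bound (n : ℕ) {C : ℝ} (hC : 1 ≤ C) : ∃ c : ℝ, 0 < c ∧
    ∀ (d : ℕ) (μ : Measure (X d)) (f ψ : X d → ℝ) (x₀ : X d) (ρ M s s' : ℝ), Up n C μ →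
      Continuous f → 0 < ρ → 0 ≤ M → Gr μ f x₀ ρ M → 8 * ρ ≤ s → s ≤ s' → Integrable ψ μ →
      Off ψ x₀ (2 * ρ) → ∫ y, ψ y ∂μ = 0 →
      |EE n μ s s' f ψ| ≤ c * (M / ρ) * √(ρ / s) * ∫ y, |ψ y| ∂μ := by
  obtain ⟨c, hc, H⟩ := far_point n hC
  refine ⟨c, hc, fun d μ f ψ x₀ ρ M s s' hu hf hρ hM hG hs hss' hψ ho h0 => ?_⟩
  have hs0 : 0 < s := by linarith
  have hs'0 : 0 < s' := by linarith
  set A := ∫ y, f y * kk n s s' (x₀ - y) ∂μ with hA
  have e : EE n μ s s' f ψ = ∫ x, ψ x * (LL n μ s s' f x + A) ∂μ := by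
    simp only [mul_add]
    rw [integral_add (integrable_EE hu hs0 hs'0 hf hψ ho) (hψ.mul_const A), integral_mul_const, h0,
      zero_mul, add_zero, EE]
  rw [e, ← integral_const_mul, ← Real.norm_eq_abs]
  refine norm_integral_le_of_norm_le (hψ.abs.const_mul _) ?_
  filter_upwards [μ.support_mem_ae] with x hx
  by_cases h : 2 * ρ ≤ dist x x₀
  · simp [ho x h]
  · rw [Real.norm_eq_abs, abs_mul, mul_comm]
    exact mul_le_mul_of_nonneg_right
      (H d μ f x₀ x ρ M s s' hu hf hρ hM hG hs hss' hx (not_le.1 h).le) (abs_nonneg _)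

end Crest.Agent.R085
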