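import Crest.Agent.R085.Near1

/-! Row 85. The small jumps and the large jumps. -/

set_option autoImplicit false

open MeasureTheory Set Filter Topology Metric
open scoped ENNReal NNReal

noncomputable section

namespace Crest.Agent.R085

theorem gr_clm {d : ℕ} (μ : Measure (X d)) (ℓ : X d →L[ℝ] ℝ) (x₀ : X d) {ρ : ℝ} (hρ : 0 < ρ) :
    Gr μ (fun y => ℓ y - ℓ x₀) x₀ ρ (‖ℓ‖ * ρ) := by
  intro y _
  beta_reduce
  rw [← map_sub]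
  refine (ℓ.le_opNorm (y - x₀)).trans ?_
  rw [mul_assoc]
  refine mul_le_mul_of_nonneg_left ?_ (norm_nonneg _)
  have h := le_wt (‖y - x₀‖ / ρ)
  rwa [div_le_iff₀' hρ] at h

/-- Uniform error bound for linear functionals. -/
theorem err_clm (n : ℕ) {C : ℝ} (hC : 1 ≤ C) : ∃ c : ℝ, 0 < c ∧
    ∀ (d : ℕ) (μ : Measure (X d)) (ℓ : X d →L[ℝ] ℝ) (ψ : X d → ℝ) (x₀ : X d) (ρ t' t s s' : ℝ)
      (Λ : ℝ≥0), Up n C μ → LipschitzWith Λ ψ → Off ψ x₀ ρ → ∫ y, ψ y ∂μ = 0 → 0 < ρ → 0 < t' →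
      t' ≤ t → t ≤ ρ → 8 * ρ ≤ s → s ≤ s' →
      |EE n μ t' s' ℓ ψ - EE n μ t s ℓ ψ| ≤ c * ‖ℓ‖ * Λ * ρ ^ n * (t + ρ * √(ρ / s)) := by
  obtain ⟨c₁, hc₁, h₁⟩ := near_bound n hC one_pos
  obtain ⟨c₂, hc₂, h₂⟩ := far_bound n hC
  have hC0 : 0 < C := one_pos.trans_le hC
  refine ⟨c₁ * 3 ^ n + c₂ * C, by positivity,
    fun d μ ℓ ψ x₀ ρ t' t s s' Λ hu hΛ ho h0 hρ ht' htt htρ hs hss => ?_⟩
  have ht : 0 < t := ht'.trans_le htt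
  have hs0 : 0 < s := by linarith
  have hs' : 0 < s' := hs0.trans_le hss
  have hψ : Integrable ψ μ := hu.integrable hΛ.continuous ho.hasCompactSupport
  have e1 := EE_split hu ht' ht hs' ℓ.continuous hψ ho
  have e2 := EE_split hu ht hs0 hs' ℓ.continuous hψ ho
  have e : EE n μ t' s' ℓ ψ - EE n μ t s ℓ ψ = EE n μ t' t ℓ ψ + EE n μ s s' ℓ ψ := by linarith
  have hΛ0 : (0 : ℝ) ≤ Λ := Λ.coe_nonneg
  have hl := norm_nonneg ℓ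
  have hq := Real.sqrt_nonneg (ρ / s)
  have b1 : |EE n μ t' t ℓ ψ| ≤ c₁ * 3 ^ n * (‖ℓ‖ * Λ * ρ ^ n * t) := by
    refine (h₁ d μ ℓ ψ x₀ ρ ‖ℓ‖ t' t Λ hu ℓ.continuous hΛ ho hρ hl ht' htt
      (fun x _ y _ _ _ => ?_)).trans ?_
    · rw [Real.rpow_one, ← map_sub]
      exact ℓ.le_opNorm _
    · rw [Real.rpow_one]
      calc _ ≤ c₁ * ‖ℓ‖ * Λ * t * (3 * ρ) ^ n := by gcongr; linarith
        _ = _ := by rw [mul_pow]; ring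
  have b2 : |EE n μ s s' ℓ ψ| ≤ c₂ * C * (‖ℓ‖ * Λ * ρ ^ n * (ρ * √(ρ / s))) := by
    have h3 := h₂ d μ (fun y => ℓ y - ℓ x₀) ψ x₀ ρ (‖ℓ‖ * ρ) s s' hu
      (ℓ.continuous.sub continuous_const) hρ (by positivity) (gr_clm μ ℓ x₀ hρ) hs hss hψ
      (ho.mono (by rw [dist_self]; linarith)) h0
    rw [EE_sub_const, mul_div_cancel_right₀ _ hρ.ne'] at h3
    refine h3.trans ?_
    rcases Nat.eq_zero_or_pos d with rfl | hd
    · have : ℓ = 0 := by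
        ext x
        rw [Subsingleton.elim x 0, map_zero, map_zero]
      simp [this]
    · have h4 := hu.integral_abs_le hC0.le hρ (B := Λ * ρ) (by positivity) ho
        (fun y _ => ho.abs_le hd hρ hΛ y)
      calc _ ≤ c₂ * ‖ℓ‖ * √(ρ / s) * (Λ * ρ * (C * ρ ^ n)) := by gcongr
        _ = _ := by ring
  rw [e]
  refine (abs_add_le _ _).trans ((add_le_add b1 b2).trans ?_)
  have p1 : 0 ≤ c₂ * C * (‖ℓ‖ * Λ * ρ ^ n * t) := by positivity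
  have p2 : 0 ≤ c₁ * 3 ^ n * (‖ℓ‖ * Λ * ρ ^ n * (ρ * √(ρ / s))) := by positivity
  calc _ ≤ c₁ * 3 ^ n * (‖ℓ‖ * Λ * ρ ^ n * t) + c₂ * C * (‖ℓ‖ * Λ * ρ ^ n * (ρ * √(ρ / s)))
        + (c₂ * C * (‖ℓ‖ * Λ * ρ ^ n * t)
          + c₁ * 3 ^ n * (‖ℓ‖ * Λ * ρ ^ n * (ρ * √(ρ / s)))) := by linarith
    _ = _ := by ring

end Crest.Agent.R085
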