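import Crest.Agent.R085.ImpC

/-! Row 85. Flatness persists and appears at good scales (compactness). -/

set_option autoImplicit false

open MeasureTheory Set Filter Topology Metric
open scoped ENNReal NNReal

noncomputable section

namespace Crest.Agent.R085

/-- Rescale (`sc`), argue by contradiction with `A = j + 1`, `δ = 1 / (j + 1)`: `exists_kk_lim`,
`iso_lim`, `VL.fl_lim`, `improve`, `VL.fl_ev`. -/
theorem persist (n d : ℕ) (hn : 1 ≤ n) {C : ℝ} (hC : 1 ≤ C) : ∃ ε₀ : ℝ, 0 < ε₀ ∧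
    ∀ ε : ℝ, 0 < ε → ε ≤ ε₀ → ∃ A δ : ℝ, 1 ≤ A ∧ 0 < δ ∧
      ∀ (μ : Measure (X d)) (D : ℝ) (x : X d) (r : ℝ), Up n C μ → Lo n C D μ → x ∈ μ.support →
        0 < r → A * r ≤ D → Good n μ x r A δ → Flat n μ x r ε → Flat n μ x (r / 32) ε := by
  obtain ⟨ε₀, hε₀, himp⟩ := improve n d hn hC
  refine ⟨ε₀, hε₀, fun ε hε hεle => ?_⟩
  by_contra hcon
  push Not at hcon
  have hA : ∀ j : ℕ, (1 : ℝ) ≤ j + 1 := fun j => le_add_of_nonneg_left (Nat.cast_nonneg j)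
  choose μ D x r hu hl hx hr hD hg hf hnf using
    fun j : ℕ => hcon (j + 1) (1 / (j + 1)) (hA j) (by positivity)
  choose ιs hιs using hf
  obtain ⟨μs, hμs⟩ : ∃ μs : ℕ → Measure (X d), μs = fun j => sc n (μ j) (x j) (r j) := ⟨_, rfl⟩
  have hus : ∀ j, Up n C (μs j) := fun j => by rw [hμs]; exact (hu j).sc (hr j)
  have hls : ∀ j : ℕ, Lo n C (j + 1) (μs j) := fun j => by rw [hμs]; exact (hl j).sc (hr j) (hD j)
  have h0 : ∀ j, (0 : X d) ∈ (μs j).support := fun j => by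
    rw [hμs]
    exact (mem_support_sc (hr j) 0).2 (by simpa using hx j)
  have hgs : ∀ j : ℕ, Good n (μs j) 0 1 (j + 1) (1 / (j + 1)) := fun j => by
    rw [hμs]; exact (hg j).sc (hr j)
  have hfs : ∀ j, Fl (μs j) 0 1 ε (ιs j) := fun j => by
    rw [hμs]
    exact (fl_sc (hr j) one_pos).2 (by simpa using hιs j)
  obtain ⟨ν, hVL, hKK, hν0, hlo⟩ := exists_kk_lim hC hus hls h0 hgs
  obtain ⟨ι, hι⟩ := iso_lim ιs
  have hfν : Fl ν 0 1 ε ι := hVL.fl_lim hKK.up one_pos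
    (fun ζ hζ => (hι ζ hζ).mono fun j hj => hj.1) (Eventually.of_forall hfs)
  obtain ⟨ι', hι'⟩ := himp ν ε hKK hν0 hε hεle ⟨ι, hfν⟩
  have hev := hVL.fl_ev hC hus hlo (xs := fun _ => 0) (ε' := ε) (by norm_num) (by positivity)
    (half_lt_self hε) hι' tendsto_const_nhds
  obtain ⟨j, hj⟩ := hev.exists
  rw [hμs] at hj
  have hj' := (fl_sc (hr j) (by norm_num)).1 hj
  refine hnf j ⟨ι', ?_⟩
  rwa [smul_zero, add_zero, mul_one_div] at hj'

end Crest.Agent.R085
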