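import Crest.Agent.R085.PlaA0

/-! Row 85. Reflectionless measures with full support, I. -/

set_option autoImplicit false

open MeasureTheory Set Filter Topology Metric
open scoped ENNReal NNReal

noncomputable section

namespace Crest.Agent.R085

variable {n : ℕ} {C C₁ : ℝ} {ν : Measure (X n)}

theorem PlaA_approx (hu : Up n C ν) (hs : ν.support = univ) {g : X n → ℝ} (hg : Integrable g ν)
    (h0 : ∫ y, g y ∂ν = 0) {ε : ℝ} (hε : 0 < ε) :
    ∃ φ : X n → ℝ, Test φ ∧ ∫ y, φ y ∂ν = 0 ∧ ∫ y, |g y - φ y| ∂ν ≤ ε := by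
  have := hu.locFin
  obtain ⟨φ, hφ1, hφ2, hφ3⟩ := (memLp_one_iff_integrable.2 hg).exist_eLpNorm_sub_le
    ENNReal.one_ne_top le_rfl (half_pos hε)
  have hφ : Test φ := ⟨hφ2.lipschitzWith_of_hasCompactSupport hφ1 (by simp), hφ1⟩
  have hφi : Integrable φ ν := hu.integrable hφ.continuous hφ1
  have h1 : ∫ y, |g y - φ y| ∂ν ≤ ε / 2 := by
    rw [eLpNorm_one_eq_lintegral_enorm, ← ofReal_integral_norm_eq_lintegral_enorm (hg.sub hφi),
      ENNReal.ofReal_le_ofReal_iff (half_pos hε).le] at hφ3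
    exact hφ3
  have hb : Test (bmp (0 : X n) 1) := bmp_test 0 one_pos
  have hbi : Integrable (bmp (0 : X n) 1) ν := hu.integrable hb.continuous hb.2
  have hB : 0 < ∫ y, bmp (0 : X n) 1 y ∂ν :=
    hu.integral_pos hb.continuous hb.2 (bmp_nonneg 0 1) (x := 0) (hs ▸ mem_univ _) (by simp [bmp])
  obtain ⟨a, ha⟩ : ∃ a, a = ∫ y, φ y ∂ν := ⟨_, rfl⟩
  obtain ⟨B, hB'⟩ : ∃ B, B = ∫ y, bmp (0 : X n) 1 y ∂ν := ⟨_, rfl⟩
  rw [← hB'] at hB
  have h2 : |a| ≤ ε / 2 := by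
    have h3 : ∫ y, (g y - φ y) ∂ν = -a := by rw [integral_sub hg hφi, h0, ha, zero_sub]
    rw [← abs_neg, ← h3]
    exact abs_integral_le_integral_abs.trans h1
  refine ⟨fun y => φ y - a / B * bmp 0 1 y, hφ.sub (hb.const_mul _), ?_, ?_⟩
  · rw [integral_sub hφi (hbi.const_mul _), integral_const_mul, ← ha, ← hB',
      div_mul_cancel₀ _ hB.ne', sub_self]
  · have h3 : ∫ y, |g y - (φ y - a / B * bmp 0 1 y)| ∂ν ≤
        ∫ y, (|g y - φ y| + |a| / B * bmp 0 1 y) ∂ν := by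
      refine integral_mono (hg.sub (hφi.sub (hbi.const_mul _))).abs
        ((hg.sub hφi).abs.add (hbi.const_mul _)) fun y => ?_
      have e : g y - (φ y - a / B * bmp 0 1 y) = (g y - φ y) + a / B * bmp 0 1 y := by ring
      simp only
      rw [e]
      refine (abs_add_le _ _).trans (le_of_eq ?_)
      rw [abs_mul, abs_div, abs_of_pos hB, abs_of_nonneg (bmp_nonneg _ _ _)]
    have h4 : Integrable (fun y => |g y - φ y|) ν := (hg.sub hφi).abs
    rw [integral_add h4 (hbi.const_mul _), integral_const_mul, ← hB',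
      div_mul_cancel₀ _ hB.ne'] at h3
    linarith

theorem PlaA_l1 (hC : 1 ≤ C) (h : KK n C ν) (hs : ν.support = univ) (ℓ : X n →L[ℝ] ℝ)
    {g : X n → ℝ} (hg : Integrable g ν) (h0 : ∫ y, g y ∂ν = 0) :
    Tendsto (fun p : ℝ × ℝ => EE n ν p.1 p.2 ℓ g) FF (𝓝 0) := by
  obtain ⟨C₁, hC₁, hrb⟩ := KK.rb n hC
  have hM : 0 < C₁ * ‖ℓ‖ + 1 := by positivity
  rw [Metric.tendsto_nhds]
  intro ε hε
  obtain ⟨φ, hφ, hφ0, hφ1⟩ := PlaA_approx h.up hs hg h0
    (show 0 < ε / 2 / (C₁ * ‖ℓ‖ + 1) by positivity)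
  have hφi : Integrable φ ν := h.up.integrable hφ.continuous hφ.2
  filter_upwards [Metric.tendsto_nhds.1 (h.refl ℓ φ hφ hφ0) (ε / 2) (half_pos hε),
    FF_ev one_pos 1] with p hp hp'
  have hts : p.1 ≤ p.2 := hp'.2.1.trans hp'.2.2
  have hL : ∀ x, |LL n ν p.1 p.2 ℓ x| ≤ C₁ * ‖ℓ‖ + 1 := fun x =>
    (hrb n ν h x (hs ▸ mem_univ _) ℓ p.1 p.2 hp'.1 hts).trans (by linarith)
  have hm := (continuous_LL h.up hp'.1 (hp'.1.trans_le hts) ℓ.continuous).aestronglyMeasurable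
    (μ := ν)
  have i1 := hg.mul_bdd hm (ae_of_all _ hL)
  have i2 := hφi.mul_bdd hm (ae_of_all _ hL)
  have h1 : |EE n ν p.1 p.2 ℓ g - EE n ν p.1 p.2 ℓ φ| ≤ ε / 2 := by
    rw [EE, EE, ← integral_sub i1 i2]
    refine abs_integral_le_integral_abs.trans ?_
    have h4 : Integrable (fun y => |g y - φ y|) ν := (hg.sub hφi).abs
    refine (integral_mono (i1.sub i2).abs (h4.mul_const (C₁ * ‖ℓ‖ + 1)) fun y => ?_).trans ?_
    · simp only [Pi.sub_apply]
      rw [← sub_mul, abs_mul]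
      exact mul_le_mul_of_nonneg_left (hL y) (abs_nonneg _)
    · rw [integral_mul_const]
      exact (le_div_iff₀ hM).1 hφ1
  rw [Real.dist_eq, sub_zero] at hp ⊢
  have h2 := abs_add_le (EE n ν p.1 p.2 ℓ g - EE n ν p.1 p.2 ℓ φ) (EE n ν p.1 p.2 ℓ φ)
  rw [sub_add_cancel] at h2
  linarith

/-- `ψ dy = ψ w dν` with the bounded density `w`; approximate `ψ w` in `L¹(ν)` by Lipschitz
functions with bounded support, correct the mean with a bump, and use `RB`. -/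
theorem harm_vol (hC : 1 ≤ C) (h : KK n C ν) (hs : ν.support = univ) (ℓ : X n →L[ℝ] ℝ)
    {ψ : X n → ℝ} (hψ : Continuous ψ) (hc : HasCompactSupport ψ) (h0 : ∫ y, ψ y = 0) :
    Tendsto (fun p : ℝ × ℝ => ∫ y, ψ y * LL n ν p.1 p.2 ℓ y) FF (𝓝 0) := by
  have := h.up.locFin
  obtain ⟨K, hK⟩ := vol_le hC h.up h.lo hs
  have hac : (volume : Measure (X n)) ≪ ν := Measure.absolutelyContinuous_of_le_smul hK
  have h1 := PlaA_l1 hC h hs ℓ (g := fun y => ((volume : Measure (X n)).rnDeriv ν y).toReal * ψ y)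
    ((integrable_toReal_rnDeriv_mul_iff hac).2 (hψ.integrable_of_hasCompactSupport hc))
    (by rw [integral_toReal_rnDeriv_mul hac, h0])
  refine h1.congr fun p => ?_
  rw [EE, ← integral_toReal_rnDeriv_mul hac]
  simp only [mul_assoc]

end Crest.Agent.R085
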