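import Crest.Agent.R085.Liou

/-! Row 85. Reflectionless measures with full support, I. -/

set_option autoImplicit false

open MeasureTheory Set Filter Topology Metric
open scoped ENNReal NNReal

noncomputable section

namespace Crest.Agent.R085

variable {n : ℕ} {C C₁ : ℝ} {ν : Measure (X n)}

/-- Differentiation of measures (`VitaliFamily.measure_le_of_frequently_le` for the Vitali family
of the Lebesgue measure, or the Vitali covering theorem). -/
theorem vol_le (hC : 1 ≤ C) (hu : Up n C ν) (hl : ∀ D, Lo n C D ν) (hs : ν.support = univ) :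
    ∃ K : ℝ≥0, (volume : Measure (X n)) ≤ K • ν := by
  have := hu.locFin
  have hC0 : 0 ≤ C := by linarith
  set v : ℝ≥0∞ := (volume : Measure (X n)) (closedBall 0 1) with hv
  have hvt : v ≠ ∞ := measure_closedBall_lt_top.ne
  refine ⟨C.toNNReal * v.toNNReal, Measure.le_intro fun s _ _ => ?_⟩
  refine (Besicovitch.vitaliFamily (volume : Measure (X n))).measure_le_of_frequently_le
    ((C.toNNReal * v.toNNReal : ℝ≥0) • ν) Measure.AbsolutelyContinuous.rfl s fun x _ => ?_
  refine (Besicovitch.tendsto_filterAt (volume : Measure (X n)) x).frequently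
    (Filter.Eventually.frequently ?_)
  filter_upwards [self_mem_nhdsWithin] with r hr
  have hr0 : 0 < r := hr
  have h1 := hl r x (by rw [hs]; trivial) r hr0 le_rfl
  have h2 : ENNReal.ofReal (r ^ n) ≤ ENNReal.ofReal C * ν (closedBall x r) := by
    have h3 : ν (ball x r) ≠ ∞ := hu.ne_top isBounded_ball
    have h4 : r ^ n ≤ C * ν.real (ball x r) := by
      rw [div_le_iff₀ (by linarith)] at h1
      linarith
    calc ENNReal.ofReal (r ^ n) ≤ ENNReal.ofReal (C * ν.real (ball x r)) :=
          ENNReal.ofReal_le_ofReal h4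
      _ = ENNReal.ofReal C * ν (ball x r) := by
          rw [ENNReal.ofReal_mul hC0, Measure.real, ENNReal.ofReal_toReal h3]
      _ ≤ ENNReal.ofReal C * ν (closedBall x r) := by
          gcongr; exact ball_subset_closedBall
  rw [Measure.addHaar_closedBall' volume x hr0.le, finrank_euclideanSpace_fin, ← hv]
  rw [Measure.smul_apply, ENNReal.smul_def, smul_eq_mul, ENNReal.coe_mul,
    ENNReal.coe_toNNReal hvt]
  calc ENNReal.ofReal (r ^ n) * v ≤ (ENNReal.ofReal C * ν (closedBall x r)) * v := by gcongr
    _ = (C.toNNReal : ℝ≥0∞) * v * ν (closedBall x r) := by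
        rw [ENNReal.ofReal]; ring

end Crest.Agent.R085
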