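import Crest.Agent.R085.PlaB1

/-! Row 85. Reflectionless measures with full support, II: the divergence of the Riesz kernel. -/

set_option autoImplicit false

open MeasureTheory Set Filter Topology Metric
open scoped ENNReal NNReal

noncomputable section

namespace Crest.Agent.R085

variable {n : ℕ} {C : ℝ} {ν : Measure (X n)}

theorem PlaB_int (hu : Up n C ν) {ψ G : X n → ℝ} (hψ : Continuous ψ) (hψc : HasCompactSupport ψ)
    (hG : Continuous G) (hGc : HasCompactSupport G) :
    Integrable (fun p : X n × X n => ψ p.2 * G (p.2 - p.1)) (ν.prod volume) := by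
  have := hu.locFin
  refine Continuous.integrable_of_hasCompactSupport (by fun_prop) ?_
  refine HasCompactSupport.intro ((hψc.isCompact.prod hGc.isCompact).image
    (f := fun q : X n × X n => (q.1 - q.2, q.1)) (by fun_prop)) fun p hp => ?_
  by_contra h0
  obtain ⟨h1, h2⟩ := mul_ne_zero_iff.1 h0
  exact hp ⟨(p.2, p.2 - p.1), ⟨subset_tsupport _ h1, subset_tsupport _ h2⟩, by simp⟩

theorem PlaB_zero {φ : X n → ℝ} (hφ : ContDiff ℝ 1 φ) (hc : HasCompactSupport φ) (v : X n) :
    ∫ y, fderiv ℝ φ y v = 0 := by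
  have h := integral_mul_fderiv_eq_neg_fderiv_mul_of_integrable (μ := (volume : Measure (X n)))
    (f := fun _ => (1 : ℝ)) (g := φ) (v := v) (by simp)
    (by
      simpa using Continuous.integrable_of_hasCompactSupport
        ((hφ.continuous_fderiv one_ne_zero).clm_apply continuous_const) (hc.fderiv_apply ℝ v))
    (by simpa using hφ.continuous.integrable_of_hasCompactSupport hc)
    (fun _ _ => differentiableAt_const _) (fun x _ => hφ.differentiable one_ne_zero x)
  simpa using h

/-- the inner integral -/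
def PlaB_J (ν : Measure (X n)) (φ : X n → ℝ) (t s : ℝ) : ℝ :=
  ∫ x, (∫ y, fderiv ℝ φ y (x - y) * kk n t s (x - y)) ∂ν

theorem PlaB_J_eq (hu : Up n C ν) {φ : X n → ℝ} (hφ : ContDiff ℝ 1 φ) (hc : HasCompactSupport φ)
    {t s : ℝ} (ht : 0 < t) (hs : 0 < s) :
    PlaB_J ν φ t s = -∑ i : Fin n, ∫ y, fderiv ℝ φ y (EuclideanSpace.single i 1) *
      LL n ν t s (EuclideanSpace.proj i : X n →L[ℝ] ℝ) y := by
  have := hu.locFin
  have hI : ∀ i : Fin n, Integrable (fun p : X n × X n =>
      fderiv ℝ φ p.2 (EuclideanSpace.single i 1) * ((p.2 - p.1) i * kk n t s (p.2 - p.1)))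
      (ν.prod volume) := fun i =>
    PlaB_int hu (ψ := fun y => fderiv ℝ φ y (EuclideanSpace.single i 1))
      (G := fun z => z i * kk n t s z)
      ((hφ.continuous_fderiv one_ne_zero).clm_apply continuous_const) (hc.fderiv_apply ℝ _)
      ((EuclideanSpace.proj i : X n →L[ℝ] ℝ).continuous.mul (continuous_kk ht hs))
      (hasCompactSupport_kk ht hs).mul_left
  have e : ∀ x y : X n, fderiv ℝ φ y (x - y) * kk n t s (x - y) = -∑ i : Fin n,
      fderiv ℝ φ y (EuclideanSpace.single i 1) * ((y - x) i * kk n t s (y - x)) := by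
    intro x y
    have h1 : y - x = ∑ i : Fin n, (y - x) i • EuclideanSpace.single i (1 : ℝ) := by
      simpa using ((EuclideanSpace.basisFun (Fin n) ℝ).sum_repr (y - x)).symm
    rw [kk_comm, ← neg_sub y x, map_neg, neg_mul]
    congr 1
    conv_lhs => rw [h1, map_sum, ← h1, Finset.sum_mul]
    refine Finset.sum_congr rfl fun i _ => ?_
    rw [map_smul, smul_eq_mul]
    ring
  have hS := (integrable_finsetSum Finset.univ fun i _ => hI i).neg
  unfold PlaB_J
  simp only [e]
  have h2 := integral_prod _ hS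
  simp only [Pi.neg_apply] at h2
  rw [← h2, integral_neg, integral_finsetSum _ fun i _ => hI i]
  congr 1
  refine Finset.sum_congr rfl fun i _ => ?_
  rw [integral_prod_symm _ (hI i)]
  refine integral_congr_ae (Eventually.of_forall fun y => ?_)
  simp only [LL, integral_const_mul]
  rfl

theorem PlaB_swap (hu : Up n C ν) {φ : X n → ℝ} (hφ : ContDiff ℝ 1 φ) (hc : HasCompactSupport φ)
    {t s : ℝ} (ht : 0 < t) (hts : t ≤ s) :
    ∫ x, (∫ l in (1 : ℝ)..2, ∫ y, fderiv ℝ φ y (x - y) * kk n (l * t) (l * s) (x - y)) ∂ν =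
      ∫ l in (1 : ℝ)..2, PlaB_J ν φ (l * t) (l * s) := by
  have := hu.locFin
  have hs : 0 < s := ht.trans_le hts
  have hD : Continuous (fderiv ℝ φ) := hφ.continuous_fderiv one_ne_zero
  have hG : Test fun z : X n => 4 * s * (t ^ (n + 1))⁻¹ * cut 0 (4 * s) z :=
    (cut_test 0 (by positivity)).const_mul _
  have hI := (PlaB_int hu (ψ := fun y => ‖fderiv ℝ φ y‖) hD.norm (hc.fderiv ℝ).norm
    hG.continuous hG.2).integral_prod_left
  simp only [intervalIntegral.integral_of_le (one_le_two (α := ℝ)), PlaB_J]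
  refine integral_integral_swap ?_
  refine (hI.comp_fst (volume.restrict (Ioc (1 : ℝ) 2))).mono' ?_ ?_
  · refine (StronglyMeasurable.integral_prod_right' (f := fun q : (X n × ℝ) × X n =>
      fderiv ℝ φ q.2 (q.1.1 - q.2) * kk n (q.1.2 * t) (q.1.2 * s) (q.1.1 - q.2))
      (Measurable.stronglyMeasurable ?_)).aestronglyMeasurable
    have hchi : Measurable chi := continuous_chi.measurable
    refine Measurable.mul (Continuous.measurable (by fun_prop)) ?_
    unfold kk
    fun_prop
  · filter_upwards [Measure.quasiMeasurePreserving_snd.ae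
      (ae_restrict_mem (μ := volume) (measurableSet_Ioc (a := (1 : ℝ)) (b := 2)))] with p hp
    obtain ⟨x, l⟩ := p
    have hl1 : 1 < l := hp.1
    have hl2 : l ≤ 2 := hp.2
    refine norm_integral_le_of_norm_le (Continuous.integrable_of_hasCompactSupport
      (hD.norm.mul (hG.continuous.comp (continuous_id.sub continuous_const)))
      (hc.fderiv ℝ).norm.mul_right) (Eventually.of_forall fun y => ?_)
    have h1 : 0 < l * t := by positivity
    have h2 : l * t ≤ l * s := by gcongr
    dsimp only [Function.uncurry]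
    by_cases h : 4 * s ≤ ‖x - y‖
    · rw [kk_zero_of_ge h1 h2 (by nlinarith), mul_zero, norm_zero]
      have := cut_nonneg (0 : X n) (4 * s) (y - x)
      positivity
    · push Not at h
      rw [cut_one (by positivity) (by rw [dist_zero_right, norm_sub_rev]; exact h.le), mul_one,
        norm_mul, ← mul_assoc]
      refine mul_le_mul (((fderiv ℝ φ y).le_opNorm _).trans (by gcongr))
        ((abs_kk_le' h1 h2 _).trans ?_) (norm_nonneg _) (by positivity)
      gcongr
      nlinarith

/-- Integrate `LL_scale` against `ν`; by Fubini the inner integral is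
`-∑ i, ∫ ∂ᵢφ y * LL ν (l t) (l s) (proj i) y dy`, which tends to `0` uniformly in `l ∈ [1, 2]`
(`FF_basis`; `∫ ∂ᵢφ = 0`).  Then `I = 2 (I - I₂) + (2 I₂ - I)`. -/
theorem dual_harm (hC : 1 ≤ C) (hu : Up n C ν)
    (h : ∀ (ℓ : X n →L[ℝ] ℝ) (ψ : X n → ℝ), Continuous ψ → HasCompactSupport ψ → ∫ y, ψ y = 0 →
      Tendsto (fun p : ℝ × ℝ => ∫ y, ψ y * LL n ν p.1 p.2 ℓ y) FF (𝓝 0))
    {φ : X n → ℝ} (hφ : ContDiff ℝ 2 φ) (hc : HasCompactSupport φ) :
    Tendsto (fun p : ℝ × ℝ => ∫ x, LL n volume p.1 p.2 φ x ∂ν) FF (𝓝 0) := by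
  have hφ1 : ContDiff ℝ 1 φ := hφ.of_le (by norm_num)
  have hJ : Tendsto (fun p : ℝ × ℝ => PlaB_J ν φ p.1 p.2) FF (𝓝 0) := by
    have h1 := (tendsto_finsetSum Finset.univ fun (i : Fin n) _ =>
      h (EuclideanSpace.proj i) (fun y => fderiv ℝ φ y (EuclideanSpace.single i 1))
        ((hφ1.continuous_fderiv one_ne_zero).clm_apply continuous_const) (hc.fderiv_apply ℝ _)
        (PlaB_zero hφ1 hc _)).neg
    rw [Finset.sum_const_zero, neg_zero] at h1
    refine h1.congr' ?_
    filter_upwards [FF_ev one_pos 1] with p hp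
    exact (PlaB_J_eq hu hφ1 hc hp.1 (by linarith [hp.2.2])).symm
  obtain ⟨Cv, -, hv, -⟩ := vol_reg n
  obtain ⟨R, -, hR⟩ := exists_off hc 0
  have hint : ∀ t s : ℝ, 0 < t → t ≤ s → Integrable (LL n volume t s φ) ν := fun t s ht hts =>
    hu.integrable (continuous_LL hv ht (ht.trans_le hts) hφ.continuous)
      (LL_off ht hts hR).hasCompactSupport
  have h2 : Tendsto (fun p : ℝ × ℝ => ∫ l in (1 : ℝ)..2, PlaB_J ν φ (l * p.1) (l * p.2)) FF
      (𝓝 0) := by
    rw [NormedAddGroup.tendsto_nhds_zero] at hJ ⊢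
    intro ε hε
    obtain ⟨a, b, ha, hab, hP⟩ := FF_basis (hJ (ε / 2) (half_pos hε))
    filter_upwards [FF_ev (half_pos ha) b] with p hp
    have h3 := intervalIntegral.norm_integral_le_of_norm_le_const (a := 1) (b := 2) (C := ε / 2)
      (f := fun l => PlaB_J ν φ (l * p.1) (l * p.2)) fun l hl => by
        rw [uIoc_of_le one_le_two] at hl
        have h4 : 0 < p.2 := by linarith [hp.2.2]
        exact (hP _ _ (mul_pos (by linarith [hl.1]) hp.1) (by nlinarith [hl.2, hp.1, hp.2.1])
          (by nlinarith [hl.1, hp.2.2])).le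
    norm_num at h3
    exact h3.trans_lt (half_lt_self hε)
  have h3 := ((LL_double hC hu hφ hc).const_mul 2).add h2
  rw [mul_zero, add_zero] at h3
  refine h3.congr' ?_
  filter_upwards [FF_ev one_pos 1] with p hp
  have hts : p.1 ≤ p.2 := hp.2.1.trans hp.2.2
  rw [← PlaB_swap hu hφ1 hc hp.1 hts]
  simp only [← LL_scale hφ1 hc hp.1 (hp.1.trans_le hts)]
  rw [integral_sub ((hint _ _ (by linarith [hp.1]) (by linarith)).const_mul 2) (hint _ _ hp.1 hts),
    integral_const_mul]
  ring

end Crest.Agent.R085
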