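import Crest.Agent.R085.PlaA

/-! Row 85. Reflectionless measures with full support, II: the divergence of the Riesz kernel. -/

set_option autoImplicit false

open MeasureTheory Set Filter Topology Metric
open scoped ENNReal NNReal

noncomputable section

namespace Crest.Agent.R085

variable {n : ℕ} {C : ℝ} {ν : Measure (X n)}

private theorem PlaB0_sub (G : X n → ℝ) {l : ℝ} (hl : 0 < l) (t s : ℝ) (x : X n) :
    ∫ y, G (x - y) * kk n (l * t) (l * s) (x - y) = l⁻¹ * ∫ w, G (l • w) * kk n t s w := by
  rw [integral_sub_left_eq_self (fun z => G z * kk n (l * t) (l * s) z) volume x]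
  have h := Measure.integral_comp_smul (volume : Measure (X n))
    (fun z => G z * kk n (l * t) (l * s) z) l
  simp only [kk_smul hl, finrank_euclideanSpace, Fintype.card_fin, smul_eq_mul] at h
  rw [abs_of_pos (by positivity)] at h
  have h2 : ∫ w, G (l • w) * ((l ^ (n + 1))⁻¹ * kk n t s w) =
      (l ^ (n + 1))⁻¹ * ∫ w, G (l • w) * kk n t s w := by
    rw [← integral_const_mul]
    exact integral_congr_ae (ae_of_all _ fun w => by ring)
  rw [h2] at h
  have h3 : (l ^ n : ℝ) ≠ 0 := by positivity
  calc _ = l ^ n * ((l ^ n)⁻¹ * ∫ z, G z * kk n (l * t) (l * s) z) := by field_simp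
    _ = _ := by rw [← h]; field_simp; ring

/-- Scaling identity.  `φ (x - 2 z) - φ (x - z) = -∫_1^2 Dφ (x - l z) z dl`; multiply by
`kk t s z`, integrate in `z` and substitute `z ↦ z / l` (`kk_smul`,
`Measure.integral_comp_smul`). -/
theorem LL_scale {φ : X n → ℝ} (hφ : ContDiff ℝ 1 φ) (hc : HasCompactSupport φ) {t s : ℝ}
    (ht : 0 < t) (hs : 0 < s) (x : X n) :
    2 * LL n volume (2 * t) (2 * s) φ x - LL n volume t s φ x =
      ∫ l in (1 : ℝ)..2, ∫ y, fderiv ℝ φ y (x - y) * kk n (l * t) (l * s) (x - y) := by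
  have hk := continuous_kk (n := n) (d := n) ht hs
  have hkc := hasCompactSupport_kk (n := n) (d := n) ht hs
  have hD : Continuous (fderiv ℝ φ) := hφ.continuous_fderiv (by simp)
  have hφc := hφ.continuous
  have hint : ∀ G : X n → ℝ, Continuous G → Integrable fun w => G w * kk n t s w :=
    fun G hG => (hG.mul hk).integrable_of_hasCompactSupport hkc.mul_left
  have e1 : 2 * LL n volume (2 * t) (2 * s) φ x = ∫ w, (φ x - φ (x - (2 : ℝ) • w)) * kk n t s w := by
    have := PlaB0_sub (fun z => φ x - φ (x - z)) two_pos t s x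
    simp only [sub_sub_cancel] at this
    unfold LL
    rw [this]
    ring
  have e2 : LL n volume t s φ x = ∫ w, (φ x - φ (x - w)) * kk n t s w := by
    have := PlaB0_sub (fun z => φ x - φ (x - z)) one_pos t s x
    simp only [sub_sub_cancel, one_mul, inv_one, one_smul] at this
    exact this
  have e3 : ∫ l in (1 : ℝ)..2, ∫ y, fderiv ℝ φ y (x - y) * kk n (l * t) (l * s) (x - y) =
      ∫ l in (1 : ℝ)..2, ∫ w, fderiv ℝ φ (x - l • w) w * kk n t s w := by
    refine intervalIntegral.integral_congr fun l hl => ?_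
    rw [uIcc_of_le one_le_two] at hl
    have hl0 : 0 < l := by linarith [hl.1]
    have := PlaB0_sub (fun z => fderiv ℝ φ (x - z) z) hl0 t s x
    simp only [sub_sub_cancel] at this
    rw [this, ← integral_const_mul]
    refine integral_congr_ae (ae_of_all _ fun w => ?_)
    simp only [map_smul, smul_eq_mul]
    field_simp
  have hF : Continuous fun p : ℝ × X n => fderiv ℝ φ (x - p.1 • p.2) p.2 * kk n t s p.2 :=
    ((hD.comp (by fun_prop)).clm_apply continuous_snd).mul (hk.comp continuous_snd)
  have hI : Integrable (Function.uncurry fun (l : ℝ) (w : X n) =>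
      fderiv ℝ φ (x - l • w) w * kk n t s w) ((volume.restrict (uIoc (1 : ℝ) 2)).prod volume) := by
    rw [uIoc_of_le one_le_two]
    have h1 : IntegrableOn (fun p : ℝ × X n => fderiv ℝ φ (x - p.1 • p.2) p.2 * kk n t s p.2)
        (Icc (1 : ℝ) 2 ×ˢ tsupport (kk n t s : X n → ℝ)) (volume.prod volume) :=
      hF.continuousOn.integrableOn_compact (isCompact_Icc.prod hkc.isCompact)
    have h2 : IntegrableOn (fun p : ℝ × X n => fderiv ℝ φ (x - p.1 • p.2) p.2 * kk n t s p.2)
        (Ioc (1 : ℝ) 2 ×ˢ univ) (volume.prod volume) := by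
      refine (h1.mono_set (s := Ioc (1 : ℝ) 2 ×ˢ tsupport (kk n t s : X n → ℝ))
        (prod_mono Ioc_subset_Icc_self subset_rfl)).of_forall_sdiff_eq_zero
        (measurableSet_Ioc.prod MeasurableSet.univ) fun p hp => ?_
      have : p.2 ∉ tsupport (kk n t s : X n → ℝ) := fun h => hp.2 ⟨hp.1.1, h⟩
      rw [image_eq_zero_of_notMem_tsupport this, mul_zero]
    rw [IntegrableOn, ← Measure.prod_restrict, Measure.restrict_univ] at h2
    exact h2
  rw [e1, e2, e3, intervalIntegral_integral_swap hI,
    ← integral_sub (hint _ (by fun_prop)) (hint _ (by fun_prop))]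
  refine integral_congr_ae (ae_of_all _ fun w => ?_)
  simp only
  rw [intervalIntegral.integral_mul_const, ← sub_mul]
  congr 1
  have hd : ∀ l ∈ uIcc (1 : ℝ) 2, HasDerivAt (fun l : ℝ => -φ (x - l • w))
      (fderiv ℝ φ (x - l • w) w) l := fun l _ => by
    have h1 : HasDerivAt (fun l : ℝ => x - l • w) (-w) l := by
      simpa using ((hasDerivAt_id l).smul_const w).const_sub x
    have h2 := (((hφ.differentiable (by simp)) (x - l • w)).hasFDerivAt.comp_hasDerivAt l h1).neg
    rw [map_neg, neg_neg] at h2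
    exact h2
  rw [intervalIntegral.integral_eq_sub_of_hasDerivAt hd
    (Continuous.intervalIntegrable ((hD.comp (by fun_prop)).clm_apply continuous_const) _ _)]
  simp only [one_smul]
  ring

end Crest.Agent.R085
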