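import Crest.Agent.R085.PlaB0

/-! Row 85. Reflectionless measures with full support, II: the divergence of the Riesz kernel. -/

set_option autoImplicit false

open MeasureTheory Set Filter Topology Metric
open scoped ENNReal NNReal

noncomputable section

namespace Crest.Agent.R085

variable {n : ℕ} {C : ℝ} {ν : Measure (X n)}

private theorem PlaB1_off {s : ℝ} (hs : 0 < s) (x : X n) (g : X n → ℝ) :
    Off (fun y => g y * kk n s (2 * s) (x - y)) x (4 * s) := by
  intro y hy
  rw [dist_comm, dist_eq_norm] at hy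
  simp only
  rw [kk_zero_of_ge hs (by linarith) (by linarith), mul_zero]

private theorem PlaB1_near {φ : X n → ℝ} (hφ : ContDiff ℝ 2 φ) (hc : HasCompactSupport φ) :
    ∃ K : ℝ, 0 ≤ K ∧ ∀ t : ℝ, 0 < t → ∀ x, |LL n volume t (2 * t) φ x| ≤ K * t := by
  obtain ⟨C₀, hC₀, hu₀, -⟩ := vol_reg n
  obtain ⟨M, hM⟩ := ContDiff.lipschitzWith_of_hasCompactSupport (hc.fderiv (𝕜 := ℝ))
    (hφ.fderiv_right (m := 1) le_rfl) one_ne_zero
  refine ⟨16 * M * C₀ * 4 ^ n, by positivity, fun t ht x => ?_⟩
  have hd : Differentiable ℝ φ := hφ.differentiable two_ne_zero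
  have h1 : LL n volume t (2 * t) φ x =
      LL n volume t (2 * t) (fun y => φ y - fderiv ℝ φ x y) x := by
    rw [LL_sub hu₀ ht (by linarith) hφ.continuous (fderiv ℝ φ x).continuous, LL_vol_clm, sub_zero]
  rw [h1, LL]
  refine abs_integral_le_integral_abs.trans ((hu₀.integral_abs_le (by linarith)
    (B := M * (4 * t) * (4 * t) * (t ^ (n + 1))⁻¹) (by linarith) (by positivity)
    (PlaB1_off ht x _) fun y _ => ?_).trans (le_of_eq ?_))
  · by_cases hy : 4 * t ≤ dist y x
    · refine (congrArg abs (PlaB1_off ht x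
        (fun y => φ x - fderiv ℝ φ x x - (φ y - fderiv ℝ φ x y)) y hy)).trans_le ?_
      rw [abs_zero]
      positivity
    · push Not at hy
      have h2 := (convex_closedBall x (4 * t)).norm_image_sub_le_of_norm_fderiv_le'
        (f := φ) (φ := fderiv ℝ φ x) (C := M * (4 * t)) (fun z _ => hd z)
        (fun z hz => by
          rw [← dist_eq_norm]
          exact (hM.dist_le_mul z x).trans (by gcongr; exact hz))
        (mem_closedBall.2 hy.le) (mem_closedBall_self (by positivity))
      rw [map_sub, Real.norm_eq_abs, ← dist_eq_norm, dist_comm] at h2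
      rw [abs_mul]
      refine mul_le_mul ?_ (abs_kk_le' ht (by linarith) _) (abs_nonneg _) (by positivity)
      calc _ = |φ x - φ y - (fderiv ℝ φ x x - fderiv ℝ φ x y)| := by congr 1; ring
        _ ≤ _ := h2.trans (by gcongr)
  · rw [mul_pow]
    field_simp
    ring

private theorem PlaB1_far {φ : X n → ℝ} (hφ : Continuous φ) (hc : HasCompactSupport φ) :
    ∃ K : ℝ, 0 ≤ K ∧ ∀ s : ℝ, 0 < s → ∀ x, |LL n volume s (2 * s) φ x| ≤
      K * s⁻¹ * |φ x| + K * (s ^ (n + 1))⁻¹ := by
  obtain ⟨C₀, hC₀, hu₀, -⟩ := vol_reg n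
  have h0 : 0 ≤ ∫ y, |φ y| := integral_nonneg fun _ => abs_nonneg _
  refine ⟨C₀ * 4 ^ n + ∫ y, |φ y|, by positivity, fun s hs x => ?_⟩
  have h1 : LL n volume s (2 * s) φ x =
      (∫ y, φ x * kk n s (2 * s) (x - y)) - ∫ y, φ y * kk n s (2 * s) (x - y) := by
    rw [← integral_sub (integrable_kk_mul hu₀ hs (by linarith) continuous_const x)
      (integrable_kk_mul hu₀ hs (by linarith) hφ x), LL]
    simp only [sub_mul]
  rw [h1]
  refine (abs_sub _ _).trans (add_le_add ?_ ?_)
  · refine abs_integral_le_integral_abs.trans ((hu₀.integral_abs_le (by linarith)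
      (B := |φ x| * (s ^ (n + 1))⁻¹) (by linarith) (by positivity)
      (PlaB1_off hs x _) fun y _ => ?_).trans ?_)
    · rw [abs_mul]
      exact mul_le_mul_of_nonneg_left (abs_kk_le' hs (by linarith) _) (abs_nonneg _)
    · calc _ = C₀ * 4 ^ n * s⁻¹ * |φ x| := by
            rw [mul_pow]
            field_simp
            ring
        _ ≤ _ := by gcongr; linarith
  · rw [← Real.norm_eq_abs]
    refine (norm_integral_le_of_norm_le (g := fun y => |φ y| * (s ^ (n + 1))⁻¹)
      ((hu₀.integrable hφ hc).abs.mul_const _) (Eventually.of_forall fun y => ?_)).trans ?_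
    · rw [Real.norm_eq_abs, abs_mul]
      exact mul_le_mul_of_nonneg_left (abs_kk_le' hs (by linarith) _) (abs_nonneg _)
    · rw [integral_mul_const]
      gcongr
      exact le_add_of_nonneg_left (by positivity)

/-- `I (t, s) - I (2 t, 2 s) = I (t, 2 t) - I (s, 2 s)`; on `(t, 2 t)` subtract the linear part
(`LL_vol_clm`) and use the second order Taylor bound; on `(s, 2 s)` the kernel is at most
`s^(-n-1)`. -/
theorem LL_double (hC : 1 ≤ C) (hu : Up n C ν) {φ : X n → ℝ} (hφ : ContDiff ℝ 2 φ)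
    (hc : HasCompactSupport φ) :
    Tendsto (fun p : ℝ × ℝ => ∫ x, LL n volume p.1 p.2 φ x ∂ν -
      ∫ x, LL n volume (2 * p.1) (2 * p.2) φ x ∂ν) FF (𝓝 0) := by
  obtain ⟨C₀, hC₀, hu₀, -⟩ := vol_reg n
  obtain ⟨K₁, hK₁, h₁⟩ := PlaB1_near hφ hc
  obtain ⟨K₂, hK₂, h₂⟩ := PlaB1_far hφ.continuous hc
  obtain ⟨R, hR, ho⟩ := exists_off hc 0
  have hi : ∀ a b : ℝ, 0 < a → a ≤ b → Integrable (LL n volume a b φ) ν := fun a b ha hab =>
    hu.integrable (continuous_LL hu₀ ha (by linarith) hφ.continuous)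
      (LL_off ha hab ho).hasCompactSupport
  have hlim : Tendsto (fun p : ℝ × ℝ => K₁ * (C * (R + 4) ^ n) * p.1 +
      (K₂ * (∫ x, |φ x| ∂ν) + K₂ * (C * (R + 4) ^ n)) * p.2⁻¹) FF (𝓝 0) := by
    simpa using ((FF_fst.mono_right nhdsWithin_le_nhds).const_mul (K₁ * (C * (R + 4) ^ n))).add
      ((tendsto_inv_atTop_zero.comp FF_snd).const_mul
        (K₂ * (∫ x, |φ x| ∂ν) + K₂ * (C * (R + 4) ^ n)))
  refine squeeze_zero_norm' ?_ hlim
  filter_upwards [FF_ev one_pos 1] with ⟨t, s⟩ ⟨ht, ht1, hs1⟩
  simp only at ht ht1 hs1 ⊢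
  have hs : 0 < s := by linarith
  have e : ∫ x, LL n volume t s φ x ∂ν - ∫ x, LL n volume (2 * t) (2 * s) φ x ∂ν =
      ∫ x, LL n volume t (2 * t) φ x ∂ν - ∫ x, LL n volume s (2 * s) φ x ∂ν := by
    rw [sub_eq_sub_iff_add_eq_add, ← integral_add (hi _ _ ht (by linarith)) (hi _ _ hs (by linarith)),
      ← integral_add (hi _ _ ht (by linarith)) (hi _ _ (by linarith) (by linarith))]
    refine integral_congr_ae (Eventually.of_forall fun x => ?_)
    simp only
    rw [LL_split hu₀ ht hs (by linarith) hφ.continuous,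
      LL_split hu₀ ht (by linarith) (by linarith) hφ.continuous]
  rw [e]
  refine (norm_sub_le _ _).trans (add_le_add ?_ ?_)
  · refine abs_integral_le_integral_abs.trans ((hu.integral_abs_le (by linarith) (R := R + 4)
      (x := 0) (B := K₁ * t) (by linarith) (by positivity)
      ((LL_off ht (by linarith) ho).mono (by rw [dist_self]; linarith))
      fun y _ => h₁ t ht y).trans (le_of_eq ?_))
    ring
  · have hfin : ν (ball 0 ((R + 4) * s)) ≠ ∞ := hu.ne_top isBounded_ball
    have i1 : Integrable (fun x => K₂ * s⁻¹ * |φ x|) ν :=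
      (hu.integrable hφ.continuous hc).abs.const_mul _
    have i2 : Integrable ((ball (0 : X n) ((R + 4) * s)).indicator
        fun _ => K₂ * (s ^ (n + 1))⁻¹) ν :=
      (integrableOn_const hfin).integrable_indicator measurableSet_ball
    refine (norm_integral_le_of_norm_le (i1.add i2) (Eventually.of_forall fun x => ?_)).trans ?_
    · by_cases hx : x ∈ ball (0 : X n) ((R + 4) * s)
      · rw [Pi.add_apply, indicator_of_mem hx]
        exact h₂ s hs x
      · rw [Pi.add_apply, indicator_of_notMem hx, LL_off hs (by linarith) ho x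
          (le_trans (by nlinarith) (not_lt.1 hx)), norm_zero]
        positivity
    · rw [integral_add' i1 i2, integral_const_mul, integral_indicator_const _ measurableSet_ball,
        smul_eq_mul]
      have h3 := hu.real_le (by linarith) (x := 0) (r := (R + 4) * s) (by positivity) subset_rfl
      calc _ ≤ K₂ * s⁻¹ * ∫ x, |φ x| ∂ν + C * ((R + 4) * s) ^ n * (K₂ * (s ^ (n + 1))⁻¹) := by
            gcongr
        _ = _ := by
            rw [mul_pow]
            field_simp
            ring

end Crest.Agent.R085
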