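import Crest.Agent.R085.PlaC0

/-! Row 85. Reflectionless measures carried by an `n`-plane are multiples of the area. -/

set_option autoImplicit false

open MeasureTheory Set Filter Topology Metric
open scoped ENNReal NNReal

noncomputable section

namespace Crest.Agent.R085

variable {n d : ℕ} {C : ℝ}

/-- Transfer to the plane: `ν = μ.map (pr ι)`. -/
theorem KK.proj (hC : 1 ≤ C) {m : ℕ} {μ : Measure (X d)} (h : KK n C μ) (ι : X m →ₗᵢ[ℝ] X d)
    (hs : ∀ y ∈ μ.support, ∃ u, ι u = y) :
    KK n C (μ.map (pr ι)) ∧ μ = (μ.map (pr ι)).map ι ∧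
      ∀ u, u ∈ (μ.map (pr ι)).support ↔ ι u ∈ μ.support := by
  set ν := μ.map (pr ι) with hν
  have hme : MeasurableEmbedding ι := ι.isometry.isClosedEmbedding.measurableEmbedding
  have hμ : μ = ν.map ι := by
    rw [hν, Measure.map_map hme.measurable (pr ι).continuous.measurable]
    refine (Measure.map_id.symm.trans (Measure.map_congr ?_))
    filter_upwards [Measure.support_mem_ae (μ := μ)] with y hy
    obtain ⟨u, rfl⟩ := hs y hy
    simp
  have hball : ∀ u r, ν (ball u r) = μ (ball (ι u) r) := fun u r => by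
    rw [hμ, hme.map_apply, ι.isometry.preimage_ball]
  have hsup : ∀ u, u ∈ ν.support ↔ ι u ∈ μ.support := fun u => by
    rw [Measure.mem_support_iff_forall, Measure.mem_support_iff_forall]
    constructor
    · intro H U hU
      obtain ⟨r, hr, hrU⟩ := Metric.mem_nhds_iff.1 hU
      exact ((H _ (ball_mem_nhds u hr)).trans_eq (hball u r)).trans_le (measure_mono hrU)
    · intro H U hU
      obtain ⟨r, hr, hrU⟩ := Metric.mem_nhds_iff.1 hU
      exact ((H _ (ball_mem_nhds _ hr)).trans_eq (hball u r).symm).trans_le (measure_mono hrU)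
  have hint : ∀ f : X d → ℝ, ∫ y, f y ∂μ = ∫ u, f (ι u) ∂ν := fun f => by
    rw [← hme.integral_map, ← hμ]
  refine ⟨⟨fun u r hr => ?_, fun D u hu r hr hD => ?_, fun ℓ ψ hψ h0 => ?_⟩, hμ, hsup⟩
  · rw [hball]
    exact h.up _ r hr
  · rw [Measure.real, hball]
    exact h.lo D _ ((hsup u).1 hu) r hr hD
  · obtain ⟨R, hR, hoff⟩ := exists_off hψ.2 0
    have hR0 : 0 < R := zero_lt_one.trans_le hR
    obtain ⟨Λ, hΛ⟩ := hψ.1
    have hloc : LocLip fun y : X d => ψ (pr ι y) := fun _ =>
      ⟨_, (hΛ.comp (pr ι).lipschitz).lipschitzOnWith⟩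
    have htest := hloc.mul_test (cut_test (0 : X d) hR0)
    have hval : ∀ u, ψ (pr ι (ι u)) * cut 0 R (ι u) = ψ u := fun u => by
      rw [pr_iso]
      rcases le_total R (dist u 0) with hu | hu
      · rw [hoff u hu, zero_mul]
      · rw [cut_one hR0 (by simpa using hu), mul_one]
    have h1 := h.refl (ℓ.comp (pr ι)) _ htest (by rw [hint]; simpa only [hval] using h0)
    refine h1.congr fun p => ?_
    unfold EE LL
    rw [hint]
    refine integral_congr_ae (Eventually.of_forall fun u => ?_)
    simp only [hval]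
    rw [hint]
    simp only [ContinuousLinearMap.comp_apply, pr_iso, ← map_sub, kk_iso]

end Crest.Agent.R085
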