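import Crest.Agent.R085.PlaB
import Crest.Agent.R085.Iso

/-! Row 85. Reflectionless measures carried by an `n`-plane are multiples of the area. -/

set_option autoImplicit false

open MeasureTheory Set Filter Topology Metric
open scoped ENNReal NNReal

noncomputable section

namespace Crest.Agent.R085

variable {n d : ℕ} {C : ℝ}

/-- locally finite measures are determined by the integrals of smooth test functions -/
theorem PlaC0_ext (μ ν : Measure (X n)) [IsLocallyFiniteMeasure μ] [IsLocallyFiniteMeasure ν]
    (h : ∀ g : X n → ℝ, ContDiff ℝ (⊤ : ℕ∞) g → HasCompactSupport g →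
      ∫ x, g x ∂μ = ∫ x, g x ∂ν) : μ = ν := by
  have h1 : μ ≪ μ + ν := Measure.absolutelyContinuous_of_le (Measure.le_add_right le_rfl)
  have h2 : ν ≪ μ + ν := Measure.absolutelyContinuous_of_le (Measure.le_add_left le_rfl)
  have li : ∀ (ρ : Measure (X n)) [IsLocallyFiniteMeasure ρ],
      LocallyIntegrable (fun x => (ρ.rnDeriv (μ + ν) x).toReal) (μ + ν) := fun ρ _ x => by
    obtain ⟨s, hs, hf⟩ := ρ.finiteAt_nhds x
    exact ⟨s, hs, Measure.integrableOn_toReal_rnDeriv hf.ne⟩
  have h3 := ae_eq_of_integral_contDiff_smul_eq (li μ) (li ν) fun g hg hc => by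
    simp only [smul_eq_mul, mul_comm (g _)]
    rw [integral_toReal_rnDeriv_mul h1, integral_toReal_rnDeriv_mul h2, h g hg hc]
  have h4 : μ.rnDeriv (μ + ν) =ᵐ[μ + ν] ν.rnDeriv (μ + ν) := by
    filter_upwards [h3, Measure.rnDeriv_lt_top μ (μ + ν), Measure.rnDeriv_lt_top ν (μ + ν)]
      with x hx a b
    exact (ENNReal.toReal_eq_toReal_iff' a.ne b.ne).1 hx
  exact (Measure.withDensity_rnDeriv_eq _ _ h1).symm.trans
    ((withDensity_congr_ae h4).trans (Measure.withDensity_rnDeriv_eq _ _ h2))

theorem PlaC0_add {F : X n → ℝ} {M : ℝ} (hM : ∀ y, |F y| ≤ M)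
    (h : ∀ x v, F (x + v) - F x = F v - F 0) (v : X n) : F v = F 0 := by
  have h1 : ∀ k : ℕ, F (k • v) - F 0 = k * (F v - F 0) := fun k => by
    induction k with
    | zero => rw [zero_smul, sub_self, Nat.cast_zero, zero_mul]
    | succ k ih =>
      have := h (k • v) v
      rw [succ_nsmul, Nat.cast_succ]
      linarith
  by_contra hne
  have h0 : 0 < |F v - F 0| := abs_pos.2 (sub_ne_zero.2 hne)
  obtain ⟨k, hk⟩ := exists_nat_gt (2 * M / |F v - F 0|)
  rw [div_lt_iff₀ h0] at hk
  have h2 : |F (k • v) - F 0| ≤ 2 * M := by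
    have := abs_sub (F (k • v)) (F 0)
    linarith [hM (k • v), hM 0]
  rw [h1, abs_mul, Nat.abs_cast] at h2
  linarith

theorem PlaC0_const (hC : 1 ≤ C) {ν : Measure (X n)} (h : KK n C ν) (hs : ν.support = univ)
    {φ : X n → ℝ} (hφ : ContDiff ℝ (⊤ : ℕ∞) φ) (hc : HasCompactSupport φ) (v : X n) :
    ∫ y, φ (v - y) ∂ν = ∫ y, φ (0 - y) ∂ν := by
  have := h.up.locFin
  have hT : Test φ := ⟨ContDiff.lipschitzWith_of_hasCompactSupport hc hφ (by simp), hc⟩
  obtain ⟨B, hB⟩ := hc.exists_bound_of_continuous hφ.continuous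
  obtain ⟨R, hR, ho⟩ := exists_off hc 0
  have hM : ∀ x, |∫ y, φ (x - y) * 1 ∂ν| ≤ B * (C * R ^ n) := fun x => by
    refine abs_integral_le_integral_abs.trans (h.up.integral_abs_le (by linarith) (x := x)
      (by linarith) ((norm_nonneg _).trans (hB 0)) (fun y hy => ?_) fun y _ => ?_)
    · rw [mul_one]
      refine ho _ ?_
      rwa [dist_zero_right, ← dist_eq_norm, dist_comm]
    · rw [mul_one]
      exact hB _
  have hH : Harm n volume fun x => ∫ y, φ (x - y) * 1 ∂ν := fun ψ hψ _ => by
    have e : (fun y' => ∫ x, φ (x - y') * ψ x) =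
        MeasureTheory.convolution ψ (fun z => φ (-z)) (ContinuousLinearMap.mul ℝ ℝ) volume := by
      funext y'
      simp only [convolution_def, ContinuousLinearMap.mul_apply', neg_sub, mul_comm]
    have hsm : ContDiff ℝ 2 fun y' => ∫ x, φ (x - y') * ψ x := by
      rw [e]
      exact HasCompactSupport.contDiff_convolution_right (n := 2) _
        (hc.comp_homeomorph (Homeomorph.neg _)) hψ.continuous.locallyIntegrable
        ((hφ.of_le (by exact_mod_cast le_top)).comp contDiff_neg)
    refine (dual_harm hC h.up (fun ℓ ψ a b c => harm_vol hC h hs ℓ a b c) hsm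
      (test_moll hT hψ).1.2).congr' ?_
    filter_upwards [FF_ev one_pos 1] with p hp
    rw [EE_moll continuous_const hφ.continuous hc hψ.continuous hψ.2 hp.1 (by linarith [hp.2.2])]
    simp only [one_mul]
  have := PlaC0_add hM (liou_lip (σ := 0) (M := B * (C * R ^ n)) (locLip_moll continuous_const hT)
    hH le_rfl (by norm_num) fun y => by rw [Real.rpow_zero, mul_one]; exact hM y) v
  simpa only [mul_one] using this

/-- For a smooth `φ` with compact support `F x = ∫ φ (x - y) dν` is bounded, `LocLip`
(`locLip_moll`) and harmonic (`EE_moll` with `g = 1`, `dual_harm`, `harm_vol`; the mollified test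
function is a convolution with a smooth function, so it is smooth); by `liou_lip` it is additive
modulo a constant and bounded, hence constant.  So `ν` is translation invariant on smooth test
functions, hence on compact / open sets (smooth Urysohn functions and regularity), and
`Measure.isAddLeftInvariant_eq_smul` applies. -/
theorem full_vol (hC : 1 ≤ C) {ν : Measure (X n)} (h : KK n C ν) (hs : ν.support = univ) :
    ∃ θ : ℝ≥0, ν = θ • (volume : Measure (X n)) := by
  have := h.up.locFin
  have : ν.IsAddLeftInvariant := ⟨fun w => by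
    have hm : Measurable fun y : X n => w + y := measurable_const_add w
    have : IsLocallyFiniteMeasure (ν.map fun y => w + y) := ⟨fun x =>
      ⟨ball x 1, ball_mem_nhds x one_pos, by
        rw [Measure.map_apply hm measurableSet_ball]
        refine (h.up.ne_top ((isBounded_ball (x := x - w) (r := 1)).subset fun y hy => ?_)).lt_top
        rw [mem_preimage, mem_ball, dist_eq_norm] at hy
        rwa [mem_ball, dist_eq_norm, show y - (x - w) = w + y - x by abel]⟩⟩
    refine PlaC0_ext _ _ fun g hg hc => ?_
    rw [integral_map hm.aemeasurable hg.continuous.aestronglyMeasurable]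
    have := PlaC0_const hC h hs (φ := fun z => g (-z)) (hg.comp contDiff_neg)
      (hc.comp_homeomorph (Homeomorph.neg _)) (-w)
    simpa only [neg_sub, sub_neg_eq_add, sub_zero, add_comm w] using this⟩
  exact ⟨_, Measure.isAddLeftInvariant_eq_smul ν volume⟩

end Crest.Agent.R085
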