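import Crest.Agent.R085.Reg1

/-! Row 85. Regular measures: elementary bounds, singular integrals, packing and nets. -/

set_option autoImplicit false

open MeasureTheory Set Filter Topology Metric
open scoped ENNReal NNReal

noncomputable section

namespace Crest.Agent.R085

variable {n d : ℕ} {C D : ℝ} {μ : Measure (X d)}

/-- Packing: the balls of radius `r / 2` are disjoint. -/
theorem pack (hu : Up n C μ) (hl : Lo n C D μ) (hC : 1 ≤ C) {r R : ℝ} (hr : 0 < r) (hR : 0 < R)
    (hD : r / 2 ≤ D) {x : X d} (s : Finset (X d)) (hs : ∀ y ∈ s, y ∈ μ.support ∧ dist y x ≤ R)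
    (hsep : ∀ y ∈ s, ∀ z ∈ s, y ≠ z → r ≤ dist y z) :
    (s.card : ℝ) ≤ C ^ 2 * (2 * (R + r) / r) ^ n := by
  have hC0 : 0 < C := one_pos.trans_le hC
  have h1 : (⋃ y ∈ s, ball y (r / 2)) ⊆ ball x (R + r) := by
    refine iUnion₂_subset fun y hy => ball_subset_ball' ?_
    linarith [(hs y hy).2]
  have h2 := hu.real_le hC0.le (by positivity) h1
  rw [measureReal_biUnion_finset (fun y hy z hz hyz => ball_disjoint_ball (by
    linarith [hsep y hy z hz hyz])) (fun _ _ => measurableSet_ball)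
    (fun _ _ => hu.ne_top isBounded_ball)] at h2
  have h3 := Finset.card_nsmul_le_sum s _ _ fun y hy => hl y (hs y hy).1 (r / 2) (by positivity) hD
  rw [nsmul_eq_mul] at h3
  have h4 := h3.trans h2
  rw [← mul_div_assoc, div_le_iff₀ hC0, ← le_div_iff₀ (by positivity)] at h4
  refine h4.trans_eq ?_
  rw [show 2 * (R + r) / r = (R + r) / (r / 2) by field_simp, div_pow (R + r)]
  ring

/-- Covering. -/
theorem cover_le (hu : Up n C μ) (hC : 0 ≤ C) {r : ℝ} (hr : 0 < r) (s : Finset (X d))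
    {S : Set (X d)} (hS : ∀ y ∈ S, ∃ q ∈ s, dist y q < r) : μ.real S ≤ s.card * (C * r ^ n) := by
  have h1 : S ⊆ ⋃ q ∈ s, ball q r := fun y hy => by
    obtain ⟨q, hq, h⟩ := hS y hy
    exact mem_iUnion₂.2 ⟨q, hq, h⟩
  refine (measureReal_mono h1 (hu.ne_top ((Bornology.isBounded_biUnion_finset s).2
    fun _ _ => isBounded_ball))).trans ((measureReal_biUnion_finset_le s _).trans ?_)
  rw [← nsmul_eq_mul]
  exact Finset.sum_le_card_nsmul s _ _ fun q _ => hu.real_le hC hr subset_rfl

/-- Maximal separated subsets (Zorn). -/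
theorem exists_net (S : Set (X d)) {r : ℝ} (hr : 0 < r) : ∃ T ⊆ S,
    (∀ y ∈ T, ∀ z ∈ T, y ≠ z → r ≤ dist y z) ∧ ∀ x ∈ S, ∃ y ∈ T, dist x y < r := by
  obtain ⟨T, hT⟩ := zorn_subset {T : Set (X d) | T ⊆ S ∧ ∀ y ∈ T, ∀ z ∈ T, y ≠ z → r ≤ dist y z}
    fun c hc hch => ⟨⋃₀ c, ⟨sUnion_subset fun t ht => (hc ht).1, by
      rintro y ⟨t, ht, hy⟩ z ⟨t', ht', hz⟩ hyz
      rcases hch.total ht ht' with h | h
      · exact (hc ht').2 y (h hy) z hz hyz
      · exact (hc ht).2 y hy z (h hz) hyz⟩, fun t ht => subset_sUnion_of_mem ht⟩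
  refine ⟨T, hT.prop.1, hT.prop.2, fun x hx => ?_⟩
  by_contra h
  push Not at h
  have h1 : insert x T ⊆ T := hT.le_of_ge ⟨insert_subset hx hT.prop.1, by
    rintro y (rfl | hy) z (rfl | hz) hyz
    · exact absurd rfl hyz
    · exact h z hz
    · rw [dist_comm]
      exact h y hy
    · exact hT.prop.2 y hy z hz hyz⟩ (subset_insert x T)
  have h2 := h x (h1 (mem_insert x T))
  rw [dist_self] at h2
  linarith

theorem finite_of_sep {T : Set (X d)} (hT : Bornology.IsBounded T) {r : ℝ} (hr : 0 < r)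
    (hsep : ∀ y ∈ T, ∀ z ∈ T, y ≠ z → r ≤ dist y z) : T.Finite := by
  obtain ⟨t, ht, h⟩ := Metric.totallyBounded_iff.1
    (hT.isCompact_closure.totallyBounded.subset subset_closure) (r / 2) (by positivity)
  refine (ht.biUnion (t := fun y => T ∩ ball y (r / 2)) fun y _ => Set.Subsingleton.finite ?_).subset
    fun x hx => ?_
  · intro a ha b hb
    by_contra hab
    have h1 := hsep a ha.1 b hb.1 hab
    have h2 := dist_triangle_right a b y
    have h3 : dist a y < r / 2 := ha.2
    have h4 : dist b y < r / 2 := hb.2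
    linarith
  · obtain ⟨y, hy, hx'⟩ := mem_iUnion₂.1 (h hx)
    exact mem_iUnion₂.2 ⟨y, hy, hx, hx'⟩

theorem countable_of_sep {T : Set (X d)} {r : ℝ} (hr : 0 < r)
    (hsep : ∀ y ∈ T, ∀ z ∈ T, y ≠ z → r ≤ dist y z) : T.Countable := by
  rw [← inter_univ T, ← iUnion_ball_nat (0 : X d), inter_iUnion]
  exact countable_iUnion fun k => (finite_of_sep (isBounded_ball.subset inter_subset_right) hr
    fun y hy z hz => hsep y hy.1 z hz.1).countable

theorem vol_reg (m : ℕ) : ∃ C : ℝ, 1 ≤ C ∧ Up m C (volume : Measure (X m)) ∧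
    ∀ D, Lo m C D (volume : Measure (X m)) := by
  have hv : 0 < (volume : Measure (X m)).real (ball 0 1) :=
    ENNReal.toReal_pos (measure_ball_pos _ _ one_pos).ne' measure_ball_lt_top.ne
  have h1 : ∀ (x : X m) (r : ℝ), 0 < r → volume (ball x r) =
      ENNReal.ofReal ((volume : Measure (X m)).real (ball 0 1) * r ^ m) := fun x r hr => by
    rw [Measure.addHaar_ball_of_pos _ x hr, finrank_euclideanSpace_fin,
      ENNReal.ofReal_mul hv.le, ofReal_measureReal measure_ball_lt_top.ne, mul_comm]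
  generalize (volume : Measure (X m)).real (ball 0 1) = v at hv h1
  have h2 : 0 < v⁻¹ := inv_pos.2 hv
  refine ⟨1 + v + v⁻¹, by linarith, fun x r hr => ?_, fun D x _ r hr _ => ?_⟩
  · rw [h1 x r hr]
    gcongr
    linarith
  · rw [measureReal_def, h1 x r hr, ENNReal.toReal_ofReal (by positivity)]
    calc r ^ m / (1 + v + v⁻¹) ≤ r ^ m / v⁻¹ := by
          gcongr
          linarith
      _ = _ := by rw [div_inv_eq_mul, mul_comm]

/-- For radii above the diameter `D₀` of the support: a `D₀`-separated net of the support has a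
bounded number of points (`pack` for the Lebesgue measure of `X d`). -/
theorem of_AD (n d : ℕ) (C₀ : ℝ) : ∃ C : ℝ, 1 ≤ C ∧ ∀ (μ : Measure (X d)) (r : ℝ),
    Crest.AnalysisR.IsADRegular n C₀ μ → Crest.AnalysisR.IsAdmissibleRadius μ r →
      Up n C μ ∧ Lo n C r μ := by
  obtain ⟨V, hV, hVu, hVl⟩ := vol_reg d
  have hK : (1 : ℝ) ≤ V ^ 2 * 4 ^ d := one_le_mul_of_one_le_of_one_le (one_le_pow₀ hV)
    (one_le_pow₀ (by norm_num))
  have h2n : (1 : ℝ) ≤ 2 ^ n := one_le_pow₀ (by norm_num)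
  refine ⟨V ^ 2 * 4 ^ d * (max 1 C₀ * 2 ^ n), one_le_mul_of_one_le_of_one_le hK
    (one_le_mul_of_one_le_of_one_le (le_max_left _ _) h2n), fun μ r ⟨hC, h⟩ hr => ⟨?_, ?_⟩⟩
  · rw [max_eq_right hC]
    intro x ρ hρ
    rcases (ball x ρ ∩ μ.support).eq_empty_or_nonempty with h0 | ⟨y, hy1, hy2⟩
    · rw [measure_mono_null (disjoint_iff_inter_eq_empty.2 h0).subset_compl_right
        Measure.measure_compl_support]
      exact zero_le
    by_cases h1 : ENNReal.ofReal (2 * ρ) ≤ ediam μ.support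
    · refine (measure_mono (ball_subset_ball' (y := y) (ε₂ := 2 * ρ) ?_)).trans
        ((h y hy2 (2 * ρ) ⟨by positivity, h1⟩).2.trans (ENNReal.ofReal_le_ofReal ?_))
      · rw [dist_comm]
        linarith [mem_ball.1 hy1]
      · rw [mul_pow, mul_assoc (V ^ 2 * 4 ^ d), mul_assoc C₀]
        exact le_mul_of_one_le_left (by positivity) hK
    · rw [not_le] at h1
      have h2 : ediam μ.support ≠ ∞ := ne_top_of_lt h1
      have h3 : Bornology.IsBounded μ.support := isBounded_iff_ediam_ne_top.2 h2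
      have h4 : 0 < diam μ.support :=
        hr.1.trans_le ((ENNReal.ofReal_le_iff_le_toReal h2).1 hr.2)
      have h5 : diam μ.support ≤ 2 * ρ := ENNReal.toReal_le_of_le_ofReal (by positivity) h1.le
      obtain ⟨T, hT, hsep, hcov⟩ := exists_net μ.support h4
      lift T to Finset (X d) using finite_of_sep (h3.subset hT) h4 hsep
      have h6 := pack hVu (hVl _) hV h4 h4 le_rfl (x := y) T
        (fun z hz => ⟨by simp [Measure.support_eq_univ], dist_le_diam_of_mem h3 (hT hz) hy2⟩) hsep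
      rw [show 2 * (diam μ.support + diam μ.support) / diam μ.support = 4 by
        field_simp; norm_num] at h6
      calc μ (ball x ρ) ≤ μ (⋃ q ∈ T, ball q (diam μ.support)) := by
            refine measure_mono_ae ?_
            filter_upwards [μ.support_mem_ae] with z hz _
            obtain ⟨q, hq, hz⟩ := hcov z hz
            exact mem_iUnion₂.2 ⟨q, hq, hz⟩
        _ ≤ ∑ q ∈ T, μ (ball q (diam μ.support)) := measure_biUnion_finset_le _ _
        _ ≤ T.card • ENNReal.ofReal (C₀ * diam μ.support ^ n) :=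
            Finset.sum_le_card_nsmul T _ _ fun q hq =>
              (h q (hT hq) _ ⟨h4, ENNReal.ofReal_toReal_le⟩).2
        _ ≤ _ := by
            rw [nsmul_eq_mul, ← ENNReal.ofReal_natCast, ← ENNReal.ofReal_mul (Nat.cast_nonneg _),
              mul_assoc (V ^ 2 * 4 ^ d), mul_assoc C₀, ← mul_pow]
            gcongr
  · rw [max_eq_right hC]
    intro x hx ρ hρ hρr
    obtain ⟨h1, h2⟩ := h x hx ρ ⟨hρ, (ENNReal.ofReal_le_ofReal hρr).trans hr.2⟩
    refine le_trans ?_ ((ENNReal.ofReal_le_iff_le_toReal (ne_top_of_le_ne_top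
      ENNReal.ofReal_ne_top h2)).1 h1)
    rw [← div_eq_inv_mul]
    gcongr
    exact (le_mul_of_one_le_right (by linarith) h2n).trans
      (le_mul_of_one_le_left (by positivity) hK)

end Crest.Agent.R085
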