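import Crest.Agent.R085.Ker

/-! Row 85. Regular measures: elementary bounds, singular integrals, packing and nets. -/

set_option autoImplicit false

open MeasureTheory Set Filter Topology Metric
open scoped ENNReal NNReal

noncomputable section

namespace Crest.Agent.R085

variable {n d : ℕ} {C D : ℝ} {μ : Measure (X d)}

theorem Up.locFin (h : Up n C μ) : IsLocallyFiniteMeasure μ := by
  exact ⟨fun x => ⟨ball x 1, ball_mem_nhds x one_pos,
    (h x 1 one_pos).trans_lt ENNReal.ofReal_lt_top⟩⟩

theorem Up.mono {C' : ℝ} (h : Up n C μ) (hC : C ≤ C') : Up n C' μ := by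
  exact fun x r hr => (h x r hr).trans
    (ENNReal.ofReal_le_ofReal (mul_le_mul_of_nonneg_right hC (by positivity)))

theorem Up.ne_top (h : Up n C μ) {S : Set (X d)} (hS : Bornology.IsBounded S) : μ S ≠ ∞ := by
  have := h.locFin
  exact hS.measure_lt_top.ne

theorem Up.real_le (h : Up n C μ) (hC : 0 ≤ C) {S : Set (X d)} {x : X d} {r : ℝ} (hr : 0 < r)
    (hS : S ⊆ ball x r) : μ.real S ≤ C * r ^ n := by
  exact ENNReal.toReal_le_of_le_ofReal (by positivity) ((measure_mono hS).trans (h x r hr))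

theorem Lo.mono {C' D' : ℝ} (h : Lo n C D μ) (hC0 : 0 < C) (hC : C ≤ C') (hD : D' ≤ D) :
    Lo n C' D' μ := by
  exact fun x hx r hr hrD =>
    (div_le_div_of_nonneg_left (by positivity) hC0 hC).trans (h x hx r hr (hrD.trans hD))

theorem Reg0_inter (μ : Measure (X d)) (S : Set (X d)) : μ (S ∩ μ.support) = μ S :=
  measure_inter_conull Measure.measure_compl_support

theorem Lo.le_real (hu : Up n C μ) (h : Lo n C D μ) {x : X d} (hx : x ∈ μ.support) {r : ℝ}
    (hr : 0 < r) (hD : r ≤ D) {S : Set (X d)} (hS : Bornology.IsBounded S)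
    (hB : ball x r ∩ μ.support ⊆ S) : r ^ n / C ≤ μ.real S := by
  refine (h x hx r hr hD).trans ?_
  rw [measureReal_def, ← Reg0_inter]
  exact measureReal_mono hB (hu.ne_top hS)

theorem real_inter_support (μ : Measure (X d)) (S : Set (X d)) :
    μ.real (S ∩ μ.support) = μ.real S := by
  rw [measureReal_def, Reg0_inter, measureReal_def]

theorem Up.integrable (h : Up n C μ) {ψ : X d → ℝ} (hc : Continuous ψ)
    (hs : HasCompactSupport ψ) : Integrable ψ μ := by
  have := h.locFin
  exact hc.integrable_of_hasCompactSupport hs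

theorem Up.integral_abs_le (h : Up n C μ) (hC : 0 ≤ C) {ψ : X d → ℝ} {x : X d} {R B : ℝ}
    (hR : 0 < R) (hB0 : 0 ≤ B) (ho : Off ψ x R) (hB : ∀ y ∈ μ.support, |ψ y| ≤ B) :
    ∫ y, |ψ y| ∂μ ≤ B * (C * R ^ n) := by
  have h1 : ∫ y, |ψ y| ∂μ ≤ ∫ y, (ball x R).indicator (fun _ => B) y ∂μ := by
    refine integral_mono_of_nonneg (Eventually.of_forall fun y => abs_nonneg _)
      ((integrable_indicator_iff measurableSet_ball).2
        (integrableOn_const (h.ne_top isBounded_ball))) ?_
    filter_upwards [Measure.support_mem_ae (μ := μ)] with y hy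
    by_cases hb : y ∈ ball x R
    · rw [indicator_of_mem hb]; exact hB y hy
    · rw [indicator_of_notMem hb, ho y (not_lt.1 hb), abs_zero]
  rw [integral_indicator_const _ measurableSet_ball, smul_eq_mul, mul_comm] at h1
  exact h1.trans (mul_le_mul_of_nonneg_left (h.real_le hC hR Subset.rfl) hB0)

theorem bmp_integral (hu : Up n C μ) (h : Lo n C D μ) (hC : 1 ≤ C) {x : X d} (hx : x ∈ μ.support)
    {ρ : ℝ} (hρ : 0 < ρ) (hD : ρ ≤ D) :
    ρ ^ n / (2 ^ (n + 1) * C) ≤ ∫ y, bmp x ρ y ∂μ ∧ ∫ y, bmp x ρ y ∂μ ≤ C * ρ ^ n := by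
  have hC0 : 0 < C := by linarith
  constructor
  · have h1 : ∫ y, (ball x (ρ / 2)).indicator (fun _ => (1 / 2 : ℝ)) y ∂μ ≤ ∫ y, bmp x ρ y ∂μ := by
      refine integral_mono ((integrable_indicator_iff measurableSet_ball).2
        (integrableOn_const (hu.ne_top isBounded_ball)))
        (hu.integrable (bmp_lip x hρ).continuous (bmp_test x hρ).2) fun y => ?_
      by_cases hb : y ∈ ball x (ρ / 2)
      · rw [indicator_of_mem hb]
        exact bmp_ge hρ (by have := mem_ball.1 hb; linarith)
      · rw [indicator_of_notMem hb]; exact bmp_nonneg _ _ _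
    rw [integral_indicator_const _ measurableSet_ball, smul_eq_mul] at h1
    have h2 := h x hx (ρ / 2) (by positivity) (by linarith)
    refine le_trans (le_of_eq ?_) ((mul_le_mul_of_nonneg_right h2 (by norm_num)).trans h1)
    rw [div_pow, pow_succ]
    field_simp
  · have h1 := hu.integral_abs_le hC0.le hρ zero_le_one (bmp_off x hρ) fun y _ => by
      rw [abs_of_nonneg (bmp_nonneg _ _ _)]; exact bmp_le_one _ _ _
    simpa only [abs_of_nonneg (bmp_nonneg _ _ _), one_mul] using h1

/-- A continuous nonnegative function which is positive at a point of the support. -/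
theorem Up.integral_pos (h : Up n C μ) {ψ : X d → ℝ} (hc : Continuous ψ)
    (hs : HasCompactSupport ψ) (h0 : ∀ y, 0 ≤ ψ y) {x : X d} (hx : x ∈ μ.support)
    (hp : 0 < ψ x) : 0 < ∫ y, ψ y ∂μ := by
  rw [integral_pos_iff_support_of_nonneg h0 (h.integrable hc hs)]
  exact (Measure.mem_support_iff_forall x).1 hx _ (hc.isOpen_support.mem_nhds hp.ne')

end Crest.Agent.R085
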