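import Crest.Agent.R085.Reg0

/-! Row 85. Regular measures: elementary bounds, singular integrals, packing and nets. -/

set_option autoImplicit false

open MeasureTheory Set Filter Topology Metric
open scoped ENNReal NNReal

noncomputable section

namespace Crest.Agent.R085

variable {n d : ℕ} {C D : ℝ} {μ : Measure (X d)}

private theorem Reg1_fin {f : X d → ℝ} (hf : Measurable f) (h0 : ∀ y, 0 ≤ f y) {S : Set (X d)} {B : ℝ}
    (hB : 0 ≤ B) (h : ∫⁻ y in S, ENNReal.ofReal (f y) ∂μ ≤ ENNReal.ofReal B) :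
    IntegrableOn f S μ ∧ ∫ y in S, f y ∂μ ≤ B := by
  refine ⟨⟨hf.aestronglyMeasurable, ?_⟩, ?_⟩
  · rw [hasFiniteIntegral_iff_ofReal (Eventually.of_forall h0)]
    exact h.trans_lt ENNReal.ofReal_lt_top
  · rw [integral_eq_lintegral_of_nonneg_ae (Eventually.of_forall h0) hf.aestronglyMeasurable]
    exact ENNReal.toReal_le_of_le_ofReal hB h

private theorem Reg1_geo {g : X d → ℝ≥0∞} {A : ℕ → Set (X d)} {K q : ℝ} (hK : 0 ≤ K) (hq0 : 0 ≤ q)
    (hq : q < 1) (h : ∀ k, ∫⁻ y in A k, g y ∂μ ≤ ENNReal.ofReal (K * q ^ k)) :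
    ∫⁻ y in ⋃ k, A k, g y ∂μ ≤ ENNReal.ofReal (K * (1 - q)⁻¹) := by
  refine (lintegral_iUnion_le _ _).trans ((ENNReal.tsum_le_tsum h).trans ?_)
  have hs := (hasSum_geometric_of_lt_one hq0 hq).mul_left K
  rw [← ENNReal.ofReal_tsum_of_nonneg (fun k => by positivity) hs.summable, hs.tsum_eq]

private theorem Reg1_pc (hμ : Up n C μ) {f : X d → ℝ} {A : Set (X d)} {x : X d} {R M : ℝ}
    (hR : 0 < R) (hM : 0 ≤ M) (hA : A ⊆ ball x R) (h : ∀ y ∈ A, f y ≤ M) :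
    ∫⁻ y in A, ENNReal.ofReal (f y) ∂μ ≤ ENNReal.ofReal (M * (C * R ^ n)) := by
  calc ∫⁻ y in A, ENNReal.ofReal (f y) ∂μ ≤ ∫⁻ _ in A, ENNReal.ofReal M ∂μ :=
        setLIntegral_mono measurable_const (fun y hy => ENNReal.ofReal_le_ofReal (h y hy))
    _ = ENNReal.ofReal M * μ A := setLIntegral_const _ _
    _ ≤ ENNReal.ofReal M * ENNReal.ofReal (C * R ^ n) := by
        gcongr
        exact (measure_mono hA).trans (hμ x R hR)
    _ = _ := (ENNReal.ofReal_mul hM).symm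

private theorem Reg1_q {a : ℝ} (ha : 0 < a) : (0 : ℝ) < 2 ^ (-a) ∧ (2 : ℝ) ^ (-a) < 1 :=
  ⟨by positivity, Real.rpow_lt_one_of_one_lt_of_neg (by norm_num) (by linarith)⟩

/-- Dyadic annuli. -/
theorem tail_int (n : ℕ) {C : ℝ} (hC : 0 ≤ C) {a : ℝ} (ha : 0 < a) : ∃ c : ℝ, 0 < c ∧
    ∀ (d : ℕ) (μ : Measure (X d)) (x : X d) (r : ℝ), Up n C μ → 0 < r →
      IntegrableOn (fun y => ‖y - x‖ ^ (-((n : ℝ) + a))) {y | r ≤ ‖y - x‖} μ ∧
        ∫ y in {y | r ≤ ‖y - x‖}, ‖y - x‖ ^ (-((n : ℝ) + a)) ∂μ ≤ c * r ^ (-a) := by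
  obtain ⟨hq0, hq1⟩ := Reg1_q ha
  have hq2 : 0 < (1 - (2 : ℝ) ^ (-a))⁻¹ := inv_pos.mpr (by linarith)
  refine ⟨(C + 1) * 2 ^ n * (1 - (2 : ℝ) ^ (-a))⁻¹, by positivity, fun d μ x r hμ hr => ?_⟩
  refine Reg1_fin (by fun_prop) (fun y => by positivity) (by positivity) ?_
  have hsub : {y : X d | r ≤ ‖y - x‖} ⊆
      ⋃ k : ℕ, {y : X d | 2 ^ k * r ≤ ‖y - x‖ ∧ ‖y - x‖ < 2 ^ (k + 1) * r} := by
    intro y hy
    obtain ⟨k, h1, h2⟩ := exists_nat_pow_near (x := ‖y - x‖ / r) (y := (2 : ℝ))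
      ((one_le_div hr).mpr hy) (by norm_num)
    exact mem_iUnion.mpr ⟨k, (le_div_iff₀ hr).mp h1, (div_lt_iff₀ hr).mp h2⟩
  refine (lintegral_mono_set hsub).trans ((Reg1_geo (K := C * 2 ^ n * r ^ (-a)) (by positivity)
    hq0.le hq1 (fun k => ?_)).trans (ENNReal.ofReal_le_ofReal ?_))
  · have hp : (0 : ℝ) < 2 ^ k * r := by positivity
    refine (Reg1_pc hμ (x := x) (R := 2 ^ (k + 1) * r) (M := (2 ^ k * r) ^ (-((n : ℝ) + a)))
      (by positivity) (by positivity) (fun y hy => ?_) (fun y hy => ?_)).trans (le_of_eq ?_)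
    · rw [mem_ball, dist_eq_norm]
      exact hy.2
    · exact Real.rpow_le_rpow_of_nonpos hp hy.1 (by have : (0 : ℝ) ≤ n := Nat.cast_nonneg n; linarith)
    · congr 1
      have e1 : ((2 : ℝ) ^ k * r) ^ (-((n : ℝ) + a)) = (((2 : ℝ) ^ k * r) ^ n)⁻¹ * (2 ^ k * r) ^ (-a) := by
        rw [neg_add, Real.rpow_add hp, Real.rpow_neg hp.le (n : ℝ), Real.rpow_natCast]
      have e2 : ((2 : ℝ) ^ k * r) ^ (-a) = ((2 : ℝ) ^ (-a)) ^ k * r ^ (-a) := by
        rw [Real.mul_rpow (by positivity) hr.le, ← Real.rpow_natCast, ← Real.rpow_mul (by norm_num),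
          mul_comm (k : ℝ), Real.rpow_mul (by norm_num), Real.rpow_natCast]
      have e3 : ((2 : ℝ) ^ (k + 1) * r) ^ n = 2 ^ n * (2 ^ k * r) ^ n := by
        rw [← mul_pow]
        congr 1
        ring
      rw [e1, e2, e3]
      field_simp
  · have : 0 < r ^ (-a) := by positivity
    have h2 : (0 : ℝ) < 2 ^ n := by positivity
    nlinarith [mul_pos (mul_pos h2 this) hq2]

/-- Dyadic annuli (at the centre the integrand is `0` if `a ≠ n`; for `n ≤ a` it is at most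
`r ^ (a - n)` on the ball). -/
theorem near_int (n : ℕ) {C : ℝ} (hC : 0 ≤ C) {a : ℝ} (ha : 0 < a) : ∃ c : ℝ, 0 < c ∧
    ∀ (d : ℕ) (μ : Measure (X d)) (x : X d) (r : ℝ), Up n C μ → 0 < r →
      IntegrableOn (fun y => ‖y - x‖ ^ (a - n)) (ball x r) μ ∧
        ∫ y in ball x r, ‖y - x‖ ^ (a - n) ∂μ ≤ c * r ^ a := by
  obtain ⟨hq0, hq1⟩ := Reg1_q ha
  have hq2 : 0 < (1 - (2 : ℝ) ^ (-a))⁻¹ := inv_pos.mpr (by linarith)
  refine ⟨C + 1 + C * 4 ^ n * (1 - (2 : ℝ) ^ (-a))⁻¹, by positivity, fun d μ x r hμ hr => ?_⟩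
  refine Reg1_fin (by fun_prop) (fun y => by positivity) (by positivity) ?_
  have hsub : ball x r ⊆ {x} ∪
      ⋃ k : ℕ, {y : X d | r / 2 ^ (k + 1) < ‖y - x‖ ∧ ‖y - x‖ ≤ r / 2 ^ k} := by
    intro y hy
    by_cases hyx : y = x
    · exact Or.inl hyx
    have hp : 0 < ‖y - x‖ := norm_pos_iff.mpr (sub_ne_zero.mpr hyx)
    rw [mem_ball, dist_eq_norm] at hy
    obtain ⟨k, h1, h2⟩ := exists_nat_pow_near (x := r / ‖y - x‖) (y := (2 : ℝ))
      ((one_le_div hp).mpr hy.le) (by norm_num)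
    refine Or.inr (mem_iUnion.mpr ⟨k, ?_, ?_⟩)
    · rw [div_lt_iff₀ (by positivity), mul_comm]
      exact (div_lt_iff₀ hp).mp h2
    · rw [le_div_iff₀ (by positivity), mul_comm]
      exact (le_div_iff₀ hp).mp h1
  have hc : ∫⁻ y in {x}, ENNReal.ofReal (‖y - x‖ ^ (a - n)) ∂μ ≤ ENNReal.ofReal (C * r ^ a) := by
    by_cases han : a = n
    · refine (Reg1_pc hμ (x := x) (R := r) (M := 1) hr zero_le_one
        (singleton_subset_iff.mpr (mem_ball_self hr)) (fun y _ => ?_)).trans (le_of_eq ?_)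
      · rw [han, sub_self, Real.rpow_zero]
      · rw [han, one_mul, Real.rpow_natCast]
    · refine (Reg1_pc hμ (x := x) (R := r) (M := 0) hr le_rfl
        (singleton_subset_iff.mpr (mem_ball_self hr)) (fun y hy => ?_)).trans ?_
      · rw [mem_singleton_iff.mp hy, sub_self, norm_zero, Real.zero_rpow (sub_ne_zero.mpr han)]
      · simp
  have hg := Reg1_geo (μ := μ) (g := fun y => ENNReal.ofReal (‖y - x‖ ^ (a - n)))
    (A := fun k : ℕ => {y : X d | r / 2 ^ (k + 1) < ‖y - x‖ ∧ ‖y - x‖ ≤ r / 2 ^ k})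
    (K := C * 4 ^ n * r ^ a) (by positivity) hq0.le hq1 (fun k => by
      have hp : (0 : ℝ) < r / 2 ^ (k + 1) := by positivity
      have hp' : (0 : ℝ) < r / 2 ^ k := by positivity
      refine (Reg1_pc hμ (x := x) (R := 4 * (r / 2 ^ (k + 1)))
        (M := (r / 2 ^ k) ^ a * ((r / 2 ^ (k + 1)) ^ n)⁻¹)
        (by positivity) (by positivity) (fun y hy => ?_) (fun y hy => ?_)).trans (le_of_eq ?_)
      · rw [mem_ball, dist_eq_norm]
        have : 4 * (r / 2 ^ (k + 1)) = 2 * (r / 2 ^ k) := by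
          field_simp
          ring
        rw [this]
        linarith [hy.2]
      · have h0 : 0 < ‖y - x‖ := hp.trans hy.1
        rw [Real.rpow_sub h0, Real.rpow_natCast, div_eq_mul_inv]
        gcongr
        · exact hy.2
        · exact hy.1.le
      · congr 1
        have e2 : (r / (2 : ℝ) ^ k) ^ a = ((2 : ℝ) ^ (-a)) ^ k * r ^ a := by
          rw [Real.div_rpow hr.le (by positivity), ← Real.rpow_natCast, ← Real.rpow_natCast,
            ← Real.rpow_mul (by norm_num), ← Real.rpow_mul (by norm_num), neg_mul,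
            Real.rpow_neg (by norm_num), mul_comm (k : ℝ), div_eq_mul_inv, mul_comm]
        rw [e2, mul_pow]
        field_simp)
  refine (lintegral_mono_set hsub).trans ((lintegral_union_le _ _ _).trans
    ((add_le_add hc hg).trans ?_))
  rw [← ENNReal.ofReal_add (by positivity) (by positivity)]
  refine ENNReal.ofReal_le_ofReal ?_
  have : 0 < r ^ a := by positivity
  nlinarith

end Crest.Agent.R085
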