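import Crest.Agent.R085.Near
import Crest.Agent.R085.Iso

/-! Row 85. The touching ball; dimension counts. -/

set_option autoImplicit false

open MeasureTheory Set Filter Topology Metric
open scoped ENNReal NNReal

noncomputable section

namespace Crest.Agent.R085

variable {n d : ℕ} {C C₁ : ℝ} {μ : Measure (X d)}

theorem Touch0_low (hC : 1 ≤ C) (hu : Up n C μ) (hl : ∀ D, Lo n C D μ) {g : X d → ℝ}
    (hg : Continuous g) (hg0 : ∀ z ∈ μ.support, 0 ≤ g z) {x y : X d} (hy : y ∈ μ.support)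
    {a b δ : ℝ} (ha : 0 < a) (hab : a ≤ b) (hδ : 0 < δ)
    (h : ∀ z ∈ ball y δ, δ ≤ g z ∧ 2 * a ≤ ‖x - z‖ ∧ ‖x - z‖ ≤ b) :
    (δ / b) ^ (n + 1) / C ≤ ∫ z, g z * kk n a b (x - z) ∂μ := by
  have hb : 0 < b := ha.trans_le hab
  have h1 := hl δ y hy δ hδ le_rfl
  have h2 : ∫ z, (ball y δ).indicator (fun _ => δ / b ^ (n + 1)) z ∂μ ≤
      ∫ z, g z * kk n a b (x - z) ∂μ := by
    refine integral_mono_ae ((integrable_indicator_iff measurableSet_ball).2
      (integrableOn_const (hu.ne_top isBounded_ball))) (integrable_kk_mul hu ha hb hg x) ?_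
    filter_upwards [μ.support_mem_ae] with z hz
    by_cases hz' : z ∈ ball y δ
    · obtain ⟨a1, a2, a3⟩ := h z hz'
      have a4 : 0 < ‖x - z‖ := by linarith
      rw [indicator_of_mem hz', kk_eq ha a2 a3, ← div_eq_mul_inv]
      gcongr
      linarith
    · rw [indicator_of_notMem hz']
      exact mul_nonneg (hg0 z hz) (kk_nonneg ha hab _)
  rw [integral_indicator measurableSet_ball, setIntegral_const, smul_eq_mul] at h2
  refine le_trans (le_of_eq ?_) ((mul_le_mul_of_nonneg_right h1 (by positivity)).trans h2)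
  rw [div_pow]
  ring

theorem Touch0_up (hC : 1 ≤ C) (hu : Up n C μ) (x : X d) {s : ℝ} (hs : 0 < s) :
    ∃ B : ℝ, ∀ t, 0 < t → t ≤ s → ∫ z, ‖z - x‖ ^ 2 * kk n t s (x - z) ∂μ ≤ B := by
  obtain ⟨c, -, H⟩ := near_int n (zero_le_one.trans hC) one_pos
  obtain ⟨h1, h2⟩ := H d μ x (2 * s) hu (by positivity)
  refine ⟨_, fun t ht hts => le_trans ?_ h2⟩
  rw [← integral_indicator measurableSet_ball]
  refine integral_mono (integrable_kk_mul hu ht hs (by fun_prop) x)
    ((integrable_indicator_iff measurableSet_ball).2 h1) fun z => ?_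
  by_cases hz : z ∈ ball x (2 * s)
  · simp only [indicator_of_mem hz]
    rcases (norm_nonneg (z - x)).eq_or_lt with h | h
    · rw [← h, zero_pow two_ne_zero, zero_mul]
      positivity
    · have h3 := (le_abs_self _).trans (abs_kk_le (n := n) t s (x - z))
      rw [norm_sub_rev x z] at h3
      refine (mul_le_mul_of_nonneg_left h3 (sq_nonneg _)).trans (le_of_eq ?_)
      rw [Real.rpow_sub h, Real.rpow_one, Real.rpow_natCast]
      field_simp
      ring
  · simp only [indicator_of_notMem hz]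
    rw [mem_ball, dist_eq_norm, not_lt, norm_sub_rev] at hz
    rw [kk_zero_of_ge ht hts hz, mul_zero]

/-- Let `x` be a point of the support nearest to `ι p`, `ρ = ‖x - ι p‖`, `ι e = (x - ι p) / ρ`.
Then `g y = ⟪ι e, y - x⟫ + ‖y - x‖² / (2 ρ) ≥ 0` on the support and `∫ g * kk t ρ (x - y)` is bounded
independently of `t` (`RB`, `near_int` with `a = 1`).  Let `ι'` be as in `exists_iso_hyper`, `ε ≤ 1`.
If `Fl μ x r ε ι'` fails for a small `r`, there is `y` in the support with `‖y - x‖ < r / ε²`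
(`le_mul_wt`) and `⟪ι e, y - x⟫ > ε r`; the ball `ball y (ε r / 2)` contributes a fixed positive
amount to the integral, and these balls lie in disjoint annuli for `r = r₁ q ^ i`, `i < I`. -/
theorem touch (hC : 1 ≤ C) (hu : Up n C μ) (hl : ∀ D, Lo n C D μ) (hb : RB n C₁ μ) {m : ℕ}
    (ι : X (m + 1) →ₗᵢ[ℝ] X d) (hs : ∀ y ∈ μ.support, ∃ u, ι u = y) {p : X (m + 1)}
    (hp : ι p ∉ μ.support) {y₀ : X d} (hy₀ : y₀ ∈ μ.support) {ε : ℝ} (hε : 0 < ε) :
    ∃ x ∈ μ.support, dist x (ι p) ≤ dist y₀ (ι p) ∧ ∃ r : ℝ, 0 < r ∧ r ≤ 1 ∧ Flat m μ x r ε := by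
  wlog hε1 : ε ≤ 1 generalizing ε
  · obtain ⟨x, hx, h1, r, hr, hr1, ι', h2⟩ := this one_pos le_rfl
    exact ⟨x, hx, h1, r, hr, hr1, ι', h2.mono hr (not_le.1 hε1).le⟩
  obtain ⟨x, hx, hxd⟩ := μ.isClosed_support.exists_infDist_eq_dist ⟨y₀, hy₀⟩ (ι p)
  have hmin : ∀ y ∈ μ.support, ‖x - ι p‖ ≤ ‖y - ι p‖ := fun y hy => by
    rw [← dist_eq_norm, ← dist_eq_norm, dist_comm x, dist_comm y, ← hxd]
    exact infDist_le_dist_of_mem hy
  refine ⟨x, hx, by simpa only [dist_eq_norm] using hmin y₀ hy₀, ?_⟩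
  by_contra hcon
  push Not at hcon
  obtain ⟨u₀, hu₀⟩ := hs x hx
  set ρ := ‖x - ι p‖ with hρdef
  have hρ : 0 < ρ := norm_pos_iff.2 (sub_ne_zero.2 fun h => hp (h ▸ hx))
  let e : X (m + 1) := ρ⁻¹ • (u₀ - p)
  have hxe : x - ι p = ρ • ι e := by
    simp only [e, map_smul, map_sub, hu₀, smul_inv_smul₀ hρ.ne']
  have hv : ‖ι e‖ = 1 := by
    have h1 := congrArg norm hxe
    rw [norm_smul, Real.norm_of_nonneg hρ.le, ← hρdef] at h1
    exact (mul_left_cancel₀ hρ.ne' (h1.symm.trans (mul_one ρ).symm))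
  have he : ‖e‖ = 1 := by rwa [ι.norm_map] at hv
  obtain ⟨ι', hι'⟩ := exists_iso_hyper ι he
  let g : X d → ℝ := fun z => inner ℝ (ι e) (z - x) + (2 * ρ)⁻¹ * ‖z - x‖ ^ 2
  have hg : Continuous g := by fun_prop
  have hg0 : ∀ z ∈ μ.support, 0 ≤ g z := fun z hz => by
    have h1 := pow_le_pow_left₀ hρ.le (hmin z hz) 2
    have h2 : z - ι p = ρ • ι e + (z - x) := by rw [← hxe]; abel
    rw [h2, norm_add_sq_real, norm_smul, hv, Real.norm_of_nonneg hρ.le, inner_smul_left] at h1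
    simp only [conj_trivial] at h1
    have h3 : g z = (2 * ρ)⁻¹ * (2 * (ρ * inner ℝ (ι e) (z - x)) + ‖z - x‖ ^ 2) := by
      simp only [g]
      field_simp
    rw [h3]
    exact mul_nonneg (by positivity) (by linarith)
  set s := min 1 (ρ * ε ^ 3) with hsdef
  have hs0 : 0 < s := lt_min one_pos (by positivity)
  -- the upper bound
  obtain ⟨B, hB⟩ := Touch0_up hC hu x hs0
  have hup : ∀ t, 0 < t → t ≤ s →
      ∫ z, g z * kk n t s (x - z) ∂μ ≤ C₁ * ‖innerSL ℝ (ι e)‖ + (2 * ρ)⁻¹ * B := fun t ht hts => by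
    have h1 := (neg_le_abs _).trans (hb x hx (innerSL ℝ (ι e)) t s ht hts)
    have i1 : Integrable (fun z => inner ℝ (ι e) (z - x) * kk n t s (x - z)) μ :=
      integrable_kk_mul hu ht hs0 (by fun_prop) x
    have i2 : Integrable (fun z => (2 * ρ)⁻¹ * (‖z - x‖ ^ 2 * kk n t s (x - z))) μ :=
      (integrable_kk_mul hu ht hs0 (by fun_prop) x).const_mul _
    simp only [g, add_mul, mul_assoc]
    rw [integral_add i1 i2, integral_const_mul]
    refine add_le_add (le_trans (le_of_eq ?_) h1)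
      (mul_le_mul_of_nonneg_left (hB t ht hts) (by positivity))
    rw [LL, ← integral_neg]
    refine integral_congr_ae (ae_of_all _ fun z => ?_)
    simp only [innerSL_apply_apply, inner_sub_right]
    ring
  -- every scale contributes
  have hq1 : ε ^ 3 / 8 ≤ 1 := by linarith [pow_le_one₀ (n := 3) hε.le hε1]
  have hlow : ∀ b, 0 < b → b ≤ s → (ε ^ 3 / 4) ^ (n + 1) / C ≤
      ∫ z, g z * kk n (b * (ε ^ 3 / 8)) b (x - z) ∂μ := fun b hb0 hbs => by
    have hb1 : b ≤ 1 := hbs.trans (min_le_left _ _)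
    have hb2 : b ≤ ρ * ε ^ 3 := hbs.trans (min_le_right _ _)
    have hε2 : ε ^ 2 ≤ 1 := pow_le_one₀ hε.le hε1
    have hε3 : ε ^ 3 ≤ 1 := pow_le_one₀ hε.le hε1
    have hr : 0 < b * ε ^ 2 / 2 := by positivity
    have h1 : ¬ Fl μ x (b * ε ^ 2 / 2) ε ι' := fun h =>
      hcon _ hr (by nlinarith) ⟨ι', h⟩
    simp only [Fl, not_forall, not_exists, not_le] at h1
    obtain ⟨y, hy, h1⟩ := h1
    have h2 : ‖y - x‖ < b / 2 := by
      by_contra h3
      have h4 := le_mul_wt (u := ‖y - x‖ / (b * ε ^ 2 / 2)) hε (by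
        rw [div_le_div_iff₀ (by positivity) hr]
        nlinarith [mul_le_mul_of_nonneg_right (not_lt.1 h3) (sq_nonneg ε)])
      have h5 := h1 0
      rw [map_zero, sub_zero] at h5
      rw [div_le_iff₀ hr] at h4
      linarith
    obtain ⟨u₁, hu₁⟩ := hs y hy
    obtain ⟨u', hu'⟩ := hι' (u₁ - u₀)
    have h3 : b * ε ^ 3 / 2 < |inner ℝ (ι e) (y - x)| := by
      have h4 := h1 u'
      have h5 : y - x = ι (u₁ - u₀) := by rw [map_sub, hu₀, hu₁]
      have h6 : y - x - ι' u' = inner ℝ (ι e) (y - x) • ι e := by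
        rw [h5, ι.inner_map_map, hu', add_sub_cancel_right]
      rw [h6, norm_smul, hv, mul_one, Real.norm_eq_abs] at h4
      refine lt_of_le_of_lt ?_ h4
      refine le_trans (le_of_eq (by ring)) (le_mul_of_one_le_right (by positivity) (one_le_wt _))
    have h4 : b * ε ^ 3 / 2 < inner ℝ (ι e) (y - x) := by
      rcases lt_abs.1 h3 with h | h
      · exact h
      · exfalso
        have h5 := hg0 y hy
        have h6 : (2 * ρ)⁻¹ * ‖y - x‖ ^ 2 ≤ b * ε ^ 3 / 2 := by
          rw [inv_mul_le_iff₀ (by positivity)]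
          have h7 := pow_le_pow_left₀ (norm_nonneg _) h2.le 2
          nlinarith [mul_le_mul_of_nonneg_left hb2 hb0.le]
        simp only [g] at h5
        linarith
    refine le_trans (le_of_eq ?_) (Touch0_low hC hu hl hg hg0 hy (δ := b * ε ^ 3 / 4)
      (by positivity) (mul_le_of_le_one_right hb0.le hq1) (by positivity) fun z hz => ?_)
    · congr 2
      field_simp
    · rw [mem_ball, dist_eq_norm] at hz
      have a1 : |inner ℝ (ι e) (z - y)| ≤ ‖z - y‖ := by
        simpa [hv] using abs_real_inner_le_norm (ι e) (z - y)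
      have a2 : inner ℝ (ι e) (z - x) = inner ℝ (ι e) (z - y) + inner ℝ (ι e) (y - x) := by
        rw [← inner_add_right, sub_add_sub_cancel]
      have a3 : b * ε ^ 3 / 4 ≤ inner ℝ (ι e) (z - x) := by linarith [(abs_le.1 a1).1]
      have a4 : inner ℝ (ι e) (z - x) ≤ ‖z - x‖ := by
        simpa [hv] using real_inner_le_norm (ι e) (z - x)
      have a5 : ‖z - x‖ ≤ ‖z - y‖ + ‖y - x‖ := norm_sub_le_norm_sub_add_norm_sub _ _ _
      rw [norm_sub_rev x z]
      refine ⟨le_add_of_le_of_nonneg a3 (by positivity), by linarith, ?_⟩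
      nlinarith [mul_le_mul_of_nonneg_left hε3 hb0.le]
  have hsum : ∀ I : ℕ, I * ((ε ^ 3 / 4) ^ (n + 1) / C) ≤
      ∫ z, g z * kk n (s * (ε ^ 3 / 8) ^ I) s (x - z) ∂μ := fun I => by
    induction I with
    | zero => simp [kk]
    | succ I ih =>
      have b0 : 0 < s * (ε ^ 3 / 8) ^ I := by positivity
      have b1 := hlow _ b0 (mul_le_of_le_one_right hs0.le (pow_le_one₀ (by positivity) hq1))
      have b2 := integral_add (integrable_kk_mul (n := n) hu
        (show 0 < s * (ε ^ 3 / 8) ^ I * (ε ^ 3 / 8) by positivity) b0 hg x)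
        (integrable_kk_mul hu b0 hs0 hg x)
      simp only [← mul_add, kk_add] at b2
      rw [pow_succ (ε ^ 3 / 8) I, ← mul_assoc, b2]
      push_cast
      linarith
  have hκ : 0 < (ε ^ 3 / 4) ^ (n + 1) / C := by positivity
  obtain ⟨I, hI⟩ := exists_nat_gt
    ((C₁ * ‖innerSL ℝ (ι e)‖ + (2 * ρ)⁻¹ * B) / ((ε ^ 3 / 4) ^ (n + 1) / C))
  rw [div_lt_iff₀ hκ] at hI
  exact absurd ((hsum I).trans (hup _ (by positivity)
    (mul_le_of_le_one_right hs0.le (pow_le_one₀ (by positivity) hq1)))) (not_le.2 hI)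

end Crest.Agent.R085
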