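import Crest.Agent.R085.VagA0

/-! Row 85. Vague limits along the ultrafilter. -/

set_option autoImplicit false

open MeasureTheory Set Filter Topology Metric
open scoped ENNReal NNReal

noncomputable section

namespace Crest.Agent.R085

variable {n d m : ℕ} {C : ℝ} {μs : ℕ → Measure (X d)} {μ : Measure (X d)}

/-- Upper semicontinuity of flatness (far points are handled by `le_mul_wt`). -/
theorem VL.fl_ev (h : VL μs μ) (hC : 1 ≤ C) (hus : ∀ j, Up n C (μs j))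
    (hl : ∀ᶠ j in (UU : Filter ℕ), Lo n C 1 (μs j)) {x : X d} {r ε ε' : ℝ} {ι : X m →ₗᵢ[ℝ] X d}
    (hr : 0 < r) (hε : 0 ≤ ε) (hε' : ε < ε') (hf : Fl μ x r ε ι) {xs : ℕ → X d}
    (hx : Tendsto xs UU (𝓝 x)) : ∀ᶠ j in (UU : Filter ℕ), Fl (μs j) (xs j) r ε' ι := by
  by_contra hne
  have hε0 : 0 < ε' := hε.trans_lt hε'
  have h1 : ∀ᶠ j in (UU : Filter ℕ), ∃ z : X d, z + xs j ∈ (μs j).support ∧
      ∀ u, ε' * r * wt (‖z‖ / r) < ‖z - ι u‖ := by
    filter_upwards [Ultrafilter.eventually_not.2 hne] with j hj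
    unfold Fl at hj
    push Not at hj
    obtain ⟨y, hy, hu⟩ := hj
    exact ⟨y - xs j, by rwa [sub_add_cancel], hu⟩
  obtain ⟨zs, hz⟩ := h1.choice
  have h2 : ∀ᶠ j in (UU : Filter ℕ), ‖zs j‖ ≤ r * (1 / ε' ^ 2) := by
    filter_upwards [hz] with j hj
    by_contra hlt
    have h3 : 1 / ε' ^ 2 ≤ ‖zs j‖ / r := by
      rw [le_div_iff₀' hr]
      exact (not_le.1 hlt).le
    have h4 := le_mul_wt hε0 h3
    have h5 := hj.2 0
    rw [map_zero, sub_zero] at h5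
    rw [div_le_iff₀' hr] at h4
    linarith
  obtain ⟨z, -, hzl⟩ := exists_lim h2
  have h3 : z + x ∈ μ.support := h.mem hC hus hl (hz.mono fun j hj => hj.1) (hzl.add hx)
  obtain ⟨u, hu⟩ := hf _ h3
  rw [add_sub_cancel_right] at hu
  have h4 : ε' * r * wt (‖z‖ / r) ≤ ‖z - ι u‖ :=
    le_of_tendsto_of_tendsto
      (((continuous_wt.tendsto _).comp (hzl.norm.div_const r)).const_mul (ε' * r))
      (hzl.sub_const (ι u)).norm (hz.mono fun j hj => (hj.2 u).le)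
  have h5 : ε * r * wt (‖z‖ / r) < ε' * r * wt (‖z‖ / r) :=
    mul_lt_mul_of_pos_right (mul_lt_mul_of_pos_right hε' hr) (wt_pos _)
  linarith

/-- Lower semicontinuity of flatness. -/
theorem VL.fl_lim (h : VL μs μ) (hu : Up n C μ) {x : X d} {r ε : ℝ} (hr : 0 < r)
    {ιs : ℕ → X m →ₗᵢ[ℝ] X d} {ι : X m →ₗᵢ[ℝ] X d}
    (hι : ∀ ζ : ℝ, 0 < ζ → ∀ᶠ j in (UU : Filter ℕ), ∀ u, ‖ιs j u - ι u‖ ≤ ζ * ‖u‖)
    (hf : ∀ᶠ j in (UU : Filter ℕ), Fl (μs j) x r ε (ιs j)) : Fl μ x r ε ι := by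
  intro y hy
  obtain ⟨ys, h1, h2⟩ := h.seq hu hy
  have h3 : Tendsto (fun j => ys j - x) UU (𝓝 (y - x)) := h2.sub_const x
  have h4 : ∀ᶠ j in (UU : Filter ℕ), ‖pr (ιs j) (ys j - x)‖ ≤ ‖y - x‖ + 1 := by
    filter_upwards [h3.norm.eventually (gt_mem_nhds (lt_add_one _))] with j hj
    exact (norm_pr_le _ _).trans hj.le
  obtain ⟨u, -, hul⟩ := exists_lim h4
  have h5 : Tendsto (fun j => ιs j (pr (ιs j) (ys j - x)) - ι (pr (ιs j) (ys j - x))) UU (𝓝 0) := by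
    rw [NormedAddGroup.tendsto_nhds_zero]
    intro e he
    have hR : 0 < ‖y - x‖ + 1 := by positivity
    filter_upwards [hι (e / 2 / (‖y - x‖ + 1)) (by positivity), h4] with j a1 a2
    calc _ ≤ _ := a1 _
      _ ≤ e / 2 / (‖y - x‖ + 1) * (‖y - x‖ + 1) := by gcongr
      _ = e / 2 := div_mul_cancel₀ _ hR.ne'
      _ < e := half_lt_self he
  have h6 : Tendsto (fun j => ιs j (pr (ιs j) (ys j - x))) UU (𝓝 (ι u)) := by
    have := h5.add ((ι.continuous.tendsto u).comp hul)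
    simpa using this
  refine ⟨u, le_of_tendsto_of_tendsto (h3.sub h6).norm
    (((continuous_wt.tendsto _).comp (h3.norm.div_const r)).const_mul (ε * r)) ?_⟩
  filter_upwards [hf, h1] with j a1 a2 using a1.pr a2

end Crest.Agent.R085
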