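import Crest.Agent.R085.Form
import Crest.Agent.R085.Iso

/-! Row 85. Vague limits along the ultrafilter. -/

set_option autoImplicit false

open MeasureTheory Set Filter Topology Metric
open scoped ENNReal NNReal

noncomputable section

namespace Crest.Agent.R085

variable {n d m : ℕ} {C : ℝ} {μs : ℕ → Measure (X d)} {μ : Measure (X d)}

theorem VagA0_bump (x : X d) {r' r : ℝ} (h : r' < r) : ∃ φ : X d → ℝ, Continuous φ ∧
    (∀ y, 0 ≤ φ y) ∧ (∀ y, φ y ≤ 1) ∧ (∀ y, dist y x ≤ r' → φ y = 1) ∧ Off φ x r := by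
  have h0 : 0 < r - r' := sub_pos.2 h
  refine ⟨fun y => max 0 (min 1 ((r - dist y x) / (r - r'))), by fun_prop, fun y => le_max_left _ _,
    fun y => max_le zero_le_one (min_le_left _ _), fun y hy => ?_, fun y hy => ?_⟩
  · have : 1 ≤ (r - dist y x) / (r - r') := by rw [le_div_iff₀ h0]; linarith
    simp only [min_eq_left this, max_eq_right zero_le_one]
  · exact max_eq_left ((min_le_right _ _).trans
      (div_nonpos_of_nonpos_of_nonneg (by linarith) h0.le))

theorem VagA0_lower (ν : Measure (X d)) [IsFiniteMeasureOnCompacts ν] {φ : X d → ℝ}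
    (hc : Continuous φ) (hs : HasCompactSupport φ) (h0 : ∀ y, 0 ≤ φ y) {z : X d} {ρ : ℝ}
    (h1 : ∀ y ∈ ball z ρ, φ y = 1) : ν.real (ball z ρ) ≤ ∫ y, φ y ∂ν := by
  rw [← integral_indicator_one measurableSet_ball]
  refine integral_mono ((integrable_indicator_iff measurableSet_ball).2
    (integrableOn_const measure_ball_lt_top.ne)) (hc.integrable_of_hasCompactSupport hs) fun y => ?_
  by_cases hy : y ∈ ball z ρ
  · simp [indicator_of_mem hy, h1 y hy]
  · simp [indicator_of_notMem hy, h0 y]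

theorem VagA0_upper (ν : Measure (X d)) [IsFiniteMeasureOnCompacts ν] {φ : X d → ℝ}
    (hc : Continuous φ) (h1 : ∀ y, φ y ≤ 1) {z : X d} {ρ : ℝ} (ho : Off φ z ρ) :
    ∫ y, φ y ∂ν ≤ ν.real (ball z ρ) := by
  rw [← integral_indicator_one measurableSet_ball]
  refine integral_mono (hc.integrable_of_hasCompactSupport ho.hasCompactSupport)
    ((integrable_indicator_iff measurableSet_ball).2
    (integrableOn_const measure_ball_lt_top.ne)) fun y => ?_
  by_cases hy : y ∈ ball z ρ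
  · simp [indicator_of_mem hy, h1 y]
  · simp [indicator_of_notMem hy, ho y (not_lt.1 hy)]

theorem VagA0_lim (hC : 0 ≤ C) (h : ∀ j, Up n C (μs j)) {φ : X d → ℝ} (hc : Continuous φ)
    (hs : HasCompactSupport φ) : ∃ a : ℝ, Tendsto (fun j => ∫ x, φ x ∂μs j) UU (𝓝 a) := by
  obtain ⟨R, hR, ho⟩ := exists_off hs 0
  obtain ⟨B, hB⟩ := hc.bounded_above_of_compact_support hs
  have hB0 : 0 ≤ B := (norm_nonneg _).trans (hB 0)
  have hb : ∀ j, ∫ x, φ x ∂μs j ∈ Icc (-(B * (C * R ^ n))) (B * (C * R ^ n)) := fun j =>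
    abs_le.1 (abs_integral_le_integral_abs.trans
      ((h j).integral_abs_le hC (by linarith) hB0 ho fun y _ => hB y))
  obtain ⟨a, -, ha⟩ := isCompact_Icc.ultrafilter_le_nhds (UU.map fun j => ∫ x, φ x ∂μs j)
    (le_principal_iff.2 (mem_map.2 (Eventually.of_forall hb)))
  exact ⟨a, ha⟩

/-- Riesz-Markov-Kakutani (`RealRMK.rieszMeasure`) for `φ ↦ lim ∫ φ dμs j`. -/
theorem exists_VL (hC : 0 ≤ C) (h : ∀ j, Up n C (μs j)) : ∃ μ, Up n C μ ∧ VL μs μ := by
  have hl : ∀ f : CompactlySupportedContinuousMap (X d) ℝ,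
      ∃ a : ℝ, Tendsto (fun j => ∫ x, f x ∂μs j) UU (𝓝 a) := fun f =>
    VagA0_lim hC h f.continuous f.hasCompactSupport
  choose L hL using hl
  have hi : ∀ (f : CompactlySupportedContinuousMap (X d) ℝ) j, Integrable f (μs j) := fun f j =>
    (h j).integrable f.continuous f.hasCompactSupport
  let Λ : CompactlySupportedContinuousMap (X d) ℝ →ₚ[ℝ] ℝ := PositiveLinearMap.mk₀
    { toFun := L
      map_add' := fun f g => tendsto_nhds_unique (hL (f + g))
        (((hL f).add (hL g)).congr fun j => (integral_add (hi f j) (hi g j)).symm)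
      map_smul' := fun r f => tendsto_nhds_unique (hL (r • f))
        (((hL f).const_mul r).congr fun j => (integral_const_mul r _).symm) }
    (fun f hf => ge_of_tendsto' (hL f) fun j => integral_nonneg fun x => hf x)
  have hV : VL μs (RealRMK.rieszMeasure Λ) := fun φ hc hs => by
    have := RealRMK.integral_rieszMeasure Λ ⟨⟨φ, hc⟩, hs⟩
    exact this ▸ hL ⟨⟨φ, hc⟩, hs⟩
  refine ⟨RealRMK.rieszMeasure Λ, fun x r hr => ?_, hV⟩
  rw [isOpen_ball.measure_eq_iSup_isCompact]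
  refine iSup_le fun K => iSup_le fun hK => iSup_le fun hKc => ?_
  obtain ⟨r', hr', hK'⟩ := exists_lt_subset_ball hKc.isClosed hK
  obtain ⟨φ, hc, h0, h1, h2, ho⟩ := VagA0_bump x hr'
  refine (measure_mono hK').trans ?_
  rw [← ofReal_measureReal measure_ball_lt_top.ne]
  refine ENNReal.ofReal_le_ofReal ((VagA0_lower _ hc ho.hasCompactSupport h0
    fun y hy => h2 y (le_of_lt hy)).trans ?_)
  refine le_of_tendsto' (hV φ hc ho.hasCompactSupport) fun j => ?_
  have := (h j).locFin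
  exact (VagA0_upper _ hc h1 ho).trans ((h j).real_le hC hr Subset.rfl)

theorem VL.near (h : VL μs μ) (hu : Up n C μ) {y : X d} (hy : y ∈ μ.support) {ζ : ℝ}
    (hζ : 0 < ζ) : ∀ᶠ j in (UU : Filter ℕ), ∃ y' ∈ (μs j).support, dist y' y < ζ := by
  have ht := bmp_test y hζ
  have hp := hu.integral_pos ht.continuous ht.2 (bmp_nonneg y ζ) hy
    (lt_of_lt_of_le (by norm_num) (bmp_ge hζ (by rw [dist_self]; positivity)))
  filter_upwards [(h _ ht.continuous ht.2).eventually (lt_mem_nhds hp)] with j hj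
  by_contra hn
  push Not at hn
  refine hj.ne' (integral_eq_zero_of_ae ?_)
  filter_upwards [Measure.support_mem_ae (μ := μs j)] with z hz
  exact bmp_off y hζ z (hn z hz)

/-- Take a nearest point of the (closed) support. -/
theorem VL.seq (h : VL μs μ) (hu : Up n C μ) {y : X d} (hy : y ∈ μ.support) :
    ∃ ys : ℕ → X d, (∀ᶠ j in (UU : Filter ℕ), ys j ∈ (μs j).support) ∧ Tendsto ys UU (𝓝 y) := by
  have key : ∀ j, ∃ z : X d, ∀ y' ∈ (μs j).support, z ∈ (μs j).support ∧ dist z y ≤ dist y' y := by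
    intro j
    rcases (μs j).support.eq_empty_or_nonempty with he | hne
    · exact ⟨y, fun y' hy' => by simp [he] at hy'⟩
    · obtain ⟨z, hz, hz'⟩ := Measure.isClosed_support.exists_infDist_eq_dist hne y
      refine ⟨z, fun y' hy' => ⟨hz, ?_⟩⟩
      rw [dist_comm z, dist_comm y', ← hz']
      exact infDist_le_dist_of_mem hy'
  choose ys hys using key
  refine ⟨ys, ?_, Metric.tendsto_nhds.2 fun ζ hζ => ?_⟩
  · filter_upwards [h.near hu hy one_pos] with j ⟨y', hy', _⟩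
    exact (hys j y' hy').1
  · filter_upwards [h.near hu hy hζ] with j ⟨y', hy', hd⟩
    exact (hys j y' hy').2.trans_lt hd

theorem VagA0_low (h : VL μs μ) (hus : ∀ j, Up n C (μs j)) {D : ℝ}
    (hl : ∀ᶠ j in (UU : Filter ℕ), Lo n C D (μs j)) {ys : ℕ → X d}
    (hys : ∀ᶠ j in (UU : Filter ℕ), ys j ∈ (μs j).support) {y : X d} (hy : Tendsto ys UU (𝓝 y))
    {ρ r : ℝ} (hρ : 0 < ρ) (hD : ρ ≤ D) (hr : ρ < r) : ∃ φ : X d → ℝ, Continuous φ ∧
      (∀ y, φ y ≤ 1) ∧ Off φ y r ∧ ρ ^ n / C ≤ ∫ z, φ z ∂μ := by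
  obtain ⟨φ, hc, h0, h1, h2, ho⟩ := VagA0_bump y (r' := (ρ + r) / 2) (r := r) (by linarith)
  refine ⟨φ, hc, h1, ho, ge_of_tendsto (h φ hc ho.hasCompactSupport) ?_⟩
  filter_upwards [hl, hys, Metric.tendsto_nhds.1 hy ((r - ρ) / 2) (by linarith)] with j l1 l2 l3
  have := (hus j).locFin
  refine (l1 _ l2 ρ hρ hD).trans (VagA0_lower _ hc ho.hasCompactSupport h0 fun z hz => h2 z ?_)
  have := dist_triangle z (ys j) y
  have := mem_ball.1 hz
  linarith

theorem VL.mem (h : VL μs μ) (hC : 1 ≤ C) (hus : ∀ j, Up n C (μs j))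
    (hl : ∀ᶠ j in (UU : Filter ℕ), Lo n C 1 (μs j)) {ys : ℕ → X d}
    (hys : ∀ᶠ j in (UU : Filter ℕ), ys j ∈ (μs j).support) {y : X d} (hy : Tendsto ys UU (𝓝 y)) :
    y ∈ μ.support := by
  refine (Measure.mem_support_iff_forall y).2 fun U hU => ?_
  obtain ⟨ε, hε, hεU⟩ := Metric.mem_nhds_iff.1 hU
  obtain ⟨φ, -, -, ho, hφ⟩ := VagA0_low h hus hl hys hy (ρ := min (ε / 2) 1) (r := ε)
    (by positivity) (min_le_right _ _) ((min_le_left _ _).trans_lt (by linarith))
  refine pos_iff_ne_zero.2 fun h0 => ?_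
  have h1 : ∫ z, φ z ∂μ = 0 := by
    refine integral_eq_zero_of_ae ?_
    filter_upwards [measure_eq_zero_iff_ae_notMem.1 h0] with z hz
    exact ho z (not_lt.1 fun hlt => hz (hεU hlt))
  have h2 : 0 < min (ε / 2) 1 ^ n / C := by positivity
  linarith

theorem VL.lo (h : VL μs μ) (hC : 1 ≤ C) (hu : Up n C μ) (hus : ∀ j, Up n C (μs j))
    (hl : ∀ D, ∀ᶠ j in (UU : Filter ℕ), Lo n C D (μs j)) (D : ℝ) : Lo n C D μ := by
  intro x hx r hr hD
  obtain ⟨ys, hys, hy⟩ := h.seq hu hx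
  have := hu.locFin
  have ht : Tendsto (fun ρ : ℝ => ρ ^ n / C) (𝓝[<] r) (𝓝 (r ^ n / C)) :=
    (((continuous_pow n).div_const C).tendsto r).mono_left nhdsWithin_le_nhds
  refine le_of_tendsto ht ?_
  filter_upwards [Ioo_mem_nhdsLT hr] with ρ hρ
  obtain ⟨φ, hc, h1, ho, hφ⟩ := VagA0_low h hus (hl D) hys hy hρ.1 (hρ.2.le.trans hD) hρ.2
  exact hφ.trans (VagA0_upper _ hc h1 ho)

end Crest.Agent.R085
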