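import Crest.Agent.R085.VagA
import Crest.Agent.R085.Near

/-! Row 85. Vague limits: products, equicontinuous families, reflectionless limits. -/

set_option autoImplicit false

open MeasureTheory Set Filter Topology Metric
open scoped ENNReal NNReal

noncomputable section

namespace Crest.Agent.R085

variable {n d : ℕ} {C : ℝ} {μs : ℕ → Measure (X d)} {μ : Measure (X d)}

theorem VagB0_diff (hC : 0 ≤ C) (hu : Up n C μ) {φ ψ : X d → ℝ} (hφ : Continuous φ)
    (hψ : Continuous ψ) {R ε : ℝ} (hR : 0 < R) (hε : 0 ≤ ε) (h1 : Off φ 0 R) (h2 : Off ψ 0 R)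
    (h : ∀ y, |φ y - ψ y| ≤ ε) : |∫ y, φ y ∂μ - ∫ y, ψ y ∂μ| ≤ ε * (C * R ^ n) := by
  rw [← integral_sub (hu.integrable hφ h1.hasCompactSupport)
    (hu.integrable hψ h2.hasCompactSupport)]
  refine abs_integral_le_integral_abs.trans (hu.integral_abs_le hC (x := 0) hR hε
    (fun y hy => ?_) fun y _ => h y)
  rw [h1 y hy, h2 y hy, sub_zero]

theorem VagB0_small {K ε : ℝ} (hK : 0 ≤ K) (hε : 0 < ε) : ∃ η : ℝ, 0 < η ∧ η * K < ε :=
  ⟨ε / (K + 1), by positivity, by
    rw [div_mul_eq_mul_div, div_lt_iff₀ (by positivity)]; nlinarith⟩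

theorem VagB0_gen (h : VL μs μ) (hC : 0 ≤ C) (hus : ∀ j, Up n C (μs j)) {ψs : ℕ → X d → ℝ}
    {ψ : X d → ℝ} {R : ℝ} (hR : 0 < R) (he : Equicontinuous ψs) (ho : ∀ j, Off (ψs j) 0 R)
    (hl : ∀ y, Tendsto (fun j => ψs j y) UU (𝓝 (ψ y))) :
    Tendsto (fun j => ∫ y, ψs j y ∂μs j) UU (𝓝 (∫ y, ψ y ∂μ)) := by
  have hψ : Continuous ψ := (tendsto_pi_nhds.2 hl).continuous_of_equicontinuous he
  have hψo : Off ψ 0 R := fun y hy =>
    tendsto_nhds_unique (hl y) (tendsto_const_nhds.congr fun j => (ho j y hy).symm)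
  have hunif : ∀ ε : ℝ, 0 < ε → ∀ᶠ j in (UU : Filter ℕ), ∀ y, |ψs j y - ψ y| ≤ ε := by
    intro ε hε
    have key : ∀ᶠ j in (UU : Filter ℕ), ∀ y ∈ closedBall (0 : X d) R, |ψs j y - ψ y| ≤ ε := by
      refine (isCompact_closedBall (0 : X d) R).induction_on
        (p := fun S => ∀ᶠ j in (UU : Filter ℕ), ∀ y ∈ S, |ψs j y - ψ y| ≤ ε)
        (Eventually.of_forall fun j y hy => hy.elim)
        (fun S T hST hT => hT.mono fun j hj y hy => hj y (hST hy))
        (fun S T hS hT => (hS.and hT).mono fun j hj y hy => hy.elim (hj.1 y) (hj.2 y))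
        fun x _ => ?_
      have h3 : 0 < ε / 3 := by positivity
      have a1 := Metric.equicontinuousAt_iff_right.1 (he x) _ h3
      have a2 := Metric.tendsto_nhds.1 (hψ.tendsto x) _ h3
      refine ⟨_, mem_nhdsWithin_of_mem_nhds (a1.and a2), ?_⟩
      filter_upwards [Metric.tendsto_nhds.1 (hl x) _ h3] with j hj y hy
      have b1 := hy.1 j
      have b2 := hy.2
      rw [Real.dist_eq, abs_lt] at b1 b2 hj
      exact abs_le.2 ⟨by linarith [b1.2, b2.2, hj.1], by linarith [b1.1, b2.1, hj.2]⟩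
    filter_upwards [key] with j hj y
    by_cases hy : y ∈ closedBall (0 : X d) R
    · exact hj y hy
    · have hy' : R ≤ dist y 0 := (not_le.1 hy).le
      rw [ho j y hy', hψo y hy', sub_zero, abs_zero]
      exact hε.le
  have h1 : Tendsto (fun j => ∫ y, ψs j y ∂μs j - ∫ y, ψ y ∂μs j) UU (𝓝 0) := by
    refine Metric.tendsto_nhds.2 fun ε hε => ?_
    obtain ⟨η, hη, hη'⟩ := VagB0_small (K := C * R ^ n) (by positivity) hε
    filter_upwards [hunif η hη] with j hj
    rw [Real.dist_eq, sub_zero]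
    exact (VagB0_diff hC (hus j) (he.continuous j) hψ hR hη.le (ho j) hψo hj).trans_lt hη'
  simpa using h1.add (h ψ hψ hψo.hasCompactSupport)

/-- An equi-Lipschitz bounded family converges pointwise, hence uniformly on the ball, along the
ultrafilter. -/
theorem VL.equi (h : VL μs μ) (hC : 0 ≤ C) (hu : Up n C μ) (hus : ∀ j, Up n C (μs j))
    {ψs : ℕ → X d → ℝ} {Λ : ℝ≥0} {R B : ℝ} (hL : ∀ j, LipschitzWith Λ (ψs j))
    (ho : ∀ j, Off (ψs j) 0 R) (hB : ∀ j y, |ψs j y| ≤ B) :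
    Tendsto (fun j => ∫ y, ψs j y ∂μs j - ∫ y, ψs j y ∂μ) UU (𝓝 0) := by
  have hl : ∀ y, ∃ a, Tendsto (fun j => ψs j y) UU (𝓝 a) := fun y => by
    obtain ⟨a, -, ha⟩ := (isCompact_Icc (a := -B) (b := B)).ultrafilter_le_nhds
      (UU.map fun j => ψs j y) (by
        rw [Ultrafilter.coe_map, le_principal_iff, mem_map]
        exact univ_mem' fun j => abs_le.1 (hB j y))
    exact ⟨a, ha⟩
  choose ψ hψ using hl
  have hR : 0 < max R 1 := lt_max_of_lt_right one_pos
  have ho' : ∀ j, Off (ψs j) 0 (max R 1) := fun j => (ho j).mono (by simp)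
  have he : Equicontinuous ψs := (LipschitzWith.uniformEquicontinuous ψs Λ hL).equicontinuous
  simpa using (VagB0_gen h hC hus hR he ho' hψ).sub
    (VagB0_gen (μs := fun _ => μ) (fun _ _ _ => tendsto_const_nhds) hC (fun _ => hu) hR he ho' hψ)

/-- `x ↦ ∫ F (x, y) dμs j` converges pointwise and is equicontinuous. -/
theorem VL.prod (h : VL μs μ) (hC : 0 ≤ C) (hu : Up n C μ) (hus : ∀ j, Up n C (μs j))
    {F : X d × X d → ℝ} (hF : Continuous F) (hc : HasCompactSupport F) :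
    Tendsto (fun j => ∫ p, F p ∂(μs j).prod (μs j)) UU (𝓝 (∫ p, F p ∂μ.prod μ)) := by
  obtain ⟨R, hR, hKR⟩ := hc.isCompact.isBounded.subset_ball_lt 0 (0 : X d × X d)
  have h0 : ∀ x y, R ≤ dist x 0 ∨ R ≤ dist y 0 → F (x, y) = 0 := by
    intro x y hxy
    refine image_eq_zero_of_notMem_tsupport fun hm => ?_
    have := hKR hm
    rw [mem_ball, Prod.dist_eq, max_lt_iff] at this
    exact hxy.elim (not_le.2 this.1) (not_le.2 this.2)
  have hcx : ∀ x, Continuous fun y => F (x, y) := fun x => hF.comp (Continuous.prodMk_right x)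
  have hox : ∀ x, Off (fun y => F (x, y)) 0 R := fun x y hy => h0 x y (Or.inr hy)
  have hp : ∀ ν : Measure (X d), Up n C ν → ∫ p, F p ∂ν.prod ν = ∫ x, ∫ y, F (x, y) ∂ν ∂ν := by
    intro ν hν
    have := hν.locFin
    exact integral_prod F (hF.integrable_of_hasCompactSupport hc)
  rw [hp μ hu]
  simp only [hp _ (hus _)]
  refine VagB0_gen h hC hus hR (fun x => Metric.equicontinuousAt_iff.2 fun ε hε => ?_)
    (fun j x hx => ?_) fun x => h _ (hcx x) (hox x).hasCompactSupport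
  · obtain ⟨η, hη, hη'⟩ := VagB0_small (K := C * R ^ n) (by positivity) hε
    obtain ⟨δ, hδ, hδ'⟩ := Metric.uniformContinuous_iff.1 (hc.uniformContinuous_of_continuous hF) η hη
    refine ⟨δ, hδ, fun x' hx' j => ?_⟩
    rw [Real.dist_eq]
    refine (VagB0_diff hC (hus j) (hcx x) (hcx x') hR hη.le (hox x) (hox x') fun y => ?_).trans_lt hη'
    exact (hδ' (a := (x, y)) (b := (x', y)) (by simpa [dist_comm] using hx')).le
  · simp only [h0 x _ (Or.inl hx), integral_zero]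

theorem VL.EE (h : VL μs μ) (hC : 0 ≤ C) (hu : Up n C μ) (hus : ∀ j, Up n C (μs j))
    {f ψ : X d → ℝ} (hf : Continuous f) (hψ : Continuous ψ) (hc : HasCompactSupport ψ) {t s : ℝ}
    (ht : 0 < t) (hs : 0 < s) :
    Tendsto (fun j => EE n (μs j) t s f ψ) UU (𝓝 (EE n μ t s f ψ)) := by
  obtain ⟨h1, h2, -, h3⟩ := EE_prod hu ht hs hf hψ hc
  rw [h3]
  exact (h.prod hC hu hus h1 h2).congr fun j => (EE_prod (hus j) ht hs hf hψ hc).2.2.2.symm

end Crest.Agent.R085
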